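import Mathlib

/-!
A verified exhaustive search for packings: vectors of multiplicities, encoded as numbers.
-/

namespace Vale.Agent.P302

/-- componentwise sum -/
def vadd : List ℕ → List ℕ → List ℕ
  | x :: xs, y :: ys => (x + y) :: vadd xs ys
  | _, _ => []

theorem vadd_comm : ∀ x y : List ℕ, vadd x y = vadd y x
  | [], [] => rfl
  | [], _ :: _ => rfl
  | _ :: _, [] => rfl
  | x :: xs, y :: ys => by simp [vadd, vadd_comm xs ys, Nat.add_comm]

theorem vadd_assoc : ∀ x y z : List ℕ, vadd (vadd x y) z = vadd x (vadd y z)
  | [], [], [] => rfl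
  | [], [], _ :: _ => rfl
  | [], _ :: _, [] => rfl
  | [], _ :: _, _ :: _ => rfl
  | _ :: _, [], [] => rfl
  | _ :: _, [], _ :: _ => rfl
  | _ :: _, _ :: _, [] => rfl
  | x :: xs, y :: ys, z :: zs => by simp [vadd, vadd_assoc xs ys zs, Nat.add_assoc]

theorem length_vadd : ∀ x y : List ℕ, x.length = y.length → (vadd x y).length = x.length
  | [], [], _ => rfl
  | x :: xs, y :: ys, h => by
      simp only [vadd, List.length_cons] at *
      rw [length_vadd xs ys (by omega)]

/-- total size -/
def dot : List ℕ → List ℕ → ℕ
  | w :: ws, p :: ps => p * w + dot ws ps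
  | _, _ => 0

theorem dot_vadd : ∀ ws p q : List ℕ, p.length = ws.length → q.length = ws.length →
    dot ws (vadd p q) = dot ws p + dot ws q
  | [], [], [], _, _ => rfl
  | w :: ws, p :: ps, q :: qs, hp, hq => by
      simp only [List.length_cons, Nat.add_right_cancel_iff] at hp hq
      simp only [vadd, dot, dot_vadd ws ps qs hp hq]
      ring

/-- The vector `s` is a sum of `k` vectors of total size at most `C`. -/
def Solv (ws : List ℕ) (C : ℕ) : ℕ → List ℕ → Prop
  | 0, s => ∀ x ∈ s, x = 0
  | k + 1, s => ∃ p q : List ℕ, p.length = ws.length ∧ q.length = ws.length ∧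
      s = vadd p q ∧ dot ws p ≤ C ∧ Solv ws C k q

theorem getD_vadd : ∀ (x y : List ℕ) (t : ℕ), x.length = y.length →
    (vadd x y).getD t 0 = x.getD t 0 + y.getD t 0
  | [], [], _, _ => by simp [vadd]
  | x :: xs, y :: ys, 0, h => by simp [vadd]
  | x :: xs, y :: ys, t + 1, h => by
      simp only [List.length_cons, Nat.add_right_cancel_iff] at h
      simpa [vadd] using getD_vadd xs ys t h

theorem Solv.exch {ws : List ℕ} {C : ℕ} : ∀ (k : ℕ) (s : List ℕ) (t : ℕ),
    Solv ws C (k + 1) s → 0 < s.getD t 0 →
    ∃ p q : List ℕ, p.length = ws.length ∧ q.length = ws.length ∧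
      s = vadd p q ∧ dot ws p ≤ C ∧ Solv ws C k q ∧ 0 < p.getD t 0 := by
  intro k
  induction k with
  | zero =>
      rintro s t ⟨p, q, hp, hq, hs, hd, hk⟩ ht
      refine ⟨p, q, hp, hq, hs, hd, hk, ?_⟩
      rw [hs, getD_vadd p q t (by omega)] at ht
      have : q.getD t 0 = 0 := by
        by_cases h : t < q.length
        · rw [List.getD_eq_getElem _ _ h]
          exact hk _ (List.getElem_mem h)
        · exact List.getD_eq_default _ _ (by omega)
      omega
  | succ k ih =>
      rintro s t ⟨p, q, hp, hq, hs, hd, hk⟩ ht
      by_cases hpt : 0 < p.getD t 0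
      · exact ⟨p, q, hp, hq, hs, hd, hk, hpt⟩
      · rw [hs, getD_vadd p q t (by omega)] at ht
        obtain ⟨p', q', hp', hq', hs', hd', hk', ht'⟩ := ih q t hk (by omega)
        refine ⟨p', vadd p q', hp', ?_, ?_, hd', ⟨p, q', hp, hq', rfl, hd, hk'⟩, ht'⟩
        · rw [length_vadd _ _ (by omega), hp]
        · rw [hs, hs', ← vadd_assoc, vadd_comm p p', vadd_assoc]

theorem Solv.dot_le {ws : List ℕ} {C : ℕ} : ∀ (k : ℕ) (s : List ℕ), s.length = ws.length →
    Solv ws C k s → dot ws s ≤ k * C
  | 0, s, hl, h => by
      have : ∀ (ws s : List ℕ), s.length = ws.length → (∀ x ∈ s, x = 0) → dot ws s = 0 := by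
        intro ws
        induction ws with
        | nil => intro s hs _; cases s <;> simp_all [dot]
        | cons w ws ih =>
            intro s hs h
            cases s with
            | nil => simp at hs
            | cons x xs =>
                simp only [List.length_cons, Nat.add_right_cancel_iff] at hs
                have h0 : x = 0 := h x (by simp)
                simp [dot, h0, ih xs hs (fun y hy => h y (by simp [hy]))]
      simp [this ws s hl h]
  | k + 1, s, hl, ⟨p, q, hp, hq, hs, hd, hk⟩ => by
      have := Solv.dot_le k q hq hk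
      rw [hs, dot_vadd ws p q hp hq]
      nlinarith

/-- binary search trees of numbers -/
inductive Tree : Type
  | nil : Tree
  | node : Tree → ℕ → Tree → Tree

/-- membership test -/
def Tree.mem (x : ℕ) : Tree → Bool
  | .nil => false
  | .node l y r => bif Nat.beq x y then true else bif Nat.ble x y then Tree.mem x l else Tree.mem x r

/-- all labels satisfy `f` -/
def Tree.all (f : ℕ → Bool) : Tree → Bool
  | .nil => true
  | .node l y r => f y && (Tree.all f l && Tree.all f r)

theorem Tree.all_mem {f : ℕ → Bool} : ∀ {t : Tree}, t.all f = true → ∀ {x}, t.mem x = true →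
    f x = true
  | .nil, _, x, h => by simp [Tree.mem] at h
  | .node l y r, ha, x, h => by
      simp only [Tree.all, Bool.and_eq_true] at ha
      obtain ⟨h1, h2, h3⟩ := ha
      unfold Tree.mem at h
      by_cases hxy : x = y
      · rw [hxy]; exact h1
      · have hb : Nat.beq x y = false := by
          cases hh : Nat.beq x y with
          | false => rfl
          | true => exact absurd (Nat.eq_of_beq_eq_true hh) hxy
        rw [hb] at h
        simp only [cond_false] at h
        cases hle : Nat.ble x y with
        | true => rw [hle] at h; exact Tree.all_mem h2 h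
        | false => rw [hle] at h; exact Tree.all_mem h3 h

/-- take up to `c` copies of an item of size `w` and code `r` -/
def take (g : ℕ → ℕ → Bool) (w r : ℕ) : ℕ → ℕ → ℕ → Bool
  | 0, space, acc => g space acc
  | c + 1, space, acc =>
      g space acc && (bif Nat.ble w space then take g w r c (space - w) (acc - r) else true)

/-- fill a bin with further items in all possible ways; every result must be pruned or in `T` -/
def fill (T : Tree) (slack : ℕ) : List (ℕ × ℕ × ℕ) → ℕ → ℕ → Bool
  | [], space, acc => bif Nat.ble space slack then T.mem acc else true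
  | x :: l, space, acc => take (fill T slack l) x.1 x.2.1 x.2.2 space acc

/-- the bin of the first remaining item -/
def chk (C : ℕ) (T : Tree) (slack code : ℕ) : List (ℕ × ℕ × ℕ) → Bool
  | [] => false
  | (_, _, 0) :: l => chk C T slack code l
  | (w, r, c + 1) :: l =>
      bif Nat.ble w C then take (fill T slack l) w r c (C - w) (code - r) else true

/-- decoding of a state -/
def digs (B : ℕ) : List ℕ → ℕ → ℕ → List (ℕ × ℕ × ℕ)
  | [], _, _ => []
  | w :: ws, r, c => (w, r, c % B) :: digs B ws (r * B) (c / B)

/-- total size of a decoded state -/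
def tot : List (ℕ × ℕ × ℕ) → ℕ
  | [] => 0
  | x :: l => x.2.2 * x.1 + tot l

/-- all states in `T'` are dead with `k+1` bins if all states in `T` are dead with `k` bins -/
def level (C B : ℕ) (ws : List ℕ) (k : ℕ) (T' T : Tree) : Bool :=
  T'.all fun code => chk C T ((k + 1) * C - tot (digs B ws 1 code)) code (digs B ws 1 code)

/-- encoding of a vector -/
def enc (B : ℕ) : List ℕ → ℕ
  | [] => 0
  | x :: xs => x + B * enc B xs

/-- the list of triples of a vector -/
def trip (B : ℕ) : List ℕ → ℕ → List ℕ → List (ℕ × ℕ × ℕ)
  | w :: ws, r, x :: xs => (w, r, x) :: trip B ws (r * B) xs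
  | _, _, _ => []

theorem digs_enc {B : ℕ} : ∀ (ws : List ℕ) (r : ℕ) (v : List ℕ), v.length = ws.length →
    (∀ x ∈ v, x < B) → digs B ws r (enc B v) = trip B ws r v
  | [], _, [], _, _ => rfl
  | w :: ws, r, x :: xs, h, hv => by
      simp only [List.length_cons, Nat.add_right_cancel_iff] at h
      have hx : x < B := hv x (by simp)
      have hB : 0 < B := by omega
      have ih := digs_enc ws (r * B) xs h (fun y hy => hv y (by simp [hy]))
      simp only [digs, trip, enc]
      rw [Nat.add_mul_mod_self_left, Nat.mod_eq_of_lt hx, Nat.add_mul_div_left _ _ hB,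
        Nat.div_eq_of_lt hx, Nat.zero_add, ih]

theorem tot_trip {B : ℕ} : ∀ (ws : List ℕ) (r : ℕ) (v : List ℕ),
    tot (trip B ws r v) = dot ws v
  | [], _, [] => rfl
  | [], _, _ :: _ => rfl
  | _ :: _, _, [] => rfl
  | w :: ws, r, x :: xs => by simp [trip, tot, dot, tot_trip ws (r * B) xs]

theorem take_spec {g : ℕ → ℕ → Bool} {w r : ℕ} : ∀ (c space acc : ℕ),
    take g w r c space acc = true → ∀ j ≤ c, j * w ≤ space →
      g (space - j * w) (acc - j * r) = true
  | 0, space, acc, h, j, hj, _ => by
      have : j = 0 := by omega
      subst this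
      simpa [take] using h
  | c + 1, space, acc, h, j, hj, hs => by
      simp only [take, Bool.and_eq_true] at h
      cases j with
      | zero => simpa using h.1
      | succ j =>
          have hw : w ≤ space := by nlinarith
          have hb : Nat.ble w space = true := Nat.ble_eq_true_of_le hw
          have h2 := h.2
          rw [hb] at h2
          simp only [cond_true] at h2
          have := take_spec c (space - w) (acc - r) h2 j (by omega) (by
            rw [Nat.succ_mul] at hs; omega)
          rw [Nat.succ_mul, Nat.succ_mul]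
          rw [show space - (j * w + w) = space - w - j * w by omega,
            show acc - (j * r + r) = acc - r - j * r by omega]
          exact this

theorem fill_spec {T : Tree} {slack B : ℕ} : ∀ (ws : List ℕ) (r : ℕ) (v p : List ℕ)
    (space acc : ℕ), v.length = ws.length → List.Forall₂ (· ≤ ·) p v →
    fill T slack (trip B ws r v) space acc = true → dot ws p ≤ space →
    space - dot ws p ≤ slack → T.mem (acc - r * enc B p) = true
  | [], r, [], [], space, acc, _, _, h, _, hs => by
      simp only [trip, fill, dot, enc, Nat.mul_zero, Nat.sub_zero] at *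
      have : Nat.ble space slack = true := Nat.ble_eq_true_of_le hs
      rw [this] at h
      simpa using h
  | w :: ws, r, x :: xs, y :: ys, space, acc, hl, hp, h, hd, hs => by
      simp only [List.length_cons, Nat.add_right_cancel_iff] at hl
      rw [List.forall₂_cons] at hp
      simp only [trip, fill] at h
      simp only [dot] at hd hs
      have h1 := take_spec x space acc h y hp.1 (by omega)
      have := fill_spec (B := B) ws (r * B) xs ys (space - y * w) (acc - y * r) hl hp.2 h1
        (by omega) (by omega)
      simp only [enc]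
      rw [show acc - r * (y + B * enc B ys) = acc - y * r - r * B * enc B ys by
        rw [Nat.mul_add, Nat.sub_add_eq]; ring_nf]
      exact this

theorem enc_vadd {B : ℕ} : ∀ (p q : List ℕ), p.length = q.length →
    enc B (vadd p q) = enc B p + enc B q
  | [], [], _ => rfl
  | x :: xs, y :: ys, h => by
      simp only [List.length_cons, Nat.add_right_cancel_iff] at h
      simp only [vadd, enc, enc_vadd xs ys h]
      ring

theorem chk_spec {T : Tree} {C slack code B : ℕ} : ∀ (ws : List ℕ) (r : ℕ) (v : List ℕ),
    v.length = ws.length → chk C T slack code (trip B ws r v) = true →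
    ∃ t, 0 < v.getD t 0 ∧ ∀ p : List ℕ, List.Forall₂ (· ≤ ·) p v → 0 < p.getD t 0 →
      dot ws p ≤ C → C - dot ws p ≤ slack → T.mem (code - r * enc B p) = true
  | [], _, [], _, h => by simp [trip, chk] at h
  | w :: ws, r, 0 :: xs, hl, h => by
      simp only [List.length_cons, Nat.add_right_cancel_iff] at hl
      simp only [trip, chk] at h
      obtain ⟨t, ht, H⟩ := chk_spec ws (r * B) xs hl h
      refine ⟨t + 1, by simpa using ht, ?_⟩
      intro p hp ht' hd hs
      cases p with
      | nil => simp at hp
      | cons y ys =>
          rw [List.forall₂_cons] at hp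
          obtain ⟨hy, hys⟩ := hp
          have hy0 : y = 0 := by omega
          subst hy0
          simp only [dot, Nat.zero_mul, Nat.zero_add] at hd hs
          have := H ys hys (by simpa using ht') hd hs
          simpa [enc, Nat.mul_assoc] using this
  | w :: ws, r, (c + 1) :: xs, hl, h => by
      simp only [List.length_cons, Nat.add_right_cancel_iff] at hl
      simp only [trip, chk] at h
      refine ⟨0, by simp, ?_⟩
      intro p hp ht' hd hs
      cases p with
      | nil => simp at hp
      | cons y ys =>
          rw [List.forall₂_cons] at hp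
          obtain ⟨hy, hys⟩ := hp
          simp only [List.getD_cons_zero] at ht'
          obtain ⟨j, rfl⟩ : ∃ j, y = j + 1 := ⟨y - 1, by omega⟩
          simp only [dot, Nat.succ_mul] at hd hs
          have hw : Nat.ble w C = true := Nat.ble_eq_true_of_le (by omega)
          rw [hw] at h
          simp only [cond_true] at h
          have h1 := take_spec c (C - w) (code - r) h j (by omega) (by omega)
          have := fill_spec (B := B) ws (r * B) xs ys (C - w - j * w) (code - r - j * r) hl hys h1
            (by omega) (by omega)
          simp only [enc]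
          rw [show code - r * (j + 1 + B * enc B ys) = code - r - j * r - r * B * enc B ys by
            rw [Nat.mul_add, Nat.sub_add_eq, Nat.mul_add, Nat.mul_one, Nat.add_comm (r * j) r,
              Nat.sub_add_eq]; ring_nf]
          exact this

/-- The state with code `c` cannot be packed into `k` bins. -/
def Dead (C B : ℕ) (ws : List ℕ) (k c : ℕ) : Prop :=
  ∀ v : List ℕ, v.length = ws.length → (∀ x ∈ v, x < B) → enc B v = c → ¬ Solv ws C k v

theorem forall₂_vadd : ∀ p q : List ℕ, p.length = q.length → List.Forall₂ (· ≤ ·) p (vadd p q)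
  | [], [], _ => List.Forall₂.nil
  | x :: xs, y :: ys, h => by
      simp only [List.length_cons, Nat.add_right_cancel_iff] at h
      exact List.Forall₂.cons (Nat.le_add_right _ _) (forall₂_vadd xs ys h)

theorem mem_vadd_right : ∀ p q : List ℕ, p.length = q.length → ∀ x ∈ q, ∃ y ∈ vadd p q, x ≤ y
  | [], [], _, x, hx => by simp at hx
  | a :: xs, b :: ys, h, x, hx => by
      simp only [List.length_cons, Nat.add_right_cancel_iff] at h
      rcases List.mem_cons.1 hx with rfl | hx
      · exact ⟨a + x, by simp [vadd], by omega⟩
      · obtain ⟨y, hy, hxy⟩ := mem_vadd_right xs ys h x hx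
        exact ⟨y, by simp [vadd, hy], hxy⟩

theorem level_spec {C B : ℕ} {ws : List ℕ} {k : ℕ} {T' T : Tree}
    (hT : ∀ c, T.mem c = true → Dead C B ws k c) (h : level C B ws k T' T = true) :
    ∀ c, T'.mem c = true → Dead C B ws (k + 1) c := by
  rintro c hc v hl hv hcode hS
  have h1 := Tree.all_mem h hc
  subst hcode
  rw [digs_enc ws 1 v hl hv, tot_trip] at h1
  obtain ⟨t, ht, H⟩ := chk_spec ws 1 v hl h1
  obtain ⟨p, q, hp, hq, hs, hd, hk, hpt⟩ := Solv.exch k v t hS ht
  have hq' := Solv.dot_le k q hq hk
  have hv' : dot ws v = dot ws p + dot ws q := by rw [hs, dot_vadd ws p q hp hq]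
  have hm := H p (by rw [hs]; exact forall₂_vadd p q (by omega)) hpt hd (by
    rw [hv', Nat.succ_mul]; omega)
  rw [Nat.one_mul] at hm
  have he : enc B v = enc B p + enc B q := by rw [hs, enc_vadd p q (by omega)]
  rw [he, Nat.add_sub_cancel_left] at hm
  refine hT _ hm q hq ?_ rfl hk
  intro x hx
  obtain ⟨y, hy, hxy⟩ := mem_vadd_right p q (by omega) x hx
  rw [← hs] at hy
  exact lt_of_le_of_lt hxy (hv y hy)

theorem dead_nil {C B : ℕ} {ws : List ℕ} {k : ℕ} : ∀ c, Tree.nil.mem c = true → Dead C B ws k c := by
  intro c h
  simp [Tree.mem] at h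

end Vale.Agent.P302
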