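import Vale.Agent.P302.Defs
import Vale.Agent.P302.Search

/-!
From certificates about lists of natural numbers to statements about bin packing instances.
-/

namespace Vale.Agent.P302

/-- The instance with sizes `x / C`, `x` in the list. -/
def inst (C : ℕ) (items : List ℕ) : Fin items.length → ℚ := fun i => (items.get i : ℚ) / C

/-- Integer form of `Packs`. -/
def NatPacks (C k : ℕ) (items : List ℕ) : Prop :=
  ∃ f : Fin items.length → Fin k,
    ∀ b : Fin k, ∑ i ∈ Finset.univ.filter (fun i => f i = b), items.get i ≤ C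

theorem packs_iff {C k : ℕ} (hC : 0 < C) (items : List ℕ) :
    Packs (inst C items) k ↔ NatPacks C k items := by
  have hC' : (0 : ℚ) < C := by exact_mod_cast hC
  unfold Packs NatPacks
  refine exists_congr fun f => forall_congr' fun b => ?_
  simp only [inst]
  rw [← Finset.sum_div, div_le_one hC']
  exact_mod_cast Iff.rfl

/-- the multiplicity vector of a set of items -/
def vec {ι : Type} (ws : List ℕ) (a : ι → ℕ) (s : Finset ι) : List ℕ :=
  ws.map fun w => (s.filter (fun i => a i = w)).card

theorem dot_vec {ι : Type} [DecidableEq ι] (a : ι → ℕ) : ∀ (ws : List ℕ), ws.Nodup →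
    ∀ s : Finset ι, dot ws (vec ws a s) ≤ ∑ i ∈ s, a i
  | [], _, s => by simp [dot]
  | w :: ws, h, s => by
      rw [List.nodup_cons] at h
      have ih := dot_vec a ws h.2 (s.filter (fun i => ¬ a i = w))
      have e : vec ws a s = vec ws a (s.filter (fun i => ¬ a i = w)) := by
        unfold vec
        refine List.map_congr_left fun u hu => ?_
        rw [Finset.filter_filter]
        congr 1
        ext i
        simp only [Finset.mem_filter]
        constructor
        · rintro ⟨h1, h2⟩
          refine ⟨h1, ?_, h2⟩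
          rintro h3
          rw [h2] at h3
          exact h.1 (h3 ▸ hu)
        · rintro ⟨h1, _, h2⟩
          exact ⟨h1, h2⟩
      have e2 : dot (w :: ws) (vec (w :: ws) a s)
          = (s.filter (fun i => a i = w)).card * w + dot ws (vec ws a s) := rfl
      rw [e2, e, ← Finset.sum_filter_add_sum_filter_not s (fun i => a i = w)]
      refine Nat.add_le_add ?_ ih
      rw [Finset.sum_congr rfl (g := fun _ => w) (fun i hi => (Finset.mem_filter.1 hi).2)]
      simp

theorem vec_split {ι : Type} [DecidableEq ι] (a : ι → ℕ) (s : Finset ι) (P : ι → Prop)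
    [DecidablePred P] : ∀ ws : List ℕ,
    vec ws a s = vadd (vec ws a (s.filter P)) (vec ws a (s.filter (fun i => ¬ P i)))
  | [] => rfl
  | w :: ws => by
      have ih := vec_split a s P ws
      unfold vec at *
      simp only [List.map_cons, vadd]
      rw [← ih]
      congr 1
      rw [Finset.filter_comm P, Finset.filter_comm (fun i => ¬ P i)]
      exact (Finset.card_filter_add_card_filter_not _).symm

theorem solv_of_assign {ι : Type} [DecidableEq ι] (a : ι → ℕ) (ws : List ℕ) (hws : ws.Nodup)
    (C : ℕ) : ∀ (k : ℕ) (s : Finset ι) (f : ι → ℕ), (∀ i ∈ s, f i < k) →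
    (∀ b, ∑ i ∈ s.filter (fun i => f i = b), a i ≤ C) → Solv ws C k (vec ws a s)
  | 0, s, f, h, _ => by
      have : s = ∅ := Finset.eq_empty_of_forall_notMem fun i hi => absurd (h i hi) (by omega)
      subst this
      intro x hx
      simp only [vec, Finset.filter_empty, Finset.card_empty, List.mem_map] at hx
      obtain ⟨_, _, rfl⟩ := hx
      rfl
  | k + 1, s, f, h, hb => by
      refine ⟨vec ws a (s.filter (fun i => f i = k)), vec ws a (s.filter (fun i => ¬ f i = k)),
        by simp [vec], by simp [vec], vec_split a s _ ws, (dot_vec a ws hws _).trans (hb k), ?_⟩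
      refine solv_of_assign a ws hws C k _ f ?_ ?_
      · intro i hi
        obtain ⟨h1, h2⟩ := Finset.mem_filter.1 hi
        have := h i h1
        omega
      · intro b
        refine le_trans ?_ (hb b)
        refine Finset.sum_le_sum_of_subset ?_
        intro i hi
        simp only [Finset.mem_filter] at *
        exact ⟨hi.1.1, hi.2⟩

theorem NatPacks.solv {C k : ℕ} {items ws : List ℕ} (hws : ws.Nodup) (h : NatPacks C k items) :
    Solv ws C k (vec ws items.get Finset.univ) := by
  obtain ⟨f, hf⟩ := h
  refine solv_of_assign items.get ws hws C k Finset.univ (fun i => (f i : ℕ)) ?_ ?_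
  · intro i _
    exact (f i).2
  · intro b
    by_cases hb : b < k
    · have := hf ⟨b, hb⟩
      refine le_trans (le_of_eq ?_) this
      congr 1
      ext i
      simp [Fin.ext_iff]
    · have : (Finset.univ.filter fun i => (f i : ℕ) = b) = ∅ := by
        refine Finset.filter_eq_empty_iff.2 ?_
        intro i _ hi
        exact hb (hi ▸ (f i).2)
      rw [this]
      simp

theorem Packs.mono {n : ℕ} {a : Fin n → ℚ} {k l : ℕ} (hkl : k ≤ l) (h : Packs a k) :
    (∀ i, 0 ≤ a i) → Packs a l := by
  intro ha
  obtain ⟨f, hf⟩ := h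
  refine ⟨fun i => Fin.castLE hkl (f i), fun b => ?_⟩
  by_cases hb : (b : ℕ) < k
  · refine le_trans (le_of_eq ?_) (hf ⟨b, hb⟩)
    congr 1
    ext i
    simp [Fin.ext_iff]
  · have : (Finset.univ.filter fun i => Fin.castLE hkl (f i) = b) = ∅ := by
      refine Finset.filter_eq_empty_iff.2 ?_
      intro i _ hi
      exact hb (by rw [← hi]; simp)
    rw [this]
    simp

theorem opt_eq {n : ℕ} {a : Fin n → ℚ} (ha : IsInstance a) {k : ℕ} (h1 : Packs a (k + 1))
    (h2 : ¬ Packs a k) : OPT a = k + 1 := by
  unfold OPT
  apply le_antisymm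
  · exact Nat.sInf_le h1
  · refine le_csInf ⟨_, h1⟩ ?_
    intro l hl
    by_contra hlt
    exact h2 (Packs.mono (by omega) hl fun i => (ha i).1.le)

/-- A list of weighted patterns covering all items. -/
def IsCert (C : ℕ) (items : List ℕ) (cert : List (ℚ × List ℕ)) : Prop :=
  (∀ p ∈ cert, 0 ≤ p.1 ∧ p.2.sum ≤ C) ∧
    ∀ x ∈ items, (items.count x : ℚ) ≤ (cert.map fun p => p.1 * (p.2.count x : ℚ)).sum

/-- the configuration of a pattern -/
def cfg {n : ℕ} (a : Fin n → ℚ) (C : ℕ) (L : List ℕ) : sizes a → ℕ :=
  fun σ => (L.map fun x : ℕ => (x : ℚ) / C).count (σ : ℚ)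

theorem sum_count_le {S : Finset ℚ} : ∀ L : List ℚ, (∀ x ∈ L, 0 ≤ x) →
    ∑ σ : S, (σ : ℚ) * ((L.count (σ : ℚ) : ℕ) : ℚ) ≤ L.sum
  | [], _ => by simp
  | x :: L, h => by
      have ih := sum_count_le (S := S) L fun y hy => h y (by simp [hy])
      have hx : 0 ≤ x := h x (by simp)
      have : ∀ σ : S, (σ : ℚ) * (((x :: L).count (σ : ℚ) : ℕ) : ℚ)
          = (σ : ℚ) * ((L.count (σ : ℚ) : ℕ) : ℚ) + (if x = (σ : ℚ) then x else 0) := by
        intro σ
        rw [List.count_cons]
        by_cases hxs : x = (σ : ℚ)
        · subst hxs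
          simp
          ring
        · simp [hxs]
      rw [Finset.sum_congr rfl fun σ _ => this σ, Finset.sum_add_distrib, List.sum_cons]
      have h2 : ∑ σ : S, (if x = (σ : ℚ) then x else 0) ≤ x := by
        by_cases hxS : x ∈ S
        · rw [Finset.sum_eq_single_of_mem (⟨x, hxS⟩ : S) (Finset.mem_univ _)]
          · simp
          · intro b _ hb
            rw [if_neg]
            intro h3
            exact hb (Subtype.ext h3.symm)
        · rw [Finset.sum_eq_zero]
          · exact hx
          · intro b _
            rw [if_neg]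
            rintro rfl
            exact hxS b.2
      linarith

/-- the fractional solution of a certificate -/
noncomputable def sol {n : ℕ} (a : Fin n → ℚ) (C : ℕ) (cert : List (ℚ × List ℕ)) :
    (sizes a → ℕ) →₀ ℝ :=
  (cert.map fun p => Finsupp.single (cfg a C p.2) (p.1 : ℝ)).sum

theorem sol_sum {n : ℕ} (a : Fin n → ℚ) (C : ℕ) (g : (sizes a → ℕ) → ℝ) :
    ∀ cert : List (ℚ × List ℕ), (sol a C cert).sum (fun c x => g c * x)
      = (cert.map fun p => g (cfg a C p.2) * (p.1 : ℝ)).sum
  | [] => by simp [sol]
  | p :: cert => by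
      have ih := sol_sum a C g cert
      unfold sol at *
      rw [List.map_cons, List.sum_cons, Finsupp.sum_add_index' (by simp) (by intros; ring), ih,
        Finsupp.sum_single_index (by simp), List.map_cons, List.sum_cons]

theorem sol_nonneg {n : ℕ} (a : Fin n → ℚ) (C : ℕ) : ∀ cert : List (ℚ × List ℕ),
    (∀ p ∈ cert, 0 ≤ p.1) → ∀ c, 0 ≤ sol a C cert c
  | [], _, c => by simp [sol]
  | p :: cert, h, c => by
      have ih := sol_nonneg a C cert (fun q hq => h q (by simp [hq])) c
      unfold sol at *
      rw [List.map_cons, List.sum_cons, Finsupp.add_apply]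
      refine add_nonneg ?_ ih
      rw [Finsupp.single_apply]
      split_ifs
      · exact_mod_cast h p (by simp)
      · exact le_rfl

theorem sol_support {n : ℕ} (a : Fin n → ℚ) (C : ℕ) : ∀ cert : List (ℚ × List ℕ),
    ∀ c, sol a C cert c ≠ 0 → ∃ p ∈ cert, c = cfg a C p.2
  | [], c, h => by simp [sol] at h
  | p :: cert, c, h => by
      by_cases hc : cfg a C p.2 = c
      · exact ⟨p, by simp, hc.symm⟩
      · have : sol a C cert c ≠ 0 := by
          unfold sol at *
          rw [List.map_cons, List.sum_cons, Finsupp.add_apply, Finsupp.single_apply,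
            if_neg hc, zero_add] at h
          exact h
        obtain ⟨q, hq, hq'⟩ := sol_support a C cert c this
        exact ⟨q, by simp [hq], hq'⟩

theorem card_get_eq (x : ℕ) : ∀ items : List ℕ,
    (Finset.univ.filter fun i : Fin items.length => items.get i = x).card = items.count x
  | [] => by simp
  | y :: l => by
      have ih := card_get_eq x l
      rw [Finset.card_filter] at ih ⊢
      have e : ∑ i : Fin (y :: l).length, (if (y :: l).get i = x then 1 else 0)
          = (if y = x then 1 else 0) + ∑ i : Fin l.length, (if l.get i = x then 1 else 0) :=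
        Fin.sum_univ_succ (n := l.length) (fun i => if (y :: l).get i = x then 1 else 0)
      rw [e, ih, List.count_cons]
      by_cases h : y = x <;> simp [h, Nat.add_comm]

theorem mult_inst {C : ℕ} (hC : 0 < C) (items : List ℕ) (x : ℕ) :
    mult (inst C items) ((x : ℚ) / C) = items.count x := by
  have hC' : (C : ℚ) ≠ 0 := by exact_mod_cast hC.ne'
  rw [← card_get_eq]
  unfold mult inst
  congr 1
  ext i
  simp only [Finset.mem_filter, Finset.mem_univ, true_and]
  rw [div_left_inj' hC']
  exact_mod_cast Iff.rfl

theorem sum_div_list (C : ℕ) : ∀ l : List ℕ,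
    (l.map fun x : ℕ => (x : ℚ) / C).sum = ((l.sum : ℕ) : ℚ) / C
  | [] => by simp
  | x :: l => by
      rw [List.map_cons, List.sum_cons, sum_div_list C l, List.sum_cons, Nat.cast_add, add_div]

theorem cast_list_sum {α : Type} (g : α → ℚ) : ∀ l : List α,
    (((l.map g).sum : ℚ) : ℝ) = (l.map fun p => ((g p : ℚ) : ℝ)).sum
  | [] => by simp
  | x :: l => by
      rw [List.map_cons, List.sum_cons, Rat.cast_add, cast_list_sum g l, List.map_cons,
        List.sum_cons]

theorem lp_le {C : ℕ} (hC : 0 < C) {items : List ℕ} {cert : List (ℚ × List ℕ)}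
    (h : IsCert C items cert) : LP (inst C items) ≤ (((cert.map Prod.fst).sum : ℚ) : ℝ) := by
  have hC' : (0 : ℚ) < C := by exact_mod_cast hC
  obtain ⟨h1, h2⟩ := h
  unfold LP
  refine csInf_le ⟨0, ?_⟩ ⟨sol (inst C items) C cert, ⟨?_, ?_, ?_⟩, ?_⟩
  · rintro v ⟨z, hz, rfl⟩
    exact Finsupp.sum_nonneg fun c _ => hz.1 c
  · exact sol_nonneg _ C cert fun p hp => (h1 p hp).1
  · intro c hc
    obtain ⟨p, hp, rfl⟩ := sol_support _ C cert c hc
    unfold IsConfig cfg
    refine (sum_count_le _ ?_).trans ?_
    · intro x hx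
      obtain ⟨y, _, rfl⟩ := List.mem_map.1 hx
      positivity
    · rw [sum_div_list, div_le_one hC']
      exact_mod_cast (h1 p hp).2
  · rintro ⟨σ, hσ⟩
    obtain ⟨i, _, rfl⟩ := Finset.mem_image.1 hσ
    have hx : items.get i ∈ items := List.get_mem _ _
    have h3 := h2 _ hx
    have hg := sol_sum (inst C items) C (fun c => (c ⟨inst C items i, hσ⟩ : ℝ)) cert
    simp only at hg ⊢
    rw [hg]
    have h4 : mult (inst C items) (inst C items i) = items.count (items.get i) :=
      mult_inst hC items _
    rw [h4]
    have h5 : ∀ p : ℚ × List ℕ, (cfg (inst C items) C p.2 ⟨inst C items i, hσ⟩ : ℝ) * (p.1 : ℝ)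
        = ((p.1 * (p.2.count (items.get i) : ℚ) : ℚ) : ℝ) := by
      intro p
      have : cfg (inst C items) C p.2 ⟨inst C items i, hσ⟩ = p.2.count (items.get i) := by
        unfold cfg inst
        simp only
        refine List.count_map_of_injective p.2 (fun x : ℕ => (x : ℚ) / C) ?_ _
        intro u v huv
        simp only at huv
        rw [div_left_inj' hC'.ne'] at huv
        exact_mod_cast huv
      rw [this]
      push_cast
      ring
    simp only [h5]
    rw [← cast_list_sum (fun p : ℚ × List ℕ => p.1 * (p.2.count (items.get i) : ℚ)) cert]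
    exact_mod_cast h3
  · have := sol_sum (inst C items) C (fun _ => (1 : ℝ)) cert
    simp only [one_mul] at this
    rw [this]
    exact cast_list_sum Prod.fst cert

end Vale.Agent.P302
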