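import Vale.Agent.P302.Family

/-! Data of an instance with capacity 1800 and 26 items: `OPT = 10`, `LP ≤ 211/24`. -/

namespace Vale.Agent.P302.DataA

/-- the item sizes, in units of `1/1800` -/
def items : List ℕ := [1408, 1385, 1360, 905, 896, 768, 768, 764, 602, 602, 600, 599, 521, 521, 521, 517, 516, 512, 441, 221, 221, 220, 197, 197, 196, 173]

/-- the distinct sizes -/
def ws : List ℕ := [1408, 1385, 1360, 905, 896, 768, 764, 602, 600, 599, 521, 517, 516, 512, 441, 221, 220, 197, 196, 173]

/-- a fractional packing; weights in units of `1/24` -/
def cert : List (ℕ × List ℕ) :=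
  [(12, [1360, 220, 220]),
   (12, [1385, 197, 197]),
   (12, [1408, 197, 173]),
   (9, [768, 768, 221]),
   (12, [896, 896]),
   (12, [1360, 221, 197]),
   (16, [764, 521, 512]),
   (12, [1408, 196, 196]),
   (8, [600, 600, 600]),
   (12, [602, 599, 599]),
   (13, [521, 521, 521, 221]),
   (8, [764, 517, 517]),
   (2, [905, 602, 221]),
   (10, [905, 768]),
   (8, [768, 517, 512]),
   (12, [905, 441, 441]),
   (12, [1385, 221, 173]),
   (12, [768, 516, 516]),
   (17, [602, 602, 521])]

/-- a packing into 10 bins -/
def asg : List ℕ := [0, 1, 2, 3, 4, 3, 4, 5, 5, 6, 6, 7, 6, 7, 7, 8, 8, 8, 9, 8, 0, 1, 5, 5, 2, 1]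

def T9 : Tree := (.node .nil 384759601493 .nil)

def T8 : Tree := (.node (.node (.node (.node .nil 41162217812 .nil) 92701825364 .nil) 109881694548 (.node .nil 316040124756 .nil)) 367579732308 (.node (.node .nil 380464634196 .nil) 383685859668 (.node .nil 384759601492 .nil)))

def T7 : Tree := (.node (.node (.node (.node (.node .nil 6802479440 .nil) 23982348624 (.node .nil 36867250512 .nil)) 40088475984 (.node (.node .nil 41162217808 .nil) 75521956176 .nil)) 88406858064 (.node (.node (.node .nil 91628083536 .nil) 92701825360 (.node .nil 104512985424 .nil)) 105586727248 (.node (.node .nil 107734210896 .nil) 108807952720 .nil))) 281680386384 (.node (.node (.node (.node .nil 294565288272 .nil) 297786513744 (.node .nil 298860255568 .nil)) 311745157456 (.node (.node .nil 314966382928 .nil) 346104895824 .nil)) 349326121296 (.node (.node (.node .nil 350399863120 .nil) 363284765008 .nil) 366505990480 (.node (.node .nil 379390892368 .nil) 382612117840 .nil))))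

def T6 : Tree := (.node (.node (.node (.node (.node .nil 2507512128 .nil) 5728737600 (.node .nil 6802479424 .nil)) 18613639488 (.node (.node .nil 19687381312 .nil) 21834864960 (.node .nil 22908606784 .nil))) 34719766848 (.node (.node (.node .nil 35793508672 .nil) 39014734144 (.node .nil 70153247040 .nil)) 71226988864 (.node (.node .nil 73374472512 .nil) 74448214336 .nil))) 86259374400 (.node (.node (.node (.node .nil 87333116224 .nil) 90554341696 (.node .nil 103439243584 .nil)) 276311677248 (.node (.node .nil 277385419072 .nil) 279532902720 .nil)) 280606644544 (.node (.node (.node .nil 293491546432 .nil) 296712771904 (.node .nil 309597673792 .nil)) 345031153984 (.node (.node .nil 348252379456 .nil) 361137281344 .nil))))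

def T5 : Tree := (.node (.node (.node (.node (.node (.node (.node .nil 91592960 .nil) 1165334784 (.node .nil 1366661376 .nil)) 1416993024 (.node (.node .nil 1429575936 .nil) 1432721664 (.node .nil 1433508096 .nil))) 1433704704 (.node (.node (.node .nil 1433753856 .nil) 2507249920 (.node .nil 2507446528 .nil)) 2507495680 (.node (.node .nil 2507507968 .nil) 2507511040 (.node .nil 4386560256 .nil)))) 4587886848 (.node (.node (.node (.node .nil 4638218496 .nil) 4650801408 (.node .nil 4653947136 .nil)) 4654733568 (.node (.node .nil 4654930176 .nil) 4654979328 (.node .nil 5728475392 .nil))) 5728672000 (.node (.node (.node .nil 5728721152 .nil) 5728733440 (.node .nil 5728736512 .nil)) 17271462144 (.node (.node .nil 17472788736 .nil) 17523120384 (.node .nil 17535703296 .nil))))) 17538849024 (.node (.node (.node (.node (.node .nil 17539635456 .nil) 17539832064 (.node .nil 17539881216 .nil)) 18613377280 (.node (.node .nil 18613573888 .nil) 18613623040 (.node .nil 18613635328 .nil))) 18613638400 (.node (.node (.node .nil 21834602752 .nil) 21834799360 (.node .nil 21834848512 .nil)) 21834860800 (.node (.node .nil 21834863872 .nil) 34719504640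 (.node .nil 34719701248 .nil)))) 34719750400 (.node (.node (.node (.node .nil 34719762688 .nil) 34719765760 (.node .nil 35793504512 .nil)) 35793507584 (.node (.node .nil 39014729984 .nil) 39014733056 (.node .nil 68811069696 .nil))) 69012396288 (.node (.node (.node .nil 69062727936 .nil) 69075310848 (.node .nil 69078456576 .nil)) 69079243008 (.node (.node .nil 69079439616 .nil) 69079488768 (.node .nil 70152984832 .nil)))))) 70153181440 (.node (.node (.node (.node (.node (.node .nil 70153230592 .nil) 70153242880 (.node .nil 70153245952 .nil)) 73374210304 (.node (.node .nil 73374406912 .nil) 73374456064 (.node .nil 73374468352 .nil))) 73374471424 (.node (.node (.node .nil 86259112192 .nil) 86259308800 (.node .nil 86259357952 .nil)) 86259370240 (.node (.node .nil 86259373312 .nil) 87333112064 (.node .nil 87333115136 .nil)))) 90554337536 (.node (.node (.node (.node .nil 90554340608 .nil) 103439239424 (.node .nil 103439242496 .nil)) 274969499904 (.node (.node .nil 275170826496 .nil) 275221158144 (.node .nil 275233741056 .nil))) 275236886784 (.node (.node (.node .nil 275237673216 .nil) 275237869824 (.node .nil 275237918976 .nil)) 276311415040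 (.node (.node .nil 276311611648 .nil) 276311660800 (.node .nil 276311673088 .nil))))) 276311676160 (.node (.node (.node (.node (.node .nil 277385414912 .nil) 277385417984 (.node .nil 279532640512 .nil)) 279532837120 (.node (.node .nil 279532886272 .nil) 279532898560 (.node .nil 279532901632 .nil))) 280606640384 (.node (.node (.node .nil 280606643456 .nil) 292416755968 (.node .nil 292417542400 .nil)) 292417739008 (.node (.node .nil 292417788160 .nil) 293491542272 (.node .nil 293491545344 .nil)))) 296712767744 (.node (.node (.node (.node .nil 296712770816 .nil) 309597669632 (.node .nil 309597672704 .nil)) 343953217792 (.node (.node .nil 343956363520 .nil) 343957149952 (.node .nil 343957346560 .nil))) 343957395712 (.node (.node (.node .nil 345031149824 .nil) 345031152896 (.node .nil 348252375296 .nil)) 348252378368 (.node (.node .nil 361137277184 .nil) 361137280256 .nil))))))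

def T4 : Tree := (.node (.node (.node (.node (.node (.node (.node .nil 91588608 .nil) 91591680 (.node .nil 292657152 .nil)) 292853760 (.node (.node .nil 292902912 .nil) 342988800 .nil)) 343185408 (.node (.node (.node .nil 343234560 .nil) 355571712 (.node .nil 355768320 .nil)) 355817472 (.node (.node .nil 358717440 .nil) 358914048 .nil))) 358963200 (.node (.node (.node (.node .nil 359700480 .nil) 359749632 (.node .nil 359946240 .nil)) 359995392 (.node (.node .nil 1366657024 .nil) 1366660096 .nil)) 1416988672 (.node (.node (.node .nil 1416991744 .nil) 1429571584 (.node .nil 1429574656 .nil)) 1432717312 (.node (.node .nil 1432720384 .nil) 1433503744 .nil)))) 1433506816 (.node (.node (.node (.node (.node .nil 1433700352 .nil) 1433703424 (.node .nil 1433749504 .nil)) 1433752576 (.node (.node .nil 2507506688 .nil) 2507509760 .nil)) 4587882496 (.node (.node (.node .nil 4587885568 .nil) 4638214144 (.node .nil 4638217216 .nil)) 4650797056 (.node (.node .nil 4650800128 .nil) 4653942784 .nil))) 4653945856 (.node (.node (.node (.node .nil 4654729216 .nil) 4654732288 (.node .nil 4654925824 .nil)) 4654928896 (.node (.node .nil 4654974976 .nil)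 4654978048 .nil)) 5728732160 (.node (.node (.node .nil 5728735232 .nil) 17472784384 .nil) 17472787456 (.node (.node .nil 17523116032 .nil) 17523119104 .nil))))) 17535698944 (.node (.node (.node (.node (.node (.node .nil 17535702016 .nil) 17538844672 (.node .nil 17538847744 .nil)) 17539631104 (.node (.node .nil 17539634176 .nil) 17539827712 .nil)) 17539830784 (.node (.node (.node .nil 17539876864 .nil) 17539879936 (.node .nil 18613634048 .nil)) 18613637120 (.node (.node .nil 21834859520 .nil) 21834862592 .nil))) 34719761408 (.node (.node (.node (.node .nil 34719764480 .nil) 69012391936 (.node .nil 69012395008 .nil)) 69062723584 (.node (.node .nil 69062726656 .nil) 69075306496 .nil)) 69075309568 (.node (.node (.node .nil 69078452224 .nil) 69078455296 .nil) 69079238656 (.node (.node .nil 69079241728 .nil) 69079435264 .nil)))) 69079438336 (.node (.node (.node (.node (.node .nil 69079484416 .nil) 69079487488 (.node .nil 70153241600 .nil)) 70153244672 (.node (.node .nil 73374467072 .nil) 73374470144 .nil)) 86259368960 (.node (.node (.node .nil 86259372032 .nil) 275170822144 (.node .nil 275170825216 .nil)) 275221153792 (.node (.node .nil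 275221156864 .nil) 275233736704 .nil))) 275233739776 (.node (.node (.node (.node .nil 275236882432 .nil) 275236885504 (.node .nil 275237668864 .nil)) 275237671936 (.node (.node .nil 275237865472 .nil) 275237868544 .nil)) 275237914624 (.node (.node (.node .nil 275237917696 .nil) 276311671808 .nil) 276311674880 (.node (.node .nil 279532897280 .nil) 279532900352 .nil))))))

def T3 : Tree := (.node (.node (.node (.node (.node (.node (.node (.node (.node .nil 7701504 .nil) 7704576 .nil) 20284416 (.node .nil 20287488 .nil)) 24155136 (.node (.node (.node .nil 24204288 .nil) 24400896 .nil) 24450048 (.node .nil 74486784 .nil))) 74535936 (.node (.node (.node (.node .nil 74732544 .nil) 74781696 .nil) 87069696 (.node .nil 87118848 .nil)) 87315456 (.node (.node (.node .nil 87364608 .nil) 89478144 .nil) 90215424 (.node .nil 90264576 .nil)))) 90461184 (.node (.node (.node (.node (.node .nil 90510336 .nil) 271684608 .nil) 271881216 (.node .nil 271930368 .nil)) 274830336 (.node (.node (.node .nil 275026944 .nil) 275076096 .nil) 275813376 (.node .nil 275862528 .nil))) 276059136 (.node (.node (.node (.node .nil 276108288 .nil) 287413248 .nil) 287609856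 (.node .nil 287659008 .nil)) 288396288 (.node (.node .nil 288445440 .nil) 288642048 (.node .nil 288691200 .nil))))) 359759872 (.node (.node (.node (.node (.node (.node .nil 359956480 .nil) 360005632 .nil) 1097958400 (.node .nil 1097961472 .nil)) 1098155008 (.node (.node (.node .nil 1098158080 .nil) 1098204160 .nil) 1098207232 (.node .nil 1148290048 .nil))) 1148293120 (.node (.node (.node (.node .nil 1148486656 .nil) 1148489728 .nil) 1148535808 (.node .nil 1148538880 .nil)) 1160872960 (.node (.node .nil 1160876032 .nil) 1161069568 (.node .nil 1161072640 .nil)))) 1161118720 (.node (.node (.node (.node (.node .nil 1161121792 .nil) 1164018688 .nil) 1164021760 (.node .nil 1164215296 .nil)) 1164218368 (.node (.node (.node .nil 1164264448 .nil) 1164267520 .nil) 1345684480 (.node .nil 1345687552 .nil))) 1348830208 (.node (.node (.node (.node .nil 1348833280 .nil) 1349616640 .nil) 1349619712 (.node .nil 1349813248 .nil)) 1349816320 (.node (.node .nil 1349862400 .nil) 1349865472 (.node .nil 1361413120 .nil)))))) 1361416192 (.node (.node (.node (.node (.node (.node (.node .nil 1362199552 .nil) 1362202624 .nil) 1362396160 (.node .nil 1362399232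 .nil)) 1362445312 (.node (.node (.node .nil 1362448384 .nil) 2423619584 .nil) 2436202496 (.node .nil 2439348224 .nil))) 2486534144 (.node (.node (.node (.node .nil 4319183872 .nil) 4319186944 .nil) 4319380480 (.node .nil 4319383552 .nil)) 4319429632 (.node (.node (.node .nil 4319432704 .nil) 4369515520 .nil) 4369518592 (.node .nil 4369712128 .nil)))) 4369715200 (.node (.node (.node (.node (.node .nil 4369761280 .nil) 4369764352 .nil) 4382098432 (.node .nil 4382101504 .nil)) 4382295040 (.node (.node (.node .nil 4382298112 .nil) 4382344192 .nil) 4382347264 (.node .nil 4385244160 .nil))) 4385247232 (.node (.node (.node (.node .nil 4385440768 .nil) 4385443840 .nil) 4385489920 (.node .nil 4385492992 .nil)) 4566909952 (.node (.node .nil 4566913024 .nil) 4570055680 (.node .nil 4570058752 .nil))))) 4570842112 (.node (.node (.node (.node (.node (.node .nil 4570845184 .nil) 4571038720 .nil) 4571041792 (.node .nil 4571087872 .nil)) 4571090944 (.node (.node (.node .nil 4582638592 .nil) 4582641664 .nil) 4583425024 (.node .nil 4583428096 .nil))) 4583621632 (.node (.node (.node (.node .nil 4583624704 .nil) 4583670784 .nil) 4583673856 (.node .nil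 5644845056 .nil)) 5657427968 (.node (.node .nil 5660573696 .nil) 5707759616 (.node .nil 17204085760 .nil)))) 17204088832 (.node (.node (.node (.node (.node .nil 17204282368 .nil) 17204285440 .nil) 17204331520 (.node .nil 17204334592 .nil)) 17254417408 (.node (.node (.node .nil 17254420480 .nil) 17254614016 .nil) 17254617088 (.node .nil 17254663168 .nil))) 17254666240 (.node (.node (.node (.node .nil 17267000320 .nil) 17267003392 .nil) 17267196928 (.node .nil 17267200000 .nil)) 17267246080 (.node (.node .nil 17267249152 .nil) 17270146048 (.node .nil 17270149120 .nil))))))) 17270342656 (.node (.node (.node (.node (.node (.node (.node (.node .nil 17270345728 .nil) 17270391808 .nil) 17270394880 (.node .nil 17451811840 .nil)) 17451814912 (.node (.node (.node .nil 17454957568 .nil) 17454960640 .nil) 17455744000 (.node .nil 17455747072 .nil))) 17455940608 (.node (.node (.node (.node .nil 17455943680 .nil) 17455989760 .nil) 17455992832 (.node .nil 17467540480 .nil)) 17467543552 (.node (.node (.node .nil 17468326912 .nil) 17468329984 .nil) 17468523520 (.node .nil 17468526592 .nil)))) 17468572672 (.node (.node (.node (.node (.node .nil 17468575744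 .nil) 18529746944 .nil) 18542329856 (.node .nil 18545475584 .nil)) 18592661504 (.node (.node (.node .nil 21750972416 .nil) 21763555328 .nil) 21766701056 (.node .nil 21813886976 .nil))) 34384216064 (.node (.node (.node (.node .nil 34434547712 .nil) 34447130624 .nil) 34450276352 (.node .nil 34635874304 .nil)) 34648457216 (.node (.node .nil 34651602944 .nil) 34698788864 (.node .nil 68743693312 .nil))))) 68743696384 (.node (.node (.node (.node (.node (.node .nil 68743889920 .nil) 68743892992 .nil) 68743939072 (.node .nil 68743942144 .nil)) 68794024960 (.node (.node (.node .nil 68794028032 .nil) 68794221568 .nil) 68794224640 (.node .nil 68794270720 .nil))) 68794273792 (.node (.node (.node (.node .nil 68806607872 .nil) 68806610944 .nil) 68806804480 (.node .nil 68806807552 .nil)) 68806853632 (.node (.node .nil 68806856704 .nil) 68809753600 (.node .nil 68809756672 .nil)))) 68809950208 (.node (.node (.node (.node (.node .nil 68809953280 .nil) 68809999360 .nil) 68810002432 (.node .nil 68991419392 .nil)) 68991422464 (.node (.node (.node .nil 68994565120 .nil) 68994568192 .nil) 68995351552 (.node .nil 68995354624 .nil))) 68995548160 (.node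 (.node (.node (.node .nil 68995551232 .nil) 68995597312 .nil) 68995600384 (.node .nil 69007148032 .nil)) 69007151104 (.node (.node .nil 69007934464 .nil) 69007937536 (.node .nil 69008131072 .nil)))))) 69008134144 (.node (.node (.node (.node (.node (.node (.node .nil 69008180224 .nil) 69008183296 .nil) 70069354496 (.node .nil 70081937408 .nil)) 70085083136 (.node (.node (.node .nil 70132269056 .nil) 73290579968 .nil) 73303162880 (.node .nil 73306308608 .nil))) 73353494528 (.node (.node (.node (.node .nil 85923823616 .nil) 85974155264 .nil) 85986738176 (.node .nil 85989883904 .nil)) 86175481856 (.node (.node (.node .nil 86188064768 .nil) 86191210496 .nil) 86238396416 (.node .nil 274902123520 .nil)))) 274902126592 (.node (.node (.node (.node (.node .nil 274902320128 .nil) 274902323200 .nil) 274902369280 (.node .nil 274902372352 .nil)) 274952455168 (.node (.node (.node .nil 274952458240 .nil) 274952651776 .nil) 274952654848 (.node .nil 274952700928 .nil))) 274952704000 (.node (.node (.node (.node .nil 274965038080 .nil) 274965041152 .nil) 274965234688 (.node .nil 274965237760 .nil)) 274965283840 (.node (.node .nil 274965286912 .nil)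 274968183808 (.node .nil 274968186880 .nil))))) 274968380416 (.node (.node (.node (.node (.node (.node .nil 274968383488 .nil) 274968429568 .nil) 274968432640 (.node .nil 275149849600 .nil)) 275149852672 (.node (.node (.node .nil 275152995328 .nil) 275152998400 .nil) 275153781760 (.node .nil 275153784832 .nil))) 275153978368 (.node (.node (.node (.node .nil 275153981440 .nil) 275154027520 .nil) 275154030592 (.node .nil 275165578240 .nil)) 275165581312 (.node (.node .nil 275166364672 .nil) 275166367744 (.node .nil 275166561280 .nil)))) 275166564352 (.node (.node (.node (.node (.node .nil 275166610432 .nil) 275166613504 .nil) 275976126464 (.node .nil 276026458112 .nil)) 276039041024 (.node (.node (.node .nil 276042186752 .nil) 276227784704 .nil) 276240367616 (.node .nil 276243513344 .nil))) 276290699264 (.node (.node (.node (.node .nil 279197351936 .nil) 279247683584 .nil) 279260266496 (.node .nil 279263412224 .nil)) 279449010176 (.node (.node .nil 279461593088 .nil) 279464738816 (.node .nil 279511924736 .nil))))))))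

def T2 : Tree := (.node (.node (.node (.node (.node (.node (.node (.node .nil 3182592 .nil) 3231744 .nil) 3428352 (.node .nil 3477504 .nil)) 6328320 (.node (.node (.node .nil 6377472 .nil) 6574080 .nil) 6623232 (.node .nil 18911232 .nil))) 18960384 (.node (.node (.node (.node .nil 19156992 .nil) 19206144 .nil) 1076985856 (.node .nil 1077182464 .nil)) 1077231616 (.node (.node .nil 1080131584 .nil) 1080328192 (.node .nil 1080377344 .nil)))) 1092714496 (.node (.node (.node (.node (.node .nil 1092911104 .nil) 1092960256 .nil) 1095860224 (.node .nil 1096056832 .nil)) 1096105984 (.node (.node .nil 1143046144 .nil) 1143242752 (.node .nil 1143291904 .nil))) 4298211328 (.node (.node (.node (.node .nil 4298407936 .nil) 4298457088 .nil) 4301357056 (.node .nil 4301553664 .nil)) 4301602816 (.node (.node .nil 4313939968 .nil) 4314136576 (.node .nil 4314185728 .nil))))) 4317085696 (.node (.node (.node (.node (.node (.node .nil 4317282304 .nil) 4317331456 .nil) 4364271616 (.node .nil 4364468224 .nil)) 4364517376 (.node (.node (.node .nil 17183113216 .nil) 17183309824 .nil) 17183358976 (.node .nil 17186258944 .nil))) 17186455552 (.node (.node (.node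 (.node .nil 17186504704 .nil) 17198841856 .nil) 17199038464 (.node .nil 17199087616 .nil)) 17201987584 (.node (.node .nil 17202184192 .nil) 17202233344 (.node .nil 17249173504 .nil)))) 17249370112 (.node (.node (.node (.node (.node .nil 17249419264 .nil) 34631401472 .nil) 34631598080 (.node .nil 34631647232 .nil)) 34634547200 (.node (.node .nil 34634743808 .nil) 34634792960 (.node .nil 34647130112 .nil))) 34647326720 (.node (.node (.node (.node .nil 34647375872 .nil) 34650275840 .nil) 34650472448 (.node .nil 34650521600 .nil)) 34697461760 (.node (.node .nil 34697658368 .nil) 34697707520 (.node .nil 68722720768 .nil)))))) 68722917376 (.node (.node (.node (.node (.node (.node (.node .nil 68722966528 .nil) 68725866496 .nil) 68726063104 (.node .nil 68726112256 .nil)) 68738449408 (.node (.node (.node .nil 68738646016 .nil) 68738695168 .nil) 68741595136 (.node .nil 68741791744 .nil))) 68741840896 (.node (.node (.node (.node .nil 68788781056 .nil) 68788977664 .nil) 68789026816 (.node .nil 86171009024 .nil)) 86171205632 (.node (.node .nil 86171254784 .nil) 86174154752 (.node .nil 86174351360 .nil)))) 86174400512 (.node (.node (.node (.node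 (.node .nil 86186737664 .nil) 86186934272 .nil) 86186983424 (.node .nil 86189883392 .nil)) 86190080000 (.node (.node .nil 86190129152 .nil) 86237069312 (.node .nil 86237265920 .nil))) 86237315072 (.node (.node (.node (.node .nil 274881150976 .nil) 274881347584 .nil) 274881396736 (.node .nil 274884296704 .nil)) 274884493312 (.node (.node .nil 274884542464 .nil) 274896879616 (.node .nil 274897076224 .nil))))) 274897125376 (.node (.node (.node (.node (.node (.node .nil 274900025344 .nil) 274900221952 .nil) 274900271104 (.node .nil 274947211264 .nil)) 274947407872 (.node (.node (.node .nil 274947457024 .nil) 276223311872 .nil) 276223508480 (.node .nil 276223557632 .nil))) 276226457600 (.node (.node (.node (.node .nil 276226654208 .nil) 276226703360 .nil) 276239040512 (.node .nil 276239237120 .nil)) 276239286272 (.node (.node .nil 276242186240 .nil) 276242382848 (.node .nil 276242432000 .nil)))) 276289372160 (.node (.node (.node (.node (.node .nil 276289568768 .nil) 276289617920 .nil) 279444537344 (.node .nil 279444733952 .nil)) 279444783104 (.node (.node .nil 279447683072 .nil) 279447879680 (.node .nil 279447928832 .nil))) 279460265984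 (.node (.node (.node (.node .nil 279460462592 .nil) 279460511744 .nil) 279463411712 (.node .nil 279463608320 .nil)) 279463657472 (.node (.node .nil 279510597632 .nil) 279510794240 (.node .nil 279510843392 .nil)))))))

def T1 : Tree := .nil

def T0 : Tree := .nil

theorem level0 : level 1800 4 ws 0 T1 T0 = true := by decide +kernel

theorem level1 : level 1800 4 ws 1 T2 T1 = true := by decide +kernel

theorem level2 : level 1800 4 ws 2 T3 T2 = true := by decide +kernel

theorem level3 : level 1800 4 ws 3 T4 T3 = true := by decide +kernel

theorem level4 : level 1800 4 ws 4 T5 T4 = true := by decide +kernel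

theorem level5 : level 1800 4 ws 5 T6 T5 = true := by decide +kernel

theorem level6 : level 1800 4 ws 6 T7 T6 = true := by decide +kernel

theorem level7 : level 1800 4 ws 7 T8 T7 = true := by decide +kernel

theorem level8 : level 1800 4 ws 8 T9 T8 = true := by decide +kernel

theorem dead0 : ∀ c, T0.mem c = true → Dead 1800 4 ws 0 c := dead_nil

theorem dead1 : ∀ c, T1.mem c = true → Dead 1800 4 ws 1 c := level_spec dead0 level0

theorem dead2 : ∀ c, T2.mem c = true → Dead 1800 4 ws 2 c := level_spec dead1 level1

theorem dead3 : ∀ c, T3.mem c = true → Dead 1800 4 ws 3 c := level_spec dead2 level2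

theorem dead4 : ∀ c, T4.mem c = true → Dead 1800 4 ws 4 c := level_spec dead3 level3

theorem dead5 : ∀ c, T5.mem c = true → Dead 1800 4 ws 5 c := level_spec dead4 level4

theorem dead6 : ∀ c, T6.mem c = true → Dead 1800 4 ws 6 c := level_spec dead5 level5

theorem dead7 : ∀ c, T7.mem c = true → Dead 1800 4 ws 7 c := level_spec dead6 level6

theorem dead8 : ∀ c, T8.mem c = true → Dead 1800 4 ws 8 c := level_spec dead7 level7

theorem dead9 : ∀ c, T9.mem c = true → Dead 1800 4 ws 9 c := level_spec dead8 level8

theorem vec_eq : vec ws items.get Finset.univ = [1, 1, 1, 1, 1, 2, 1, 2, 1, 1, 3, 1, 1, 1, 1, 2, 1, 2, 1, 1] := by decide +kernel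

theorem not_packs : ¬ NatPacks 1800 9 items := by
  intro h
  have h1 := NatPacks.solv (ws := ws) (by decide +kernel) h
  rw [vec_eq] at h1
  exact dead9 384759601493 (by decide +kernel) _ (by decide +kernel) (by decide +kernel) (by decide +kernel) h1

theorem packs : NatPacks 1800 10 items :=
  ⟨fun i => Fin.ofNat 10 (asg.getD i 0), by decide +kernel⟩

theorem isCert : IsCertN 1800 24 items cert := by
  unfold IsCertN
  decide +kernel

theorem good : Good 1800 10 (211 / 24) := by
  refine ⟨items, toCert 24 cert, by decide +kernel, packs, ?_, isCert.toCert (by norm_num), ?_⟩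
  · intro k hk
    have : k = 9 := by omega
    subst this
    exact not_packs
  · rw [toCert_val, show (cert.map Prod.fst).sum = 211 by decide +kernel]
    norm_num

end Vale.Agent.P302.DataA
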