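import Vale.Agent.P302.DataBLevels

namespace Vale.Agent.P302.DataB

open Vale.Agent.P302

/-- a fractional packing; weights in units of `1/504` -/
def cert : List (ℕ × List ℕ) :=
  [(84, [123224, 58461, 52480]),
   (252, [187945, 25986, 25986]),
   (252, [187844, 26079, 25986]),
   (172, [135280, 52480, 26079, 26079]),
   (196, [135179, 52480, 52259]),
   (276, [135280, 80039]),
   (308, [135179, 52361, 52361]),
   (84, [135060, 52480, 52361]),
   (252, [187945, 26079, 25886]),
   (308, [135280, 52361, 52259]),
   (168, [80000, 80000, 80000]),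
   (252, [80039, 79962, 79962]),
   (147, [58461, 58461, 58461, 58461]),
   (160, [80039, 52480, 52480, 52480]),
   (252, [188037, 25986, 25886]),
   (160, [80039, 80039, 52480, 26079]),
   (168, [135052, 52472, 52472]),
   (252, [135060, 52469, 52469]),
   (168, [123156, 58393, 58393]),
   (336, [135052, 52480, 52462]),
   (168, [135060, 52472, 52462]),
   (252, [135280, 52360, 52360]),
   (168, [123224, 58393, 58316]),
   (252, [188037, 25978, 25978]),
   (336, [123156, 58461, 58316]),
   (252, [187844, 26078, 26078]),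
   (252, [123224, 58384, 58384])]

/-- a packing into 13 bins -/
def asg : List ℕ := [0, 1, 2, 3, 4, 5, 6, 7, 8, 9, 3, 4, 5, 6, 7, 8, 9, 9, 10, 8, 10, 10, 10, 11, 11, 11, 11, 12, 12, 11, 7, 0, 1, 1, 2, 2]

theorem hm : ∀ w ∈ ws, 25886 ≤ w := by decide +kernel

theorem dead0 : ∀ c, T0.mem c = true → Fast.Dead 240000 4 ws [] 0 c := Fast.dead_nil

theorem dead1 : ∀ c, T1.mem c = true → Fast.Dead 240000 4 ws [] 1 c :=
  Fast.level_spec hm (by simp) dead0 level0

theorem dead2 : ∀ c, T2.mem c = true → Fast.Dead 240000 4 ws [] 2 c :=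
  Fast.level_spec hm (by simp) dead1 level1

theorem dead3 : ∀ c, T3.mem c = true → Fast.Dead 240000 4 ws [] 3 c :=
  Fast.level_spec hm (by simp) dead2 level2

theorem dead4 : ∀ c, T4.mem c = true → Fast.Dead 240000 4 ws [] 4 c :=
  Fast.level_spec hm (by simp) dead3 level3

theorem dead5 : ∀ c, T5.mem c = true → Fast.Dead 240000 4 ws [] 5 c :=
  Fast.level_spec hm (by simp) dead4 level4

theorem dead6 : ∀ c, T6.mem c = true → Fast.Dead 240000 4 ws [] 6 c :=
  Fast.level_spec hm (by simp) dead5 level5

theorem dead7 : ∀ c, T7.mem c = true → Fast.Dead 240000 4 ws [] 7 c :=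
  Fast.level_spec hm (by simp) dead6 level6

theorem dead8 : ∀ c, T8.mem c = true → Fast.Dead 240000 4 ws [] 8 c :=
  Fast.level_spec hm (by simp) dead7 level7

theorem dead9 : ∀ c, T9.mem c = true → Fast.Dead 240000 4 ws [] 9 c :=
  Fast.level_spec hm (by simp) dead8 level8

theorem dead10 : ∀ c, T10.mem c = true → Fast.Dead 240000 4 ws [] 10 c :=
  Fast.level_spec hm (by simp) dead9 level9

theorem dead11 : ∀ c, T11.mem c = true → Fast.Dead 240000 4 ws [] 11 c :=
  Fast.level_spec hm (by simp) dead10 level10

theorem dead12 : ∀ c, T12.mem c = true → Fast.Dead 240000 4 ws [] 12 c :=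
  Fast.level_spec hm (by simp) dead11 level11

theorem vec_eq : vec ws items.get Finset.univ = [1, 1, 1, 2, 1, 1, 1, 1, 1, 2, 1, 1, 2, 1, 1, 1, 3, 1, 1, 1, 2, 1, 1, 2, 1, 2, 1, 1] := by decide +kernel

theorem not_packs : ¬ NatPacks 240000 12 items := by
  intro h
  have h1 := Fast.Solv.toC _ _ (NatPacks.solv (ws := ws) (by decide +kernel) h)
  rw [vec_eq] at h1
  exact dead12 25216574782264725 (by decide +kernel) _ (by decide +kernel) (by decide +kernel) (by decide +kernel) h1

theorem packs : NatPacks 240000 13 items :=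
  ⟨fun i => Fin.ofNat 13 (asg.getD i 0), by decide +kernel⟩

theorem isCert : IsCertN 240000 504 items cert := by
  unfold IsCertN
  decide +kernel

theorem good : Good 240000 13 (5927 / 504) := by
  refine ⟨items, toCert 504 cert, by decide +kernel, packs, ?_, isCert.toCert (by norm_num), ?_⟩
  · intro k hk
    have : k = 12 := by omega
    subst this
    exact not_packs
  · rw [toCert_val, show (cert.map Prod.fst).sum = 5927 by decide +kernel]
    norm_num

end Vale.Agent.P302.DataB
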