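import Vale.Agent.P302.DataBTrees

namespace Vale.Agent.P302.DataB

open Vale.Agent.P302

theorem level0 : Fast.level 240000 4 25886 ws [] 0 T0 T1 = true := by decide +kernel

theorem level1 : Fast.level 240000 4 25886 ws [] 1 T1 T2 = true := by decide +kernel

theorem level2 : Fast.level 240000 4 25886 ws [] 2 T2 T3 = true := by decide +kernel

theorem level3 : Fast.level 240000 4 25886 ws [] 3 T3 T4 = true := by decide +kernel

theorem level4 : Fast.level 240000 4 25886 ws [] 4 T4 T5 = true := by decide +kernel

theorem level5 : Fast.level 240000 4 25886 ws [] 5 T5 T6 = true := by decide +kernel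

theorem level6 : Fast.level 240000 4 25886 ws [] 6 T6 T7 = true := by decide +kernel

theorem level7 : Fast.level 240000 4 25886 ws [] 7 T7 T8 = true := by decide +kernel

theorem level8 : Fast.level 240000 4 25886 ws [] 8 T8 T9 = true := by decide +kernel

theorem level9 : Fast.level 240000 4 25886 ws [] 9 T9 T10 = true := by decide +kernel

theorem level10 : Fast.level 240000 4 25886 ws [] 10 T10 T11 = true := by decide +kernel

theorem level11 : Fast.level 240000 4 25886 ws [] 11 T11 T12 = true := by decide +kernel

end Vale.Agent.P302.DataB
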