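import Vale.Agent.P302.NestChk

/-!
Explicit levels.
-/

namespace Vale.Agent.P302.Nest.DataC

open Finset Vale.Agent.P302.Nest

/-- shape shB -/
def shB : Lev 3 0 where
  κ := ![1, 2, 0]
  P := Sum.elim ![0, 1, 1] (fun _ => 0)
  v := Sum.elim ![3, -2, 0] (fun _ => 0)
  w := Sum.elim ![0, 1, 0] (fun _ => 0)
  D := 2
  m := fun _ => 0
  κs := ![]
  Qs := fun _ => 0
  Ls := fun _ => 0
  Ns := fun _ _ => 0
  rs := fun _ _ => 0
  z := ![]
  E := 0
  c := []
  d := fun _ => .inl 0
  Q := 0
  L := 0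
  N := fun _ => 0
  r := fun _ => 0

theorem shB_dual : dualB shB.κ shB.P shB.v shB.w shB.D shB.κs shB.z = true := by decide +kernel

/-- shape shM -/
def shM : Lev 6 2 where
  κ := ![1, 2, 0]
  P := Sum.elim ![0, 0, 0, 1, 1, 1] (fun x => ![![0, 1, 0], ![0, 1, 0]] x.1 x.2)
  v := Sum.elim ![461, 680, 701, -460, -349, -229] (fun x => ![![460, -230, 0], ![700, -350, 0]] x.1 x.2)
  w := Sum.elim ![2, 1, 0, 2, 1, 0] (fun x => ![![2, 0, 0], ![0, 1, 0]] x.1 x.2)
  D := 3
  m := fun _ => 0
  κs := ![![1, 2, 0], ![1, 2, 0]]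
  Qs := fun _ => 0
  Ls := fun _ => 0
  Ns := fun _ _ => 0
  rs := fun _ _ => 0
  z := ![1, 1]
  E := 0
  c := []
  d := fun _ => .inl 0
  Q := 0
  L := 0
  N := fun _ => 0
  r := fun _ => 0

theorem shM_dual : dualB shM.κ shM.P shM.v shM.w shM.D shM.κs shM.z = true := by decide +kernel

/-- shape shTB -/
def shTB : Lev 2 0 where
  κ := ![3, 0, 0]
  P := Sum.elim ![0, 0] (fun _ => 0)
  v := Sum.elim ![-3, 2] (fun _ => 0)
  w := Sum.elim ![1, 0] (fun _ => 0)
  D := 2
  m := fun _ => 0
  κs := ![]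
  Qs := fun _ => 0
  Ls := fun _ => 0
  Ns := fun _ _ => 0
  rs := fun _ _ => 0
  z := ![]
  E := 0
  c := []
  d := fun _ => .inl 0
  Q := 0
  L := 0
  N := fun _ => 0
  r := fun _ => 0

theorem shTB_dual : dualB shTB.κ shTB.P shTB.v shTB.w shTB.D shTB.κs shTB.z = true := by decide +kernel

/-- shape shT -/
def shT : Lev 4 2 where
  κ := ![3, 0, 0]
  P := Sum.elim ![0, 0, 0, 0] (fun x => ![![0, 0, 0], ![0, 0, 0]] x.1 x.2)
  v := Sum.elim ![-1279, -420, 1, 641] (fun x => ![![0, 0, 0], ![-1280, 640, 0]] x.1 x.2)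
  w := Sum.elim ![3, 2, 1, 0] (fun x => ![![1, 0, 0], ![3, 0, 0]] x.1 x.2)
  D := 4
  m := fun _ => 0
  κs := ![![3, 0, 0], ![1, 2, 0]]
  Qs := fun _ => 0
  Ls := fun _ => 0
  Ns := fun _ _ => 0
  rs := fun _ _ => 0
  z := ![1, 1]
  E := 0
  c := []
  d := fun _ => .inl 0
  Q := 0
  L := 0
  N := fun _ => 0
  r := fun _ => 0

theorem shT_dual : dualB shT.κ shT.P shT.v shT.w shT.D shT.κs shT.z = true := by decide +kernel

def M0 : Lev 3 0 := { shB with
  m := ![1, 1, 0]
  E := 2
  c := [(1, (.inl 0, .inl 1, .inl 1))]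
  d := ![.inl 0, .inl 2, .inl 0]
  Q := 0
  L := 1
  N := ![1, 1, 0]
  r := ![1, 0, 0] }

theorem M0_has : HasSys ![1, 2, 0] 0 2 1 ![1, 1, 0] ![1, 0, 0] := by
  have h := M0.ok_of shB_dual (by decide +kernel)
  exact h.comp (fun g => g.elim0)

def M1 : Lev 6 2 := { shM with
  m := ![0, 1, 0, 1, 2, 1]
  Qs := ![0, 0]
  Ls := ![1, 1]
  Ns := ![![1, 1, 0], ![1, 1, 0]]
  rs := ![![1, 0, 0], ![1, 0, 0]]
  E := 2
  c := [(1, (.inr (0, 0), .inl 4, .inl 5)), (1, (.inr (1, 0), .inl 3, .inl 4)), (1, (.inl 1, .inl 4, .inl 4)), (1, (.inl 1, .inl 3, .inl 5))]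
  d := ![.inr (1, 0), .inr (0, 1), .inl 0]
  Q := 2
  L := 6
  N := ![3, 6, 0]
  r := ![0, 0, 0] }

theorem M1_has : HasSys ![1, 2, 0] 2 2 6 ![3, 6, 0] ![0, 0, 0] := by
  have h := M1.ok_of shM_dual (by decide +kernel)
  refine h.comp ?_
  intro g
  fin_cases g
  · exact M0_has.scale 1 (by decide +kernel) (by decide +kernel) (by decide +kernel)
  · exact M0_has.scale 1 (by decide +kernel) (by decide +kernel) (by decide +kernel)

def M2 : Lev 6 2 := { shM with
  m := ![0, 1, 1, 1, 1, 1]
  Qs := ![2, 2]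
  Ls := ![18, 18]
  Ns := ![![3, 6, 0], ![3, 6, 0]]
  rs := ![![0, 0, 0], ![0, 0, 0]]
  E := 6
  c := [(4, (.inl 1, .inl 3, .inl 5)), (2, (.inl 2, .inl 3, .inl 4)), (2, (.inl 1, .inl 4, .inl 4))]
  d := ![.inl 2, .inl 5, .inl 0]
  Q := 6
  L := 44
  N := ![8, 15, 0]
  r := ![4, 2, 0] }

theorem M2_has : HasSys ![1, 2, 0] 6 6 44 ![8, 15, 0] ![4, 2, 0] := by
  have h := M2.ok_of shM_dual (by decide +kernel)
  refine h.comp ?_
  intro g
  fin_cases g
  · exact M1_has.scale 3 (by decide +kernel) (by decide +kernel) (by decide +kernel)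
  · exact M1_has.scale 3 (by decide +kernel) (by decide +kernel) (by decide +kernel)

def M3 : Lev 6 2 := { shM with
  m := ![0, 1, 0, 1, 1, 2]
  Qs := ![6, 6]
  Ls := ![132, 132]
  Ns := ![![8, 15, 0], ![8, 15, 0]]
  rs := ![![12, 6, 0], ![12, 6, 0]]
  E := 18
  c := [(12, (.inr (0, 0), .inl 4, .inl 5)), (4, (.inr (1, 0), .inl 3, .inl 4)), (1, (.inl 1, .inl 4, .inl 4)), (6, (.inl 1, .inr (0, 1), .inl 3)), (8, (.inl 1, .inl 3, .inl 5)), (3, (.inl 1, .inr (1, 1), .inr (1, 1)))]
  d := ![.inr (1, 0), .inl 5, .inl 0]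
  Q := 15
  L := 298
  N := ![17, 34, 0]
  r := ![8, 16, 0] }

theorem M3_has : HasSys ![1, 2, 0] 15 18 298 ![17, 34, 0] ![8, 16, 0] := by
  have h := M3.ok_of shM_dual (by decide +kernel)
  refine h.comp ?_
  intro g
  fin_cases g
  · exact M2_has.scale 3 (by decide +kernel) (by decide +kernel) (by decide +kernel)
  · exact M2_has.scale 3 (by decide +kernel) (by decide +kernel) (by decide +kernel)

def M4 : Lev 6 2 := { shM with
  m := ![0, 1, 0, 1, 0, 1]
  Qs := ![15, 15]
  Ls := ![894, 894]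
  Ns := ![![17, 34, 0], ![17, 34, 0]]
  rs := ![![24, 48, 0], ![24, 48, 0]]
  E := 54
  c := [(8, (.inr (1, 0), .inr (1, 1), .inl 3)), (16, (.inl 1, .inr (0, 1), .inl 3)), (8, (.inl 1, .inr (1, 1), .inr (1, 1))), (24, (.inr (0, 0), .inr (1, 1), .inl 5)), (30, (.inl 1, .inl 3, .inl 5))]
  d := ![.inr (1, 0), .inr (0, 1), .inl 0]
  Q := 33
  L := 1874
  N := ![35, 70, 0]
  r := ![16, 32, 0] }

theorem M4_has : HasSys ![1, 2, 0] 33 54 1874 ![35, 70, 0] ![16, 32, 0] := by
  have h := M4.ok_of shM_dual (by decide +kernel)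
  refine h.comp ?_
  intro g
  fin_cases g
  · exact M3_has.scale 3 (by decide +kernel) (by decide +kernel) (by decide +kernel)
  · exact M3_has.scale 3 (by decide +kernel) (by decide +kernel) (by decide +kernel)

def M5 : Lev 6 2 := { shM with
  m := ![0, 1, 0, 1, 0, 1]
  Qs := ![33, 33]
  Ls := ![5622, 5622]
  Ns := ![![35, 70, 0], ![35, 70, 0]]
  rs := ![![48, 96, 0], ![48, 96, 0]]
  E := 162
  c := [(48, (.inr (0, 0), .inr (1, 1), .inl 5)), (16, (.inr (1, 0), .inr (1, 1), .inl 3)), (32, (.inl 1, .inr (0, 1), .inl 3)), (16, (.inl 1, .inr (1, 1), .inr (1, 1))), (114, (.inl 1, .inl 3, .inl 5))]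
  d := ![.inr (1, 0), .inr (0, 1), .inl 0]
  Q := 69
  L := 11470
  N := ![71, 142, 0]
  r := ![32, 64, 0] }

theorem M5_has : HasSys ![1, 2, 0] 69 162 11470 ![71, 142, 0] ![32, 64, 0] := by
  have h := M5.ok_of shM_dual (by decide +kernel)
  refine h.comp ?_
  intro g
  fin_cases g
  · exact M4_has.scale 3 (by decide +kernel) (by decide +kernel) (by decide +kernel)
  · exact M4_has.scale 3 (by decide +kernel) (by decide +kernel) (by decide +kernel)

def M6 : Lev 6 2 := { shM with
  m := ![0, 1, 0, 1, 0, 1]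
  Qs := ![69, 69]
  Ls := ![34410, 34410]
  Ns := ![![71, 142, 0], ![71, 142, 0]]
  rs := ![![96, 192, 0], ![96, 192, 0]]
  E := 486
  c := [(96, (.inr (0, 0), .inr (1, 1), .inl 5)), (32, (.inr (1, 0), .inr (1, 1), .inl 3)), (64, (.inl 1, .inr (0, 1), .inl 3)), (32, (.inl 1, .inr (1, 1), .inr (1, 1))), (390, (.inl 1, .inl 3, .inl 5))]
  d := ![.inr (1, 0), .inr (0, 1), .inl 0]
  Q := 141
  L := 69434
  N := ![143, 286, 0]
  r := ![64, 128, 0] }

theorem M6_has : HasSys ![1, 2, 0] 141 486 69434 ![143, 286, 0] ![64, 128, 0] := by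
  have h := M6.ok_of shM_dual (by decide +kernel)
  refine h.comp ?_
  intro g
  fin_cases g
  · exact M5_has.scale 3 (by decide +kernel) (by decide +kernel) (by decide +kernel)
  · exact M5_has.scale 3 (by decide +kernel) (by decide +kernel) (by decide +kernel)

def M7 : Lev 6 2 := { shM with
  m := ![0, 1, 0, 1, 0, 1]
  Qs := ![141, 141]
  Ls := ![208302, 208302]
  Ns := ![![143, 286, 0], ![143, 286, 0]]
  rs := ![![192, 384, 0], ![192, 384, 0]]
  E := 1458
  c := [(192, (.inr (0, 0), .inr (1, 1), .inl 5)), (64, (.inr (1, 0), .inr (1, 1), .inl 3)), (128, (.inl 1, .inr (0, 1), .inl 3)), (64, (.inl 1, .inr (1, 1), .inr (1, 1))), (1266, (.inl 1, .inl 3, .inl 5))]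
  d := ![.inr (1, 0), .inr (0, 1), .inl 0]
  Q := 285
  L := 418318
  N := ![287, 574, 0]
  r := ![128, 256, 0] }

theorem M7_has : HasSys ![1, 2, 0] 285 1458 418318 ![287, 574, 0] ![128, 256, 0] := by
  have h := M7.ok_of shM_dual (by decide +kernel)
  refine h.comp ?_
  intro g
  fin_cases g
  · exact M6_has.scale 3 (by decide +kernel) (by decide +kernel) (by decide +kernel)
  · exact M6_has.scale 3 (by decide +kernel) (by decide +kernel) (by decide +kernel)

def M8 : Lev 6 2 := { shM with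
  m := ![0, 1, 0, 1, 0, 1]
  Qs := ![285, 285]
  Ls := ![1254954, 1254954]
  Ns := ![![287, 574, 0], ![287, 574, 0]]
  rs := ![![384, 768, 0], ![384, 768, 0]]
  E := 4374
  c := [(384, (.inr (0, 0), .inr (1, 1), .inl 5)), (128, (.inr (1, 0), .inr (1, 1), .inl 3)), (256, (.inl 1, .inr (0, 1), .inl 3)), (128, (.inl 1, .inr (1, 1), .inr (1, 1))), (3990, (.inl 1, .inl 3, .inl 5))]
  d := ![.inr (1, 0), .inr (0, 1), .inl 0]
  Q := 573
  L := 2514794
  N := ![575, 1150, 0]
  r := ![256, 512, 0] }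

theorem M8_has : HasSys ![1, 2, 0] 573 4374 2514794 ![575, 1150, 0] ![256, 512, 0] := by
  have h := M8.ok_of shM_dual (by decide +kernel)
  refine h.comp ?_
  intro g
  fin_cases g
  · exact M7_has.scale 3 (by decide +kernel) (by decide +kernel) (by decide +kernel)
  · exact M7_has.scale 3 (by decide +kernel) (by decide +kernel) (by decide +kernel)

def M9 : Lev 6 2 := { shM with
  m := ![0, 1, 0, 1, 0, 1]
  Qs := ![573, 573]
  Ls := ![7544382, 7544382]
  Ns := ![![575, 1150, 0], ![575, 1150, 0]]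
  rs := ![![768, 1536, 0], ![768, 1536, 0]]
  E := 13122
  c := [(768, (.inr (0, 0), .inr (1, 1), .inl 5)), (256, (.inr (1, 0), .inr (1, 1), .inl 3)), (512, (.inl 1, .inr (0, 1), .inl 3)), (256, (.inl 1, .inr (1, 1), .inr (1, 1))), (12354, (.inl 1, .inl 3, .inl 5))]
  d := ![.inr (1, 0), .inr (0, 1), .inl 0]
  Q := 1149
  L := 15102910
  N := ![1151, 2302, 0]
  r := ![512, 1024, 0] }

theorem M9_has : HasSys ![1, 2, 0] 1149 13122 15102910 ![1151, 2302, 0] ![512, 1024, 0] := by
  have h := M9.ok_of shM_dual (by decide +kernel)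
  refine h.comp ?_
  intro g
  fin_cases g
  · exact M8_has.scale 3 (by decide +kernel) (by decide +kernel) (by decide +kernel)
  · exact M8_has.scale 3 (by decide +kernel) (by decide +kernel) (by decide +kernel)

def M10 : Lev 6 2 := { shM with
  m := ![0, 1, 0, 1, 0, 1]
  Qs := ![1149, 1149]
  Ls := ![45308730, 45308730]
  Ns := ![![1151, 2302, 0], ![1151, 2302, 0]]
  rs := ![![1536, 3072, 0], ![1536, 3072, 0]]
  E := 39366
  c := [(1536, (.inr (0, 0), .inr (1, 1), .inl 5)), (512, (.inr (1, 0), .inr (1, 1), .inl 3)), (1024, (.inl 1, .inr (0, 1), .inl 3)), (512, (.inl 1, .inr (1, 1), .inr (1, 1))), (37830, (.inl 1, .inl 3, .inl 5))]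
  d := ![.inr (1, 0), .inr (0, 1), .inl 0]
  Q := 2301
  L := 90658874
  N := ![2303, 4606, 0]
  r := ![1024, 2048, 0] }

theorem M10_has : HasSys ![1, 2, 0] 2301 39366 90658874 ![2303, 4606, 0] ![1024, 2048, 0] := by
  have h := M10.ok_of shM_dual (by decide +kernel)
  refine h.comp ?_
  intro g
  fin_cases g
  · exact M9_has.scale 3 (by decide +kernel) (by decide +kernel) (by decide +kernel)
  · exact M9_has.scale 3 (by decide +kernel) (by decide +kernel) (by decide +kernel)

def M11 : Lev 6 2 := { shM with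
  m := ![0, 1, 0, 1, 0, 1]
  Qs := ![2301, 2301]
  Ls := ![271976622, 271976622]
  Ns := ![![2303, 4606, 0], ![2303, 4606, 0]]
  rs := ![![3072, 6144, 0], ![3072, 6144, 0]]
  E := 118098
  c := [(3072, (.inr (0, 0), .inr (1, 1), .inl 5)), (1024, (.inr (1, 0), .inr (1, 1), .inl 3)), (2048, (.inl 1, .inr (0, 1), .inl 3)), (1024, (.inl 1, .inr (1, 1), .inr (1, 1))), (115026, (.inl 1, .inl 3, .inl 5))]
  d := ![.inr (1, 0), .inr (0, 1), .inl 0]
  Q := 4605
  L := 544075438
  N := ![4607, 9214, 0]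
  r := ![2048, 4096, 0] }

theorem M11_has : HasSys ![1, 2, 0] 4605 118098 544075438 ![4607, 9214, 0] ![2048, 4096, 0] := by
  have h := M11.ok_of shM_dual (by decide +kernel)
  refine h.comp ?_
  intro g
  fin_cases g
  · exact M10_has.scale 3 (by decide +kernel) (by decide +kernel) (by decide +kernel)
  · exact M10_has.scale 3 (by decide +kernel) (by decide +kernel) (by decide +kernel)

def M12 : Lev 6 2 := { shM with
  m := ![0, 1, 0, 1, 0, 1]
  Qs := ![4605, 4605]
  Ls := ![1632226314, 1632226314]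
  Ns := ![![4607, 9214, 0], ![4607, 9214, 0]]
  rs := ![![6144, 12288, 0], ![6144, 12288, 0]]
  E := 354294
  c := [(6144, (.inr (0, 0), .inr (1, 1), .inl 5)), (2048, (.inr (1, 0), .inr (1, 1), .inl 3)), (4096, (.inl 1, .inr (0, 1), .inl 3)), (2048, (.inl 1, .inr (1, 1), .inr (1, 1))), (348150, (.inl 1, .inl 3, .inl 5))]
  d := ![.inr (1, 0), .inr (0, 1), .inl 0]
  Q := 9213
  L := 3264815114
  N := ![9215, 18430, 0]
  r := ![4096, 8192, 0] }

theorem M12_has : HasSys ![1, 2, 0] 9213 354294 3264815114 ![9215, 18430, 0] ![4096, 8192, 0] := by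
  have h := M12.ok_of shM_dual (by decide +kernel)
  refine h.comp ?_
  intro g
  fin_cases g
  · exact M11_has.scale 3 (by decide +kernel) (by decide +kernel) (by decide +kernel)
  · exact M11_has.scale 3 (by decide +kernel) (by decide +kernel) (by decide +kernel)

def M13 : Lev 6 2 := { shM with
  m := ![0, 1, 0, 1, 0, 1]
  Qs := ![9213, 9213]
  Ls := ![9794445342, 9794445342]
  Ns := ![![9215, 18430, 0], ![9215, 18430, 0]]
  rs := ![![12288, 24576, 0], ![12288, 24576, 0]]
  E := 1062882
  c := [(12288, (.inr (0, 0), .inr (1, 1), .inl 5)), (4096, (.inr (1, 0), .inr (1, 1), .inl 3)), (8192, (.inl 1, .inr (0, 1), .inl 3)), (4096, (.inl 1, .inr (1, 1), .inr (1, 1))), (1050594, (.inl 1, .inl 3, .inl 5))]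
  d := ![.inr (1, 0), .inr (0, 1), .inl 0]
  Q := 18429
  L := 19589969950
  N := ![18431, 36862, 0]
  r := ![8192, 16384, 0] }

theorem M13_has : HasSys ![1, 2, 0] 18429 1062882 19589969950 ![18431, 36862, 0] ![8192, 16384, 0] := by
  have h := M13.ok_of shM_dual (by decide +kernel)
  refine h.comp ?_
  intro g
  fin_cases g
  · exact M12_has.scale 3 (by decide +kernel) (by decide +kernel) (by decide +kernel)
  · exact M12_has.scale 3 (by decide +kernel) (by decide +kernel) (by decide +kernel)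

def M14 : Lev 6 2 := { shM with
  m := ![0, 1, 0, 1, 0, 1]
  Qs := ![18429, 18429]
  Ls := ![58769909850, 58769909850]
  Ns := ![![18431, 36862, 0], ![18431, 36862, 0]]
  rs := ![![24576, 49152, 0], ![24576, 49152, 0]]
  E := 3188646
  c := [(24576, (.inr (0, 0), .inr (1, 1), .inl 5)), (8192, (.inr (1, 0), .inr (1, 1), .inl 3)), (16384, (.inl 1, .inr (0, 1), .inl 3)), (8192, (.inl 1, .inr (1, 1), .inr (1, 1))), (3164070, (.inl 1, .inl 3, .inl 5))]
  d := ![.inr (1, 0), .inr (0, 1), .inl 0]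
  Q := 36861
  L := 117543041114
  N := ![36863, 73726, 0]
  r := ![16384, 32768, 0] }

theorem M14_has : HasSys ![1, 2, 0] 36861 3188646 117543041114 ![36863, 73726, 0] ![16384, 32768, 0] := by
  have h := M14.ok_of shM_dual (by decide +kernel)
  refine h.comp ?_
  intro g
  fin_cases g
  · exact M13_has.scale 3 (by decide +kernel) (by decide +kernel) (by decide +kernel)
  · exact M13_has.scale 3 (by decide +kernel) (by decide +kernel) (by decide +kernel)

def M15 : Lev 6 2 := { shM with
  m := ![0, 1, 0, 1, 0, 1]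
  Qs := ![36861, 36861]
  Ls := ![352629123342, 352629123342]
  Ns := ![![36863, 73726, 0], ![36863, 73726, 0]]
  rs := ![![49152, 98304, 0], ![49152, 98304, 0]]
  E := 9565938
  c := [(49152, (.inr (0, 0), .inr (1, 1), .inl 5)), (16384, (.inr (1, 0), .inr (1, 1), .inl 3)), (32768, (.inl 1, .inr (0, 1), .inl 3)), (16384, (.inl 1, .inr (1, 1), .inr (1, 1))), (9516786, (.inl 1, .inl 3, .inl 5))]
  d := ![.inr (1, 0), .inr (0, 1), .inl 0]
  Q := 73725
  L := 705267878158
  N := ![73727, 147454, 0]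
  r := ![32768, 65536, 0] }

theorem M15_has : HasSys ![1, 2, 0] 73725 9565938 705267878158 ![73727, 147454, 0] ![32768, 65536, 0] := by
  have h := M15.ok_of shM_dual (by decide +kernel)
  refine h.comp ?_
  intro g
  fin_cases g
  · exact M14_has.scale 3 (by decide +kernel) (by decide +kernel) (by decide +kernel)
  · exact M14_has.scale 3 (by decide +kernel) (by decide +kernel) (by decide +kernel)

def M16 : Lev 6 2 := { shM with
  m := ![0, 1, 0, 1, 0, 1]
  Qs := ![73725, 73725]
  Ls := ![2115803634474, 2115803634474]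
  Ns := ![![73727, 147454, 0], ![73727, 147454, 0]]
  rs := ![![98304, 196608, 0], ![98304, 196608, 0]]
  E := 28697814
  c := [(98304, (.inr (0, 0), .inr (1, 1), .inl 5)), (32768, (.inr (1, 0), .inr (1, 1), .inl 3)), (65536, (.inl 1, .inr (0, 1), .inl 3)), (32768, (.inl 1, .inr (1, 1), .inr (1, 1))), (28599510, (.inl 1, .inl 3, .inl 5))]
  d := ![.inr (1, 0), .inr (0, 1), .inl 0]
  Q := 147453
  L := 4231636097834
  N := ![147455, 294910, 0]
  r := ![65536, 131072, 0] }

theorem M16_has : HasSys ![1, 2, 0] 147453 28697814 4231636097834 ![147455, 294910, 0] ![65536, 131072, 0] := by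
  have h := M16.ok_of shM_dual (by decide +kernel)
  refine h.comp ?_
  intro g
  fin_cases g
  · exact M15_has.scale 3 (by decide +kernel) (by decide +kernel) (by decide +kernel)
  · exact M15_has.scale 3 (by decide +kernel) (by decide +kernel) (by decide +kernel)

def T0 : Lev 2 0 := { shTB with
  m := ![1, 1]
  E := 2
  c := [(1, (.inl 0, .inl 0, .inl 1))]
  d := ![.inl 1, .inl 0, .inl 0]
  Q := 0
  L := 1
  N := ![2, 0, 0]
  r := ![1, 0, 0] }

theorem T0_has : HasSys ![3, 0, 0] 0 2 1 ![2, 0, 0] ![1, 0, 0] := by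
  have h := T0.ok_of shTB_dual (by decide +kernel)
  exact h.comp (fun g => g.elim0)

def T1 : Lev 4 2 := { shT with
  m := ![0, 1, 0, 1]
  Qs := ![0, 2]
  Ls := ![4, 24]
  Ns := ![![2, 0, 0], ![3, 6, 0]]
  rs := ![![4, 0, 0], ![0, 0, 0]]
  E := 8
  c := [(2, (.inr (0, 0), .inr (0, 0), .inl 1)), (3, (.inl 1, .inl 1, .inl 3))]
  d := ![.inl 3, .inl 0, .inl 0]
  Q := 3
  L := 33
  N := ![13, 0, 0]
  r := ![5, 0, 0] }

theorem T1_has : HasSys ![3, 0, 0] 3 8 33 ![13, 0, 0] ![5, 0, 0] := by
  have h := T1.ok_of shT_dual (by decide +kernel)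
  refine h.comp ?_
  intro g
  fin_cases g
  · exact T0_has.scale 4 (by decide +kernel) (by decide +kernel) (by decide +kernel)
  · exact M1_has.scale 4 (by decide +kernel) (by decide +kernel) (by decide +kernel)

def T2 : Lev 4 2 := { shT with
  m := ![0, 2, 1, 2]
  Qs := ![3, 6]
  Ls := ![396, 704]
  Ns := ![![13, 0, 0], ![8, 15, 0]]
  rs := ![![60, 0, 0], ![64, 32, 0]]
  E := 96
  c := [(30, (.inr (0, 0), .inr (0, 0), .inl 1)), (64, (.inr (1, 0), .inl 2, .inl 3)), (32, (.inr (1, 1), .inl 1, .inl 1)), (41, (.inl 1, .inl 1, .inl 3)), (16, (.inl 1, .inl 2, .inl 2))]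
  d := ![.inl 3, .inl 0, .inl 0]
  Q := 12
  L := 1283
  N := ![41, 0, 0]
  r := ![87, 0, 0] }

theorem T2_has : HasSys ![3, 0, 0] 12 96 1283 ![41, 0, 0] ![87, 0, 0] := by
  have h := T2.ok_of shT_dual (by decide +kernel)
  refine h.comp ?_
  intro g
  fin_cases g
  · exact T1_has.scale 12 (by decide +kernel) (by decide +kernel) (by decide +kernel)
  · exact M2_has.scale 16 (by decide +kernel) (by decide +kernel) (by decide +kernel)

def T3 : Lev 4 2 := { shT with
  m := ![0, 2, 0, 1]
  Qs := ![12, 15]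
  Ls := ![15396, 19072]
  Ns := ![![41, 0, 0], ![17, 34, 0]]
  rs := ![![1044, 0, 0], ![512, 1024, 0]]
  E := 1152
  c := [(266, (.inr (0, 0), .inr (0, 0), .inl 1)), (512, (.inr (0, 0), .inr (1, 0), .inl 3)), (379, (.inr (1, 1), .inl 1, .inl 1)), (640, (.inl 1, .inl 1, .inl 3))]
  d := ![.inr (1, 1), .inl 0, .inl 0]
  Q := 30
  L := 36265
  N := ![95, 0, 0]
  r := ![645, 0, 0] }

theorem T3_has : HasSys ![3, 0, 0] 30 1152 36265 ![95, 0, 0] ![645, 0, 0] := by
  have h := T3.ok_of shT_dual (by decide +kernel)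
  refine h.comp ?_
  intro g
  fin_cases g
  · exact T2_has.scale 12 (by decide +kernel) (by decide +kernel) (by decide +kernel)
  · exact M3_has.scale 64 (by decide +kernel) (by decide +kernel) (by decide +kernel)

def T4 : Lev 4 2 := { shT with
  m := ![0, 2, 0, 1]
  Qs := ![30, 33]
  Ls := ![435180, 479744]
  Ns := ![![95, 0, 0], ![35, 70, 0]]
  rs := ![![7740, 0, 0], ![4096, 8192, 0]]
  E := 13824
  c := [(1822, (.inr (0, 0), .inr (0, 0), .inl 1)), (3185, (.inr (0, 0), .inr (1, 0), .inr (1, 1))), (12913, (.inl 1, .inl 1, .inl 3)), (911, (.inr (0, 0), .inr (1, 0), .inl 3))]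
  d := ![.inr (1, 1), .inl 0, .inl 0]
  Q := 66
  L := 933755
  N := ![203, 0, 0]
  r := ![5007, 0, 0] }

theorem T4_has : HasSys ![3, 0, 0] 66 13824 933755 ![203, 0, 0] ![5007, 0, 0] := by
  have h := T4.ok_of shT_dual (by decide +kernel)
  refine h.comp ?_
  intro g
  fin_cases g
  · exact T3_has.scale 12 (by decide +kernel) (by decide +kernel) (by decide +kernel)
  · exact M4_has.scale 256 (by decide +kernel) (by decide +kernel) (by decide +kernel)

def T5 : Lev 4 2 := { shT with
  m := ![0, 2, 0, 1]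
  Qs := ![66, 69]
  Ls := ![11205060, 11745280]
  Ns := ![![203, 0, 0], ![71, 142, 0]]
  rs := ![![60084, 0, 0], ![32768, 65536, 0]]
  E := 165888
  c := [(13658, (.inr (0, 0), .inr (0, 0), .inl 1)), (25939, (.inr (0, 0), .inr (1, 0), .inr (1, 1))), (159059, (.inl 1, .inl 1, .inl 3)), (6829, (.inr (0, 0), .inr (1, 0), .inl 3))]
  d := ![.inr (1, 1), .inl 0, .inl 0]
  Q := 138
  L := 23155825
  N := ![419, 0, 0]
  r := ![39597, 0, 0] }

theorem T5_has : HasSys ![3, 0, 0] 138 165888 23155825 ![419, 0, 0] ![39597, 0, 0] := by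
  have h := T5.ok_of shT_dual (by decide +kernel)
  refine h.comp ?_
  intro g
  fin_cases g
  · exact T4_has.scale 12 (by decide +kernel) (by decide +kernel) (by decide +kernel)
  · exact M5_has.scale 1024 (by decide +kernel) (by decide +kernel) (by decide +kernel)

def T6 : Lev 4 2 := { shT with
  m := ![0, 2, 0, 1]
  Qs := ![138, 141]
  Ls := ![277869900, 284401664]
  Ns := ![![419, 0, 0], ![143, 286, 0]]
  rs := ![![475164, 0, 0], ![262144, 524288, 0]]
  E := 1990656
  c := [(106510, (.inr (0, 0), .inr (0, 0), .inl 1)), (208889, (.inr (0, 0), .inr (1, 0), .inr (1, 1))), (1937401, (.inl 1, .inl 1, .inl 3)), (53255, (.inr (0, 0), .inr (1, 0), .inl 3))]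
  d := ![.inr (1, 1), .inl 0, .inl 0]
  Q := 282
  L := 564577619
  N := ![851, 0, 0]
  r := ![315399, 0, 0] }

theorem T6_has : HasSys ![3, 0, 0] 282 1990656 564577619 ![851, 0, 0] ![315399, 0, 0] := by
  have h := T6.ok_of shT_dual (by decide +kernel)
  refine h.comp ?_
  intro g
  fin_cases g
  · exact T5_has.scale 12 (by decide +kernel) (by decide +kernel) (by decide +kernel)
  · exact M6_has.scale 4096 (by decide +kernel) (by decide +kernel) (by decide +kernel)

def T7 : Lev 4 2 := { shT with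
  m := ![0, 2, 0, 1]
  Qs := ![282, 285]
  Ls := ![6774931428, 6853722112]
  Ns := ![![851, 0, 0], ![287, 574, 0]]
  rs := ![![3784788, 0, 0], ![2097152, 4194304, 0]]
  E := 23887872
  c := [(843818, (.inr (0, 0), .inr (0, 0), .inl 1)), (1675243, (.inr (0, 0), .inr (1, 0), .inr (1, 1))), (23465963, (.inl 1, .inl 1, .inl 3)), (421909, (.inr (0, 0), .inr (1, 0), .inl 3))]
  d := ![.inr (1, 1), .inl 0, .inl 0]
  Q := 570
  L := 13655060473
  N := ![1715, 0, 0]
  r := ![2519061, 0, 0] }

theorem T7_has : HasSys ![3, 0, 0] 570 23887872 13655060473 ![1715, 0, 0] ![2519061, 0, 0] := by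
  have h := T7.ok_of shT_dual (by decide +kernel)
  refine h.comp ?_
  intro g
  fin_cases g
  · exact T6_has.scale 12 (by decide +kernel) (by decide +kernel) (by decide +kernel)
  · exact M7_has.scale 16384 (by decide +kernel) (by decide +kernel) (by decide +kernel)

def T8 : Lev 4 2 := { shT with
  m := ![0, 2, 0, 1]
  Qs := ![570, 573]
  Ls := ![163860725676, 164809539584]
  Ns := ![![1715, 0, 0], ![575, 1150, 0]]
  rs := ![![30228732, 0, 0], ![16777216, 33554432, 0]]
  E := 286654464
  c := [(6725758, (.inr (0, 0), .inr (0, 0), .inl 1)), (13414337, (.inr (0, 0), .inr (1, 0), .inr (1, 1))), (283291585, (.inl 1, .inl 1, .inl 3)), (3362879, (.inr (0, 0), .inr (1, 0), .inl 3))]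
  d := ![.inr (1, 1), .inl 0, .inl 0]
  Q := 1146
  L := 328977059819
  N := ![3443, 0, 0]
  r := ![20140095, 0, 0] }

theorem T8_has : HasSys ![3, 0, 0] 1146 286654464 328977059819 ![3443, 0, 0] ![20140095, 0, 0] := by
  have h := T8.ok_of shT_dual (by decide +kernel)
  refine h.comp ?_
  intro g
  fin_cases g
  · exact T7_has.scale 12 (by decide +kernel) (by decide +kernel) (by decide +kernel)
  · exact M8_has.scale 65536 (by decide +kernel) (by decide +kernel) (by decide +kernel)

def T9 : Lev 4 2 := { shT with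
  m := ![0, 2, 0, 1]
  Qs := ![1146, 1149]
  Ls := ![3947724717828, 3959137239040]
  Ns := ![![3443, 0, 0], ![1151, 2302, 0]]
  rs := ![![241681140, 0, 0], ![134217728, 268435456, 0]]
  E := 3439853568
  c := [(53731706, (.inr (0, 0), .inr (0, 0), .inl 1)), (107351875, (.inr (0, 0), .inr (1, 0), .inr (1, 1))), (3412987715, (.inl 1, .inl 1, .inl 3)), (26865853, (.inr (0, 0), .inr (1, 0), .inl 3))]
  d := ![.inr (1, 1), .inl 0, .inl 0]
  Q := 2298
  L := 7910462894017
  N := ![6899, 0, 0]
  r := ![161083581, 0, 0] }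

theorem T9_has : HasSys ![3, 0, 0] 2298 3439853568 7910462894017 ![6899, 0, 0] ![161083581, 0, 0] := by
  have h := T9.ok_of shT_dual (by decide +kernel)
  refine h.comp ?_
  intro g
  fin_cases g
  · exact T8_has.scale 12 (by decide +kernel) (by decide +kernel) (by decide +kernel)
  · exact M9_has.scale 262144 (by decide +kernel) (by decide +kernel) (by decide +kernel)

def T10 : Lev 4 2 := { shT with
  m := ![0, 2, 0, 1]
  Qs := ![2298, 2301]
  Ls := ![94925554728204, 95062719463424]
  Ns := ![![6899, 0, 0], ![2303, 4606, 0]]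
  rs := ![![1933002972, 0, 0], ![1073741824, 2147483648, 0]]
  E := 41278242816
  c := [(429630574, (.inr (0, 0), .inr (0, 0), .inl 1)), (858926537, (.inr (0, 0), .inr (1, 0), .inr (1, 1))), (41063427529, (.inl 1, .inl 1, .inl 3)), (214815287, (.inr (0, 0), .inr (1, 0), .inl 3))]
  d := ![.inr (1, 1), .inl 0, .inl 0]
  Q := 4602
  L := 190030840991555
  N := ![13811, 0, 0]
  r := ![1288557111, 0, 0] }

theorem T10_has : HasSys ![3, 0, 0] 4602 41278242816 190030840991555 ![13811, 0, 0] ![1288557111, 0, 0] := by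
  have h := T10.ok_of shT_dual (by decide +kernel)
  refine h.comp ?_
  intro g
  fin_cases g
  · exact T9_has.scale 12 (by decide +kernel) (by decide +kernel) (by decide +kernel)
  · exact M10_has.scale 1048576 (by decide +kernel) (by decide +kernel) (by decide +kernel)

def T11 : Lev 4 2 := { shT with
  m := ![0, 2, 0, 1]
  Qs := ![4602, 4605]
  Ls := ![2280370091898660, 2282017785905152]
  Ns := ![![13811, 0, 0], ![4607, 9214, 0]]
  rs := ![![15462685332, 0, 0], ![8589934592, 17179869184, 0]]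
  E := 495338913792
  c := [(3436375370, (.inr (0, 0), .inr (0, 0), .inl 1)), (6871746907, (.inr (0, 0), .inr (1, 0), .inr (1, 1))), (493620726107, (.inl 1, .inl 1, .inl 3)), (1718187685, (.inr (0, 0), .inr (1, 0), .inl 3))]
  d := ![.inr (1, 1), .inl 0, .inl 0]
  Q := 9210
  L := 4562893524839881
  N := ![27635, 0, 0]
  r := ![10308122277, 0, 0] }

theorem T11_has : HasSys ![3, 0, 0] 9210 495338913792 4562893524839881 ![27635, 0, 0] ![10308122277, 0, 0] := by
  have h := T11.ok_of shT_dual (by decide +kernel)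
  refine h.comp ?_
  intro g
  fin_cases g
  · exact T10_has.scale 12 (by decide +kernel) (by decide +kernel) (by decide +kernel)
  · exact M11_has.scale 4194304 (by decide +kernel) (by decide +kernel) (by decide +kernel)

def T12 : Lev 4 2 := { shT with
  m := ![0, 2, 0, 1]
  Qs := ![9210, 9213]
  Ls := ![54754722298078572, 54774508367642624]
  Ns := ![![27635, 0, 0], ![9215, 18430, 0]]
  rs := ![![123697467324, 0, 0], ![68719476736, 137438953472, 0]]
  E := 5944066965504
  c := [(27488995294, (.inr (0, 0), .inr (0, 0), .inl 1)), (54974979089, (.inr (0, 0), .inr (1, 0), .inr (1, 1))), (5930322467857, (.inl 1, .inl 1, .inl 3)), (13744497647, (.inr (0, 0), .inr (1, 0), .inl 3))]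
  d := ![.inr (1, 1), .inl 0, .inl 0]
  Q := 18426
  L := 109535257196661083
  N := ![55283, 0, 0]
  r := ![82463974383, 0, 0] }

theorem T12_has : HasSys ![3, 0, 0] 18426 5944066965504 109535257196661083 ![55283, 0, 0] ![82463974383, 0, 0] := by
  have h := T12.ok_of shT_dual (by decide +kernel)
  refine h.comp ?_
  intro g
  fin_cases g
  · exact T11_has.scale 12 (by decide +kernel) (by decide +kernel) (by decide +kernel)
  · exact M12_has.scale 16777216 (by decide +kernel) (by decide +kernel) (by decide +kernel)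

def T13 : Lev 4 2 := { shT with
  m := ![0, 2, 0, 1]
  Qs := ![18426, 18429]
  Ls := ![1314423086359932996, 1314660629138636800]
  Ns := ![![55283, 0, 0], ![18431, 36862, 0]]
  rs := ![![989567692596, 0, 0], ![549755813888, 1099511627776, 0]]
  E := 71328803586048
  c := [(219905939354, (.inr (0, 0), .inr (0, 0), .inl 1)), (439802844211, (.inr (0, 0), .inr (1, 0), .inr (1, 1))), (71218850616371, (.inl 1, .inl 1, .inl 3)), (109952969677, (.inr (0, 0), .inr (1, 0), .inl 3))]
  d := ![.inr (1, 1), .inl 0, .inl 0]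
  Q := 36858
  L := 2629155704010939409
  N := ![110579, 0, 0]
  r := ![659708783565, 0, 0] }

theorem T13_has : HasSys ![3, 0, 0] 36858 71328803586048 2629155704010939409 ![110579, 0, 0] ![659708783565, 0, 0] := by
  have h := T13.ok_of shT_dual (by decide +kernel)
  refine h.comp ?_
  intro g
  fin_cases g
  · exact T12_has.scale 12 (by decide +kernel) (by decide +kernel) (by decide +kernel)
  · exact M13_has.scale 67108864 (by decide +kernel) (by decide +kernel) (by decide +kernel)

def T14 : Lev 4 2 := { shT with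
  m := ![0, 2, 0, 1]
  Qs := ![36858, 36861]
  Ls := ![31549868448131272908, 31552719841063337984]
  Ns := ![![110579, 0, 0], ![36863, 73726, 0]]
  rs := ![![7916505402780, 0, 0], ![4398046511104, 8796093022208, 0]]
  E := 855945643032576
  c := [(1759229445838, (.inr (0, 0), .inr (0, 0), .inl 1)), (3518431788185, (.inr (0, 0), .inr (1, 0), .inr (1, 1))), (855066028309657, (.inl 1, .inl 1, .inl 3)), (879614722919, (.inr (0, 0), .inr (1, 0), .inl 3))]
  d := ![.inr (1, 1), .inl 0, .inl 0]
  Q := 73722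
  L := 63103449512498877491
  N := ![221171, 0, 0]
  r := ![5277661234023, 0, 0] }

theorem T14_has : HasSys ![3, 0, 0] 73722 855945643032576 63103449512498877491 ![221171, 0, 0] ![5277661234023, 0, 0] := by
  have h := T14.ok_of shT_dual (by decide +kernel)
  refine h.comp ?_
  intro g
  fin_cases g
  · exact T13_has.scale 12 (by decide +kernel) (by decide +kernel) (by decide +kernel)
  · exact M14_has.scale 268435456 (by decide +kernel) (by decide +kernel) (by decide +kernel)

def T15 : Lev 4 2 := { shT with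
  m := ![0, 2, 0, 1]
  Qs := ![73722, 73725]
  Ls := ![757241394149986529892, 757275617901980680192]
  Ns := ![![221171, 0, 0], ![73727, 147454, 0]]
  rs := ![![63331934808276, 0, 0], ![35184372088832, 70368744177664, 0]]
  E := 10271347716390912
  c := [(14073781359722, (.inr (0, 0), .inr (0, 0), .inl 1)), (28147481408971, (.inr (0, 0), .inr (1, 0), .inr (1, 1))), (10264310825711051, (.inl 1, .inl 1, .inl 3)), (7036890679861, (.inr (0, 0), .inr (1, 0), .inl 3))]
  d := ![.inr (1, 1), .inl 0, .inl 0]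
  Q := 147450
  L := 1514527325620946369689
  N := ![442355, 0, 0]
  r := ![42221262768693, 0, 0] }

theorem T15_has : HasSys ![3, 0, 0] 147450 10271347716390912 1514527325620946369689 ![442355, 0, 0] ![42221262768693, 0, 0] := by
  have h := T15.ok_of shT_dual (by decide +kernel)
  refine h.comp ?_
  intro g
  fin_cases g
  · exact T14_has.scale 12 (by decide +kernel) (by decide +kernel) (by decide +kernel)
  · exact M15_has.scale 1073741824 (by decide +kernel) (by decide +kernel) (by decide +kernel)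

def T16 : Lev 4 2 := { shT with
  m := ![0, 2, 0, 1]
  Qs := ![147450, 147453]
  Ls := ![18174327907451356436268, 18174738648770086436864]
  Ns := ![![442355, 0, 0], ![147455, 294910, 0]]
  rs := ![![506655153224316, 0, 0], ![281474976710656, 562949953421312, 0]]
  E := 123256172596690944
  c := [(112590088256830, (.inr (0, 0), .inr (0, 0), .inl 1)), (225179932582241, (.inr (0, 0), .inr (1, 0), .inr (1, 1))), (123199877552562529, (.inl 1, .inl 1, .inl 3)), (56295044128415, (.inr (0, 0), .inr (1, 0), .inl 3))]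
  d := ![.inr (1, 1), .inl 0, .inl 0]
  Q := 294906
  L := 36349190150164060403147
  N := ![884723, 0, 0]
  r := ![337770020839071, 0, 0] }

theorem T16_has : HasSys ![3, 0, 0] 294906 123256172596690944 36349190150164060403147 ![884723, 0, 0] ![337770020839071, 0, 0] := by
  have h := T16.ok_of shT_dual (by decide +kernel)
  refine h.comp ?_
  intro g
  fin_cases g
  · exact T15_has.scale 12 (by decide +kernel) (by decide +kernel) (by decide +kernel)
  · exact M16_has.scale 4294967296 (by decide +kernel) (by decide +kernel) (by decide +kernel)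

/-- the top level -/
def top : Top 7 4 where
  S := Sum.elim ![7061, 5041, 4141, 3001, 2431, 1981, 971] (fun x => ![![7060, 970, 9001], ![5040, 1980, 9001], ![4140, 2430, 9001], ![3000, 9001, 9001]] x.1 x.2)
  C := 9000
  w := Sum.elim ![13, 9, 7, 5, 4, 3, 1] (fun x => ![![13, 1, 0], ![9, 3, 0], ![7, 4, 0], ![5, 0, 0]] x.1 x.2)
  D := 14
  m := ![0, 0, 0, 1, 1, 1, 0]
  κs := ![![1, 2, 0], ![1, 2, 0], ![1, 2, 0], ![3, 0, 0]]
  Qs := ![147453, 147453, 147453, 294906]
  Ls := ![763339023248343630348288, 763339023248343630348288, 763339023248343630348288, 1526665986306890536932174]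
  Ns := ![![147455, 294910, 0], ![147455, 294910, 0], ![147455, 294910, 0], ![884723, 0, 0]]
  rs := ![![11821949021847552, 23643898043695104, 0], ![11821949021847552, 23643898043695104, 0], ![11821949021847552, 23643898043695104, 0], ![14186340875240982, 0, 0]]
  z := ![1, 1, 1, 1]
  E := 5176759249061019648
  c := [(11821949021847552, [.inr (0, 0), .inr (0, 1)]), (11821949021847552, [.inr (1, 0), .inl 3]), (7881299347898368, [.inr (1, 1), .inr (1, 1), .inr (1, 1), .inl 3]), (5910974510923776, [.inr (2, 0), .inr (2, 0)]), (11821949021847552, [.inr (0, 1), .inr (2, 1), .inr (2, 1), .inl 3]), (7093170437620491, [.inr (3, 0), .inr (3, 0), .inl 4]), (2204086997795808291, [.inl 3, .inl 3, .inl 4]), (1482789540413795433, [.inl 4, .inl 4, .inl 5, .inl 5]), (737060056077809594, [.inl 3, .inl 5, .inl 5, .inl 5])]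
  K := 737274

theorem top_ok : top.Ok := top.ok_of (by decide +kernel) (by decide +kernel)

theorem top_sub : ∀ g, HasSys (top.κs g) (top.Qs g) top.E (top.Ls g) (top.Ns g) (top.rs g) := by
  intro g
  fin_cases g
  · exact M16_has.scale 180388626432 (by decide +kernel) (by decide +kernel) (by decide +kernel)
  · exact M16_has.scale 180388626432 (by decide +kernel) (by decide +kernel) (by decide +kernel)
  · exact M16_has.scale 180388626432 (by decide +kernel) (by decide +kernel) (by decide +kernel)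
  · exact T16_has.scale 42 (by decide +kernel) (by decide +kernel) (by decide +kernel)

/-- the instance: `OPT ≥ 737275` and `LP ≤ 1272229178779935692458549/1725586416353673216` -/
theorem top_good : ∃ C m, 0 < C ∧ 737274 < m ∧ Good C m (1272229178779935692458549 / 1725586416353673216) := by
  obtain ⟨C, m, hC, hm, h⟩ := top_ok.good top_sub
  refine ⟨C, m, hC, hm, ?_⟩
  have e : ((((top.c.map Prod.fst).sum + ∑ g, top.Ls g : ℕ) : ℚ) / (top.E : ℚ)) = 1272229178779935692458549 / 1725586416353673216 := by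
    have e1 : (top.c.map Prod.fst).sum + ∑ g, top.Ls g = 3816687536339807077375647 := by decide +kernel
    have e2 : top.E = 5176759249061019648 := rfl
    rw [e1, e2]
    norm_num
  rw [← e]
  exact_mod_cast h

end Vale.Agent.P302.Nest.DataC
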