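import Vale.Agent.P302.NestChkB

/-!
Explicit levels (generated).  `shM` is the shape of the levels of kind `(1,2,0)` with denominator 100,
`shT` the shape of the levels of kind `(3,0,0)`.
-/

namespace Vale.Agent.P302.Nest.DataD

open Finset Vale.Agent.P302.Nest

/-- shifted deviations of `shB` -/
def shB_vn : Cls 3 0 → ℕ := Sum.elim ![5, 0, 2] (fun _ => 2)

/-- the trivial level of kind `(1,2,0)` -/
def shB : Lev 3 0 where
  κ := ![1, 2, 0]
  P := Sum.elim ![0, 1, 1] (fun _ => 0)
  v := fun A => (shB_vn A : ℤ) - 2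
  w := Sum.elim ![0, 1, 0] (fun _ => 0)
  D := 2
  m := fun _ => 0
  κs := ![]
  Qs := fun _ => 0
  Ls := fun _ => 0
  Ns := fun _ _ => 0
  rs := fun _ _ => 0
  z := ![]
  E := 0
  c := []
  d := fun _ => .inl 0
  Q := 0
  L := 0
  N := fun _ => 0
  r := fun _ => 0

theorem shB_hv : ∀ A, 3 * shB.v A = 3 * (shB_vn A : ℤ) - (6 : ℕ) := by
  intro A
  change 3 * ((shB_vn A : ℤ) - 2) = _
  push_cast
  ring

theorem shB_dual : dualN shB.κ shB.P shB_vn 6 shB.w shB.D shB.κs shB.z = true := by decide +kernel

/-- shifted deviations of `shM` -/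
def shM_vn : Cls 7 22 → ℕ := Sum.elim ![119100, 182730, 240930, 0, 121891, 180031, 240961] (fun x => ![![121860, 180030, 160640], ![128520, 176700, 160640], ![135120, 173400, 160640], ![141660, 170130, 160640], ![148140, 166890, 160640], ![154560, 163680, 160640], ![160920, 160500, 160640], ![167220, 157350, 160640], ![173460, 154230, 160640], ![179640, 151140, 160640], ![185760, 148080, 160640], ![191820, 145050, 160640], ![197820, 142050, 160640], ![203760, 139080, 160640], ![209640, 136140, 160640], ![215460, 133230, 160640], ![221220, 130350, 160640], ![226920, 127500, 160640], ![232560, 124680, 160640], ![238140, 121890, 160640], ![0, 240960, 160640], ![243660, 119130, 160640]] x.1 x.2)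

/-- the main level of kind `(1,2,0)` -/
def shM : Lev 7 22 where
  κ := ![1, 2, 0]
  P := Sum.elim ![0, 0, 0, 1, 1, 1, 1] (fun x => ![![0, 1, 0], ![0, 1, 0], ![0, 1, 0], ![0, 1, 0], ![0, 1, 0], ![0, 1, 0], ![0, 1, 0], ![0, 1, 0], ![0, 1, 0], ![0, 1, 0], ![0, 1, 0], ![0, 1, 0], ![0, 1, 0], ![0, 1, 0], ![0, 1, 0], ![0, 1, 0], ![0, 1, 0], ![0, 1, 0], ![0, 1, 0], ![0, 1, 0], ![0, 1, 0], ![0, 1, 0]] x.1 x.2)
  v := fun A => (shM_vn A : ℤ) - 160640
  w := Sum.elim ![60, 40, 20, 80, 39, 20, 0] (fun x => ![![59, 20, 0], ![57, 21, 0], ![55, 22, 0], ![53, 23, 0], ![51, 24, 0], ![49, 25, 0], ![47, 26, 0], ![45, 27, 0], ![43, 28, 0], ![41, 29, 0], ![39, 30, 0], ![37, 31, 0], ![35, 32, 0], ![33, 33, 0], ![31, 34, 0], ![29, 35, 0], ![27, 36, 0], ![25, 37, 0], ![23, 38, 0], ![21, 39, 0], ![80, 0, 0], ![0, 40, 0]] x.1 x.2)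
  D := 100
  m := fun _ => 0
  κs := ![![1, 2, 0], ![1, 2, 0], ![1, 2, 0], ![1, 2, 0], ![1, 2, 0], ![1, 2, 0], ![1, 2, 0], ![1, 2, 0], ![1, 2, 0], ![1, 2, 0], ![1, 2, 0], ![1, 2, 0], ![1, 2, 0], ![1, 2, 0], ![1, 2, 0], ![1, 2, 0], ![1, 2, 0], ![1, 2, 0], ![1, 2, 0], ![1, 2, 0], ![1, 2, 0], ![1, 2, 0]]
  Qs := fun _ => 0
  Ls := fun _ => 0
  Ns := fun _ _ => 0
  rs := fun _ _ => 0
  z := ![1, 1, 1, 1, 1, 1, 1, 1, 1, 1, 1, 1, 1, 1, 1, 1, 1, 1, 1, 1, 20, 20]
  E := 0
  c := []
  d := fun _ => .inl 0
  Q := 0
  L := 0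
  N := fun _ => 0
  r := fun _ => 0

theorem shM_hv : ∀ A, 3 * shM.v A = 3 * (shM_vn A : ℤ) - (481920 : ℕ) := by
  intro A
  change 3 * ((shM_vn A : ℤ) - 160640) = _
  push_cast
  ring

theorem shM_dual : dualN shM.κ shM.P shM_vn 481920 shM.w shM.D shM.κs shM.z = true := by decide +kernel

/-- shifted deviations of `shTB` -/
def shTB_vn : Cls 2 0 → ℕ := Sum.elim ![0, 5] (fun _ => 3)

/-- the trivial level of kind `(3,0,0)` -/
def shTB : Lev 2 0 where
  κ := ![3, 0, 0]
  P := Sum.elim ![0, 0] (fun _ => 0)
  v := fun A => (shTB_vn A : ℤ) - 3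
  w := Sum.elim ![1, 0] (fun _ => 0)
  D := 2
  m := fun _ => 0
  κs := ![]
  Qs := fun _ => 0
  Ls := fun _ => 0
  Ns := fun _ _ => 0
  rs := fun _ _ => 0
  z := ![]
  E := 0
  c := []
  d := fun _ => .inl 0
  Q := 0
  L := 0
  N := fun _ => 0
  r := fun _ => 0

theorem shTB_hv : ∀ A, 3 * shTB.v A = 3 * (shTB_vn A : ℤ) - (9 : ℕ) := by
  intro A
  change 3 * ((shTB_vn A : ℤ) - 3) = _
  push_cast
  ring

theorem shTB_dual : dualN shTB.κ shTB.P shTB_vn 9 shTB.w shTB.D shTB.κs shTB.z = true := by decide +kernel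

/-- shifted deviations of `shT` -/
def shT_vn : Cls 4 2 → ℕ := Sum.elim ![1, 860, 1281, 1921] (fun x => ![![1280, 1280, 1280], ![0, 1920, 1280]] x.1 x.2)

/-- the main level of kind `(3,0,0)` -/
def shT : Lev 4 2 where
  κ := ![3, 0, 0]
  P := Sum.elim ![0, 0, 0, 0] (fun x => ![![0, 0, 0], ![0, 0, 0]] x.1 x.2)
  v := fun A => (shT_vn A : ℤ) - 1280
  w := Sum.elim ![3, 2, 1, 0] (fun x => ![![1, 0, 0], ![3, 0, 0]] x.1 x.2)
  D := 4
  m := fun _ => 0
  κs := ![![3, 0, 0], ![1, 2, 0]]
  Qs := fun _ => 0
  Ls := fun _ => 0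
  Ns := fun _ _ => 0
  rs := fun _ _ => 0
  z := ![1, 1]
  E := 0
  c := []
  d := fun _ => .inl 0
  Q := 0
  L := 0
  N := fun _ => 0
  r := fun _ => 0

theorem shT_hv : ∀ A, 3 * shT.v A = 3 * (shT_vn A : ℤ) - (3840 : ℕ) := by
  intro A
  change 3 * ((shT_vn A : ℤ) - 1280) = _
  push_cast
  ring

theorem shT_dual : dualN shT.κ shT.P shT_vn 3840 shT.w shT.D shT.κs shT.z = true := by decide +kernel

def M0 : Lev 3 0 := { shB with
  m := ![3, 1, 5]
  E := 2
  c := [(1, (.inl 0, .inl 1, .inl 1))]
  d := ![.inl 0, .inl 2, .inl 0]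
  Q := 0
  L := 1
  N := ![3, 6, 0]
  r := ![5, 10, 0] }

theorem M0_has : HasSys ![1, 2, 0] 0 2 1 ![3, 6, 0] ![5, 10, 0] := by
  have h := M0.ok_ofN shB_hv shB_dual (by decide +kernel)
  exact h.comp (fun g => g.elim0)

def M1 : Lev 7 22 := { shM with
  m := ![1, 1, 3, 3, 1, 2, 4]
  Qs := fun _ => 0
  Ls := fun _ => 50
  Ns := fun _ => ![3, 6, 0]
  rs := fun _ => ![250, 500, 0]
  E := 100
  c := [(60, (.inr (4, 0), .inr (4, 1), .inr (5, 1))), (192, (.inr (0, 1), .inr (20, 0), .inr (20, 1))), (200, (.inr (0, 0), .inr (1, 1), .inl 5)), (60, (.inr (3, 0), .inr (3, 1), .inr (4, 1))), (155, (.inr (1, 0), .inr (1, 1), .inr (2, 1))), (190, (.inr (2, 1), .inr (3, 0), .inr (5, 1))), (155, (.inr (2, 0), .inr (2, 1), .inr (3, 1))), (190, (.inr (3, 1), .inr (4, 0), .inr (6, 1))), (95, (.inr (0, 1), .inr (1, 0), .inr (3, 1))), (13, (.inr (0, 1), .inr (0, 1), .inl 0)), (35, (.inr (8, 0), .inr (8, 1), .inr (9, 1))), (165, (.inr (5, 1), .inr (8, 0), .inr (12, 1))), (130, (.inr (6, 0), .inr (6, 1), .inr (7, 1))), (180, (.inr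 (13, 0), .inr (13, 1), .inr (14, 1))), (45, (.inr (6, 1), .inr (7, 0), .inr (9, 1))), (79, (.inr (21, 1), .inr (21, 1), .inl 2)), (250, (.inr (9, 1), .inr (10, 0), .inr (12, 1))), (75, (.inr (11, 0), .inr (11, 1), .inr (12, 1))), (70, (.inr (11, 1), .inr (13, 0), .inr (16, 1))), (40, (.inr (13, 1), .inr (14, 0), .inr (16, 1))), (79, (.inr (0, 1), .inr (21, 0), .inl 3)), (175, (.inr (10, 1), .inr (11, 0), .inr (13, 1))), (5, (.inr (15, 1), .inr (17, 0), .inr (21, 1))), (58, (.inr (0, 1), .inr (20, 0), .inl 6)), (50, (.inr (9, 1), .inr (11, 1), .inl 1)), (250, (.inr (19, 0), .inr (19, 1), .inr (21, 1))), (250, (.inr (8, 1), .inr (9, 0), .inr (11, 1))), (10, (.inr (8, 1), .inr (12, 1), .inl 1)), (50, (.inr (0, 0), .inr (0, 1), .inr (1, 1))), (120, (.inr (4, 1), .inr (6, 0), .inr (9, 1))), (205, (.inr (7, 0), .inr (7, 1), .inr (8, 1))), (210, (.inr (14, 0), .inr (14, 1), .inr (15, 1))), (105, (.inr (13, 1), .inr (15, 0), .inr (18, 1))), (40, (.inr (15, 0), .inr (15, 1), .inr (16, 1))), (95, (.inr (1, 1), .inr (2,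 0), .inr (4, 1))), (105, (.inr (14, 1), .inr (15, 0), .inr (17, 1))), (250, (.inr (16, 0), .inr (16, 1), .inr (17, 1))), (250, (.inr (18, 0), .inr (18, 1), .inr (19, 1))), (5, (.inr (11, 1), .inr (12, 0), .inr (14, 1))), (100, (.inr (16, 1), .inr (17, 0), .inl 4)), (245, (.inr (10, 1), .inr (12, 0), .inr (15, 1))), (165, (.inr (4, 1), .inr (5, 0), .inr (7, 1))), (87, (.inr (20, 1), .inr (21, 1), .inl 0)), (50, (.inr (6, 1), .inr (8, 0), .inr (11, 1))), (221, (.inr (20, 1), .inl 2, .inl 3)), (40, (.inr (10, 1), .inr (10, 1), .inl 1)), (85, (.inr (5, 0), .inr (5, 1), .inr (6, 1))), (145, (.inr (17, 0), .inr (17, 1), .inr (18, 1)))]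
  d := ![.inr (21, 0), .inl 6, .inl 0]
  Q := 68
  L := 6929
  N := ![71, 142, 0]
  r := ![171, 342, 0] }

theorem M1_has : HasSys ![1, 2, 0] 68 100 6929 ![71, 142, 0] ![171, 342, 0] := by
  have h := M1.ok_ofN shM_hv shM_dual (by decide +kernel)
  have h1 : HasSys ![1, 2, 0] 0 100 50 ![3, 6, 0] ![250, 500, 0] :=
    M0_has.scale 50 (by decide +kernel) (by decide +kernel) (by decide +kernel)
  refine h.comp ?_
  intro g
  have e : M1.κs g = ![1, 2, 0] := by fin_cases g <;> rfl
  rw [e]
  exact h1

def M2 : Lev 7 22 := { shM with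
  m := ![1, 1, 3, 3, 1, 2, 4]
  Qs := fun _ => 68
  Ls := fun _ => 588965
  Ns := fun _ => ![71, 142, 0]
  rs := fun _ => ![14535, 29070, 0]
  E := 8500
  c := [(4685, (.inr (4, 0), .inr (4, 1), .inr (5, 1))), (11577, (.inr (0, 1), .inr (20, 0), .inr (20, 1))), (11025, (.inr (0, 0), .inr (1, 1), .inl 5)), (3060, (.inr (3, 0), .inr (3, 1), .inr (4, 1))), (8865, (.inr (1, 0), .inr (1, 1), .inr (2, 1))), (9690, (.inr (2, 1), .inr (3, 0), .inr (5, 1))), (8815, (.inr (2, 0), .inr (2, 1), .inr (3, 1))), (9690, (.inr (3, 1), .inr (4, 0), .inr (6, 1))), (5670, (.inr (0, 1), .inr (1, 0), .inr (3, 1))), (663, (.inr (0, 1), .inr (0, 1), .inl 0)), (1785, (.inr (8, 0), .inr (8, 1), .inr (9, 1))), (8415, (.inr (5, 1), .inr (8, 0), .inr (12, 1))), (7185, (.inr (6, 0), .inr (6, 1), .inr (7, 1))), (9385, (.inr (13, 0), .inr (13, 1), .inr (14, 1))), (2295, (.inr (6, 1), .inr (7, 0), .inr (9, 1))), (4029, (.inr (21, 1), .inr (21, 1), .inl 2)), (12750, (.inr (9, 1), .inr (10, 0), .inr (12, 1))), (3825, (.inr (11, 0), .inr (11,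 1), .inr (12, 1))), (3570, (.inr (11, 1), .inr (13, 0), .inr (16, 1))), (3825, (.inr (13, 1), .inr (14, 0), .inr (16, 1))), (4029, (.inr (0, 1), .inr (21, 0), .inl 3)), (8925, (.inr (10, 1), .inr (11, 0), .inr (13, 1))), (255, (.inr (15, 1), .inr (17, 0), .inr (21, 1))), (2958, (.inr (0, 1), .inr (20, 0), .inl 6)), (3840, (.inr (9, 1), .inr (11, 1), .inl 1)), (14535, (.inr (19, 0), .inr (19, 1), .inr (21, 1))), (12750, (.inr (8, 1), .inr (9, 0), .inr (11, 1))), (2210, (.inr (8, 1), .inr (12, 1), .inl 1)), (3510, (.inr (0, 0), .inr (0, 1), .inr (1, 1))), (7350, (.inr (4, 1), .inr (6, 0), .inr (9, 1))), (11225, (.inr (7, 0), .inr (7, 1), .inr (8, 1))), (10710, (.inr (14, 0), .inr (14, 1), .inr (15, 1))), (5525, (.inr (13, 1), .inr (15, 0), .inr (18, 1))), (2040, (.inr (15, 0), .inr (15, 1), .inr (16, 1))), (5100, (.inr (1, 1), .inr (2, 0), .inr (4, 1))), (5595, (.inr (14, 1), .inr (15, 0), .inr (17, 1))), (12750, (.inr (16, 0), .inr (16, 1), .inr (17, 1))), (12750, (.inr (18, 0), .inr (18, 1), .inr (19, 1))),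 (1595, (.inr (11, 1), .inr (12, 0), .inr (14, 1))), (6885, (.inr (16, 1), .inr (17, 0), .inl 4)), (12495, (.inr (10, 1), .inr (12, 0), .inr (15, 1))), (8875, (.inr (4, 1), .inr (5, 0), .inr (7, 1))), (6052, (.inr (20, 1), .inr (21, 1), .inl 0)), (2550, (.inr (6, 1), .inr (8, 0), .inr (11, 1))), (11441, (.inr (20, 1), .inl 2, .inl 3)), (2040, (.inr (10, 1), .inr (10, 1), .inl 1)), (5660, (.inr (5, 0), .inr (5, 1), .inr (6, 1))), (7395, (.inr (17, 0), .inr (17, 1), .inr (18, 1))), (445, (.inr (12, 0), .inr (12, 1), .inr (13, 1))), (1580, (.inr (10, 1), .inr (13, 0), .inr (17, 1))), (735, (.inr (2, 1), .inr (9, 0), .inr (17, 1))), (1785, (.inr (3, 1), .inr (8, 0), .inr (14, 1))), (620, (.inr (2, 0), .inr (5, 1), .inl 5)), (50, (.inr (3, 1), .inr (7, 0), .inr (12, 1))), (410, (.inr (1, 1), .inr (19, 1), .inl 1)), (1785, (.inr (3, 0), .inr (7, 1), .inl 5)), (965, (.inr (2, 1), .inr (7, 0), .inr (13, 1))), (160, (.inr (1, 1), .inr (4, 0), .inr (8, 1))), (1050, (.inr (9, 0), .inr (9, 1), .inr (10, 1))), (845, (.inr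 (6, 1), .inr (11, 0), .inr (17, 1))), (940, (.inr (10, 0), .inr (10, 1), .inr (11, 1))), (1785, (.inl 0, .inl 5, .inl 5)), (845, (.inr (6, 1), .inr (10, 0), .inr (15, 1))), (170, (.inr (17, 1), .inr (18, 0), .inr (21, 1))), (1785, (.inr (15, 1), .inr (16, 0), .inr (18, 1))), (1615, (.inr (18, 0), .inr (18, 1), .inl 4)), (1375, (.inr (12, 1), .inr (15, 0), .inr (19, 1))), (10030, (.inl 2, .inl 3, .inl 6)), (940, (.inr (8, 1), .inr (11, 0), .inr (15, 1)))]
  d := ![.inr (21, 0), .inl 6, .inl 0]
  Q := 1564
  L := 13308994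
  N := ![1567, 3134, 0]
  r := ![10506, 21012, 0] }

theorem M2_has : HasSys ![1, 2, 0] 1564 8500 13308994 ![1567, 3134, 0] ![10506, 21012, 0] := by
  have h := M2.ok_ofN shM_hv shM_dual (by decide +kernel)
  have h1 : HasSys ![1, 2, 0] 68 8500 588965 ![71, 142, 0] ![14535, 29070, 0] :=
    M1_has.scale 85 (by decide +kernel) (by decide +kernel) (by decide +kernel)
  refine h.comp ?_
  intro g
  have e : M2.κs g = ![1, 2, 0] := by fin_cases g <;> rfl
  rw [e]
  exact h1

def M3 : Lev 7 22 := { shM with
  m := ![1, 1, 3, 3, 1, 2, 4]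
  Qs := fun _ => 1564
  Ls := fun _ => 66544970
  Ns := fun _ => ![1567, 3134, 0]
  rs := fun _ => ![52530, 105060, 0]
  E := 42500
  c := [(22180, (.inr (4, 0), .inr (4, 1), .inr (5, 1))), (43656, (.inr (0, 1), .inr (20, 0), .inr (20, 1))), (37200, (.inr (0, 0), .inr (1, 1), .inl 5)), (9180, (.inr (3, 0), .inr (3, 1), .inr (4, 1))), (31395, (.inr (1, 0), .inr (1, 1), .inr (2, 1))), (29070, (.inr (2, 1), .inr (3, 0), .inr (5, 1))), (30995, (.inr (2, 0), .inr (2, 1), .inr (3, 1))), (29070, (.inr (3, 1), .inr (4, 0), .inr (6, 1))), (21135, (.inr (0, 1), .inr (1, 0), .inr (3, 1))), (1989, (.inr (0, 1), .inr (0, 1), .inl 0)), (5355, (.inr (8, 0), .inr (8, 1), .inr (9, 1))), (25245, (.inr (5, 1), .inr (8, 0), .inr (12, 1))), (24330, (.inr (6, 0), .inr (6, 1), .inr (7, 1))), (29180, (.inr (13, 0), .inr (13, 1), .inr (14, 1))), (6885, (.inr (6, 1), .inr (7, 0), .inr (9, 1))), (12087, (.inr (21, 1), .inr (21, 1), .inl 2)), (38250, (.inr (9, 1), .inr (10, 0), .inr (12, 1))), (11475, (.inr (11, 0), .inr (11, 1), .inr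 (12, 1))), (10710, (.inr (11, 1), .inr (13, 0), .inr (16, 1))), (20400, (.inr (13, 1), .inr (14, 0), .inr (16, 1))), (12087, (.inr (0, 1), .inr (21, 0), .inl 3)), (26775, (.inr (10, 1), .inr (11, 0), .inr (13, 1))), (765, (.inr (15, 1), .inr (17, 0), .inr (21, 1))), (8874, (.inr (0, 1), .inr (20, 0), .inl 6)), (17970, (.inr (9, 1), .inr (11, 1), .inl 1)), (52530, (.inr (19, 0), .inr (19, 1), .inr (21, 1))), (38250, (.inr (8, 1), .inr (9, 0), .inr (11, 1))), (15130, (.inr (8, 1), .inr (12, 1), .inl 1)), (15330, (.inr (0, 0), .inr (0, 1), .inr (1, 1))), (28200, (.inr (4, 1), .inr (6, 0), .inr (9, 1))), (37525, (.inr (7, 0), .inr (7, 1), .inr (8, 1))), (32130, (.inr (14, 0), .inr (14, 1), .inr (15, 1))), (17425, (.inr (13, 1), .inr (15, 0), .inr (18, 1))), (6120, (.inr (15, 0), .inr (15, 1), .inr (16, 1))), (16575, (.inr (1, 1), .inr (2, 0), .inr (4, 1))), (17985, (.inr (14, 1), .inr (15, 0), .inr (17, 1))), (38250, (.inr (16, 0), .inr (16, 1), .inr (17, 1))), (38250, (.inr (18, 0), .inr (18, 1), .inr (19, 1))),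 (11485, (.inr (11, 1), .inr (12, 0), .inr (14, 1))), (29580, (.inr (16, 1), .inr (17, 0), .inl 4)), (37485, (.inr (10, 1), .inr (12, 0), .inr (15, 1))), (28925, (.inr (4, 1), .inr (5, 0), .inr (7, 1))), (26231, (.inr (20, 1), .inr (21, 1), .inl 0)), (7650, (.inr (6, 1), .inr (8, 0), .inr (11, 1))), (35173, (.inr (20, 1), .inl 2, .inl 3)), (6120, (.inr (10, 1), .inr (10, 1), .inl 1)), (23605, (.inr (5, 0), .inr (5, 1), .inr (6, 1))), (22185, (.inr (17, 0), .inr (17, 1), .inr (18, 1))), (3560, (.inr (12, 0), .inr (12, 1), .inr (13, 1))), (12640, (.inr (10, 1), .inr (13, 0), .inr (17, 1))), (5880, (.inr (2, 1), .inr (9, 0), .inr (17, 1))), (14280, (.inr (3, 1), .inr (8, 0), .inr (14, 1))), (4960, (.inr (2, 0), .inr (5, 1), .inl 5)), (400, (.inr (3, 1), .inr (7, 0), .inr (12, 1))), (3280, (.inr (1, 1), .inr (19, 1), .inl 1)), (14280, (.inr (3, 0), .inr (7, 1), .inl 5)), (7720, (.inr (2, 1), .inr (7, 0), .inr (13, 1))), (1280, (.inr (1, 1), .inr (4, 0), .inr (8, 1))), (8400, (.inr (9, 0), .inr (9, 1), .inr (10, 1))),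 (6760, (.inr (6, 1), .inr (11, 0), .inr (17, 1))), (7520, (.inr (10, 0), .inr (10, 1), .inr (11, 1))), (14280, (.inl 0, .inl 5, .inl 5)), (6760, (.inr (6, 1), .inr (10, 0), .inr (15, 1))), (1360, (.inr (17, 1), .inr (18, 0), .inr (21, 1))), (14280, (.inr (15, 1), .inr (16, 0), .inr (18, 1))), (12920, (.inr (18, 0), .inr (18, 1), .inl 4)), (11000, (.inr (12, 1), .inr (15, 0), .inr (19, 1))), (80240, (.inl 2, .inl 3, .inl 6)), (7520, (.inr (8, 1), .inr (11, 0), .inr (15, 1)))]
  d := ![.inr (21, 0), .inl 6, .inl 0]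
  Q := 34476
  L := 1465317057
  N := ![34479, 68958, 0]
  r := ![40443, 80886, 0] }

theorem M3_has : HasSys ![1, 2, 0] 34476 42500 1465317057 ![34479, 68958, 0] ![40443, 80886, 0] := by
  have h := M3.ok_ofN shM_hv shM_dual (by decide +kernel)
  have h1 : HasSys ![1, 2, 0] 1564 42500 66544970 ![1567, 3134, 0] ![52530, 105060, 0] :=
    M2_has.scale 5 (by decide +kernel) (by decide +kernel) (by decide +kernel)
  refine h.comp ?_
  intro g
  have e : M3.κs g = ![1, 2, 0] := by fin_cases g <;> rfl
  rw [e]
  exact h1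

def M4 : Lev 7 22 := { shM with
  m := ![1, 1, 3, 3, 1, 2, 4]
  Qs := fun _ => 34476
  Ls := fun _ => 7326585285
  Ns := fun _ => ![34479, 68958, 0]
  rs := fun _ => ![202215, 404430, 0]
  E := 212500
  c := [(107165, (.inr (4, 0), .inr (4, 1), .inr (5, 1))), (175593, (.inr (0, 1), .inr (20, 0), .inr (20, 1))), (132225, (.inr (0, 0), .inr (1, 1), .inl 5)), (27540, (.inr (3, 0), .inr (3, 1), .inr (4, 1))), (118185, (.inr (1, 0), .inr (1, 1), .inr (2, 1))), (87210, (.inr (2, 1), .inr (3, 0), .inr (5, 1))), (115735, (.inr (2, 0), .inr (2, 1), .inr (3, 1))), (87210, (.inr (3, 1), .inr (4, 0), .inr (6, 1))), (84030, (.inr (0, 1), .inr (1, 0), .inr (3, 1))), (5967, (.inr (0, 1), .inr (0, 1), .inl 0)), (16065, (.inr (8, 0), .inr (8, 1), .inr (9, 1))), (75735, (.inr (5, 1), .inr (8, 0), .inr (12, 1))), (86865, (.inr (6, 0), .inr (6, 1), .inr (7, 1))), (92665, (.inr (13, 0), .inr (13, 1), .inr (14, 1))), (20655, (.inr (6, 1), .inr (7, 0), .inr (9, 1))), (36261, (.inr (21, 1), .inr (21, 1), .inl 2)), (114750, (.inr (9,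 1), .inr (10, 0), .inr (12, 1))), (34425, (.inr (11, 0), .inr (11, 1), .inr (12, 1))), (32130, (.inr (11, 1), .inr (13, 0), .inr (16, 1))), (105825, (.inr (13, 1), .inr (14, 0), .inr (16, 1))), (36261, (.inr (0, 1), .inr (21, 0), .inl 3)), (80325, (.inr (10, 1), .inr (11, 0), .inr (13, 1))), (2295, (.inr (15, 1), .inr (17, 0), .inr (21, 1))), (26622, (.inr (0, 1), .inr (20, 0), .inl 6)), (86160, (.inr (9, 1), .inr (11, 1), .inl 1)), (202215, (.inr (19, 0), .inr (19, 1), .inr (21, 1))), (114750, (.inr (8, 1), .inr (9, 0), .inr (11, 1))), (87890, (.inr (8, 1), .inr (12, 1), .inl 1)), (69990, (.inr (0, 0), .inr (0, 1), .inr (1, 1))), (115350, (.inr (4, 1), .inr (6, 0), .inr (9, 1))), (131825, (.inr (7, 0), .inr (7, 1), .inr (8, 1))), (96390, (.inr (14, 0), .inr (14, 1), .inr (15, 1))), (56525, (.inr (13, 1), .inr (15, 0), .inr (18, 1))), (18360, (.inr (15, 0), .inr (15, 1), .inr (16, 1))), (56100, (.inr (1, 1), .inr (2, 0), .inr (4, 1))), (59955, (.inr (14, 1), .inr (15, 0), .inr (17, 1))), (114750, (.inr (16,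 0), .inr (16, 1), .inr (17, 1))), (114750, (.inr (18, 0), .inr (18, 1), .inr (19, 1))), (67955, (.inr (11, 1), .inr (12, 0), .inr (14, 1))), (133365, (.inr (16, 1), .inr (17, 0), .inl 4)), (112455, (.inr (10, 1), .inr (12, 0), .inr (15, 1))), (98275, (.inr (4, 1), .inr (5, 0), .inr (7, 1))), (119068, (.inr (20, 1), .inr (21, 1), .inl 0)), (22950, (.inr (6, 1), .inr (8, 0), .inr (11, 1))), (109769, (.inr (20, 1), .inl 2, .inl 3)), (18360, (.inr (10, 1), .inr (10, 1), .inl 1)), (103940, (.inr (5, 0), .inr (5, 1), .inr (6, 1))), (66555, (.inr (17, 0), .inr (17, 1), .inr (18, 1))), (21805, (.inr (12, 0), .inr (12, 1), .inr (13, 1))), (77420, (.inr (10, 1), .inr (13, 0), .inr (17, 1))), (36015, (.inr (2, 1), .inr (9, 0), .inr (17, 1))), (87465, (.inr (3, 1), .inr (8, 0), .inr (14, 1))), (30380, (.inr (2, 0), .inr (5, 1), .inl 5)), (2450, (.inr (3, 1), .inr (7, 0), .inr (12, 1))), (20090, (.inr (1, 1), .inr (19, 1), .inl 1)), (87465, (.inr (3, 0), .inr (7, 1), .inl 5)), (47285, (.inr (2, 1), .inr (7, 0), .inr (13,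 1))), (7840, (.inr (1, 1), .inr (4, 0), .inr (8, 1))), (51450, (.inr (9, 0), .inr (9, 1), .inr (10, 1))), (41405, (.inr (6, 1), .inr (11, 0), .inr (17, 1))), (46060, (.inr (10, 0), .inr (10, 1), .inr (11, 1))), (87465, (.inl 0, .inl 5, .inl 5)), (41405, (.inr (6, 1), .inr (10, 0), .inr (15, 1))), (8330, (.inr (17, 1), .inr (18, 0), .inr (21, 1))), (87465, (.inr (15, 1), .inr (16, 0), .inr (18, 1))), (79135, (.inr (18, 0), .inr (18, 1), .inl 4)), (67375, (.inr (12, 1), .inr (15, 0), .inr (19, 1))), (491470, (.inl 2, .inl 3, .inl 6)), (46060, (.inr (8, 1), .inr (11, 0), .inr (15, 1)))]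
  d := ![.inr (21, 0), .inl 6, .inl 0]
  Q := 758540
  L := 161190221546
  N := ![758543, 1517086, 0]
  r := ![165954, 331908, 0] }

theorem M4_has : HasSys ![1, 2, 0] 758540 212500 161190221546 ![758543, 1517086, 0] ![165954, 331908, 0] := by
  have h := M4.ok_ofN shM_hv shM_dual (by decide +kernel)
  have h1 : HasSys ![1, 2, 0] 34476 212500 7326585285 ![34479, 68958, 0] ![202215, 404430, 0] :=
    M3_has.scale 5 (by decide +kernel) (by decide +kernel) (by decide +kernel)
  refine h.comp ?_
  intro g
  have e : M4.κs g = ![1, 2, 0] := by fin_cases g <;> rfl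
  rw [e]
  exact h1

def M5 : Lev 7 22 := { shM with
  m := ![1, 1, 3, 3, 1, 2, 4]
  Qs := fun _ => 758540
  Ls := fun _ => 805951107730
  Ns := fun _ => ![758543, 1517086, 0]
  rs := fun _ => ![829770, 1659540, 0]
  E := 1062500
  c := [(524620, (.inr (4, 0), .inr (4, 1), .inr (5, 1))), (749904, (.inr (0, 1), .inr (20, 0), .inr (20, 1))), (499800, (.inr (0, 0), .inr (1, 1), .inl 5)), (82620, (.inr (3, 0), .inr (3, 1), .inr (4, 1))), (474555, (.inr (1, 0), .inr (1, 1), .inr (2, 1))), (261630, (.inr (2, 1), .inr (3, 0), .inr (5, 1))), (460955, (.inr (2, 0), .inr (2, 1), .inr (3, 1))), (261630, (.inr (3, 1), .inr (4, 0), .inr (6, 1))), (355215, (.inr (0, 1), .inr (1, 0), .inr (3, 1))), (17901, (.inr (0, 1), .inr (0, 1), .inl 0)), (48195, (.inr (8, 0), .inr (8, 1), .inr (9, 1))), (227205, (.inr (5, 1), .inr (8, 0), .inr (12, 1))), (329970, (.inr (6, 0), .inr (6, 1), .inr (7, 1))), (303620, (.inr (13, 0), .inr (13, 1), .inr (14, 1))), (61965, (.inr (6, 1), .inr (7, 0), .inr (9, 1))), (108783, (.inr (21, 1), .inr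 (21, 1), .inl 2)), (344250, (.inr (9, 1), .inr (10, 0), .inr (12, 1))), (103275, (.inr (11, 0), .inr (11, 1), .inr (12, 1))), (96390, (.inr (11, 1), .inr (13, 0), .inr (16, 1))), (540600, (.inr (13, 1), .inr (14, 0), .inr (16, 1))), (108783, (.inr (0, 1), .inr (21, 0), .inl 3)), (240975, (.inr (10, 1), .inr (11, 0), .inr (13, 1))), (6885, (.inr (15, 1), .inr (17, 0), .inr (21, 1))), (79866, (.inr (0, 1), .inr (20, 0), .inl 6)), (419730, (.inr (9, 1), .inr (11, 1), .inl 1)), (829770, (.inr (19, 0), .inr (19, 1), .inr (21, 1))), (344250, (.inr (8, 1), .inr (9, 0), .inr (11, 1))), (476170, (.inr (8, 1), .inr (12, 1), .inl 1)), (329970, (.inr (0, 0), .inr (0, 1), .inr (1, 1))), (499800, (.inr (4, 1), .inr (6, 0), .inr (9, 1))), (491725, (.inr (7, 0), .inr (7, 1), .inr (8, 1))), (289170, (.inr (14, 0), .inr (14, 1), .inr (15, 1))), (190825, (.inr (13, 1), .inr (15, 0), .inr (18, 1))), (55080, (.inr (15, 0), .inr (15, 1), .inr (16, 1))), (200175, (.inr (1, 1), .inr (2, 0), .inr (4, 1))), (209865, (.inr (14, 1), .inr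 (15, 0), .inr (17, 1))), (344250, (.inr (16, 0), .inr (16, 1), .inr (17, 1))), (344250, (.inr (18, 0), .inr (18, 1), .inr (19, 1))), (371365, (.inr (11, 1), .inr (12, 0), .inr (14, 1))), (623220, (.inr (16, 1), .inr (17, 0), .inl 4)), (337365, (.inr (10, 1), .inr (12, 0), .inr (15, 1))), (352325, (.inr (4, 1), .inr (5, 0), .inr (7, 1))), (559079, (.inr (20, 1), .inr (21, 1), .inl 0)), (68850, (.inr (6, 1), .inr (8, 0), .inr (11, 1))), (350557, (.inr (20, 1), .inl 2, .inl 3)), (55080, (.inr (10, 1), .inr (10, 1), .inl 1)), (477445, (.inr (5, 0), .inr (5, 1), .inr (6, 1))), (199665, (.inr (17, 0), .inr (17, 1), .inr (18, 1))), (121040, (.inr (12, 0), .inr (12, 1), .inr (13, 1))), (429760, (.inr (10, 1), .inr (13, 0), .inr (17, 1))), (199920, (.inr (2, 1), .inr (9, 0), .inr (17, 1))), (485520, (.inr (3, 1), .inr (8, 0), .inr (14, 1))), (168640, (.inr (2, 0), .inr (5, 1), .inl 5)), (13600, (.inr (3, 1), .inr (7, 0), .inr (12, 1))), (111520, (.inr (1, 1), .inr (19, 1), .inl 1)), (485520, (.inr (3, 0), .inr (7, 1),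 .inl 5)), (262480, (.inr (2, 1), .inr (7, 0), .inr (13, 1))), (43520, (.inr (1, 1), .inr (4, 0), .inr (8, 1))), (285600, (.inr (9, 0), .inr (9, 1), .inr (10, 1))), (229840, (.inr (6, 1), .inr (11, 0), .inr (17, 1))), (255680, (.inr (10, 0), .inr (10, 1), .inr (11, 1))), (485520, (.inl 0, .inl 5, .inl 5)), (229840, (.inr (6, 1), .inr (10, 0), .inr (15, 1))), (46240, (.inr (17, 1), .inr (18, 0), .inr (21, 1))), (485520, (.inr (15, 1), .inr (16, 0), .inr (18, 1))), (439280, (.inr (18, 0), .inr (18, 1), .inl 4)), (374000, (.inr (12, 1), .inr (15, 0), .inr (19, 1))), (2728160, (.inl 2, .inl 3, .inl 6)), (255680, (.inr (8, 1), .inr (11, 0), .inr (15, 1)))]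
  d := ![.inr (21, 0), .inl 6, .inl 0]
  Q := 16687948
  L := 17730947216513
  N := ![16687951, 33375902, 0]
  r := ![720987, 1441974, 0] }

theorem M5_has : HasSys ![1, 2, 0] 16687948 1062500 17730947216513 ![16687951, 33375902, 0] ![720987, 1441974, 0] := by
  have h := M5.ok_ofN shM_hv shM_dual (by decide +kernel)
  have h1 : HasSys ![1, 2, 0] 758540 1062500 805951107730 ![758543, 1517086, 0] ![829770, 1659540, 0] :=
    M4_has.scale 5 (by decide +kernel) (by decide +kernel) (by decide +kernel)
  refine h.comp ?_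
  intro g
  have e : M5.κs g = ![1, 2, 0] := by fin_cases g <;> rfl
  rw [e]
  exact h1

def M6 : Lev 7 22 := { shM with
  m := ![1, 1, 3, 3, 1, 2, 4]
  Qs := fun _ => 16687948
  Ls := fun _ => 88654736082565
  Ns := fun _ => ![16687951, 33375902, 0]
  rs := fun _ => ![3604935, 7209870, 0]
  E := 5312500
  c := [(2589485, (.inr (4, 0), .inr (4, 1), .inr (5, 1))), (3365337, (.inr (0, 1), .inr (20, 0), .inr (20, 1))), (2015025, (.inr (0, 0), .inr (1, 1), .inl 5)), (247860, (.inr (3, 0), .inr (3, 1), .inr (4, 1))), (2023665, (.inr (1, 0), .inr (1, 1), .inr (2, 1))), (784890, (.inr (2, 1), .inr (3, 0), .inr (5, 1))), (1951615, (.inr (2, 0), .inr (2, 1), .inr (3, 1))), (784890, (.inr (3, 1), .inr (4, 0), .inr (6, 1))), (1581270, (.inr (0, 1), .inr (1, 0), .inr (3, 1))), (53703, (.inr (0, 1), .inr (0, 1), .inl 0)), (144585, (.inr (8, 0), .inr (8, 1), .inr (9, 1))), (681615, (.inr (5, 1), .inr (8, 0), .inr (12, 1))), (1336785, (.inr (6, 0), .inr (6, 1), .inr (7, 1))), (1038985, (.inr (13, 0), .inr (13, 1), .inr (14,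 1))), (185895, (.inr (6, 1), .inr (7, 0), .inr (9, 1))), (326349, (.inr (21, 1), .inr (21, 1), .inl 2)), (1032750, (.inr (9, 1), .inr (10, 0), .inr (12, 1))), (309825, (.inr (11, 0), .inr (11, 1), .inr (12, 1))), (289170, (.inr (11, 1), .inr (13, 0), .inr (16, 1))), (2737425, (.inr (13, 1), .inr (14, 0), .inr (16, 1))), (326349, (.inr (0, 1), .inr (21, 0), .inl 3)), (722925, (.inr (10, 1), .inr (11, 0), .inr (13, 1))), (20655, (.inr (15, 1), .inr (17, 0), .inr (21, 1))), (239598, (.inr (0, 1), .inr (20, 0), .inl 6)), (2065440, (.inr (9, 1), .inr (11, 1), .inl 1)), (3604935, (.inr (19, 0), .inr (19, 1), .inr (21, 1))), (1032750, (.inr (8, 1), .inr (9, 0), .inr (11, 1))), (2491010, (.inr (8, 1), .inr (12, 1), .inl 1)), (1589910, (.inr (0, 0), .inr (0, 1), .inr (1, 1))), (2268150, (.inr (4, 1), .inr (6, 0), .inr (9, 1))), (1956425, (.inr (7, 0), .inr (7, 1), .inr (8, 1))), (867510, (.inr (14, 0), .inr (14, 1), .inr (15, 1))), (678725, (.inr (13, 1), .inr (15, 0), .inr (18, 1))), (165240, (.inr (15, 0), .inr (15,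 1), .inr (16, 1))), (759900, (.inr (1, 1), .inr (2, 0), .inr (4, 1))), (779595, (.inr (14, 1), .inr (15, 0), .inr (17, 1))), (1032750, (.inr (16, 0), .inr (16, 1), .inr (17, 1))), (1032750, (.inr (18, 0), .inr (18, 1), .inr (19, 1))), (1951595, (.inr (11, 1), .inr (12, 0), .inr (14, 1))), (2985285, (.inr (16, 1), .inr (17, 0), .inl 4)), (1012095, (.inr (10, 1), .inr (12, 0), .inr (15, 1))), (1344475, (.inr (4, 1), .inr (5, 0), .inr (7, 1))), (2686612, (.inr (20, 1), .inr (21, 1), .inl 0)), (206550, (.inr (6, 1), .inr (8, 0), .inr (11, 1))), (1157921, (.inr (20, 1), .inl 2, .inl 3)), (165240, (.inr (10, 1), .inr (10, 1), .inl 1)), (2260460, (.inr (5, 0), .inr (5, 1), .inr (6, 1))), (598995, (.inr (17, 0), .inr (17, 1), .inr (18, 1))), (641245, (.inr (12, 0), .inr (12, 1), .inr (13, 1))), (2276780, (.inr (10, 1), .inr (13, 0), .inr (17, 1))), (1059135, (.inr (2, 1), .inr (9, 0), .inr (17, 1))), (2572185, (.inr (3, 1), .inr (8, 0), .inr (14, 1))), (893420, (.inr (2, 0), .inr (5, 1), .inl 5)), (72050, (.inr (3,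 1), .inr (7, 0), .inr (12, 1))), (590810, (.inr (1, 1), .inr (19, 1), .inl 1)), (2572185, (.inr (3, 0), .inr (7, 1), .inl 5)), (1390565, (.inr (2, 1), .inr (7, 0), .inr (13, 1))), (230560, (.inr (1, 1), .inr (4, 0), .inr (8, 1))), (1513050, (.inr (9, 0), .inr (9, 1), .inr (10, 1))), (1217645, (.inr (6, 1), .inr (11, 0), .inr (17, 1))), (1354540, (.inr (10, 0), .inr (10, 1), .inr (11, 1))), (2572185, (.inl 0, .inl 5, .inl 5)), (1217645, (.inr (6, 1), .inr (10, 0), .inr (15, 1))), (244970, (.inr (17, 1), .inr (18, 0), .inr (21, 1))), (2572185, (.inr (15, 1), .inr (16, 0), .inr (18, 1))), (2327215, (.inr (18, 0), .inr (18, 1), .inl 4)), (1981375, (.inr (12, 1), .inr (15, 0), .inr (19, 1))), (14453230, (.inl 2, .inl 3, .inl 6)), (1354540, (.inr (8, 1), .inr (11, 0), .inr (15, 1)))]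
  d := ![.inr (21, 0), .inl 6, .inl 0]
  Q := 367134924
  L := 1950404296408914
  N := ![367134927, 734269854, 0]
  r := ![3278586, 6557172, 0] }

theorem M6_has : HasSys ![1, 2, 0] 367134924 5312500 1950404296408914 ![367134927, 734269854, 0] ![3278586, 6557172, 0] := by
  have h := M6.ok_ofN shM_hv shM_dual (by decide +kernel)
  have h1 : HasSys ![1, 2, 0] 16687948 5312500 88654736082565 ![16687951, 33375902, 0] ![3604935, 7209870, 0] :=
    M5_has.scale 5 (by decide +kernel) (by decide +kernel) (by decide +kernel)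
  refine h.comp ?_
  intro g
  have e : M6.κs g = ![1, 2, 0] := by fin_cases g <;> rfl
  rw [e]
  exact h1

def M7 : Lev 7 22 := { shM with
  m := ![1, 1, 3, 3, 1, 2, 4]
  Qs := fun _ => 367134924
  Ls := fun _ => 9752021482044570
  Ns := fun _ => ![367134927, 734269854, 0]
  rs := fun _ => ![16392930, 32785860, 0]
  E := 26562500
  c := [(12846580, (.inr (4, 0), .inr (4, 1), .inr (5, 1))), (15674136, (.inr (0, 1), .inr (20, 0), .inr (20, 1))), (8623200, (.inr (0, 0), .inr (1, 1), .inl 5)), (743580, (.inr (3, 0), .inr (3, 1), .inr (4, 1))), (9070995, (.inr (1, 0), .inr (1, 1), .inr (2, 1))), (2354670, (.inr (2, 1), .inr (3, 0), .inr (5, 1))), (8698595, (.inr (2, 0), .inr (2, 1), .inr (3, 1))), (2354670, (.inr (3, 1), .inr (4, 0), .inr (6, 1))), (7321935, (.inr (0, 1), .inr (1, 0), .inr (3, 1))), (161109, (.inr (0, 1), .inr (0, 1), .inl 0)), (433755, (.inr (8, 0), .inr (8, 1), .inr (9, 1))), (2044845, (.inr (5, 1), .inr (8, 0), .inr (12, 1))), (5744730, (.inr (6, 0), .inr (6, 1), .inr (7, 1))), (3757580, (.inr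 (13, 0), .inr (13, 1), .inr (14, 1))), (557685, (.inr (6, 1), .inr (7, 0), .inr (9, 1))), (979047, (.inr (21, 1), .inr (21, 1), .inl 2)), (3098250, (.inr (9, 1), .inr (10, 0), .inr (12, 1))), (929475, (.inr (11, 0), .inr (11, 1), .inr (12, 1))), (867510, (.inr (11, 1), .inr (13, 0), .inr (16, 1))), (13790400, (.inr (13, 1), .inr (14, 0), .inr (16, 1))), (979047, (.inr (0, 1), .inr (21, 0), .inl 3)), (2168775, (.inr (10, 1), .inr (11, 0), .inr (13, 1))), (61965, (.inr (15, 1), .inr (17, 0), .inr (21, 1))), (718794, (.inr (0, 1), .inr (20, 0), .inl 6)), (10227570, (.inr (9, 1), .inr (11, 1), .inl 1)), (16392930, (.inr (19, 0), .inr (19, 1), .inr (21, 1))), (3098250, (.inr (8, 1), .inr (9, 0), .inr (11, 1))), (12785530, (.inr (8, 1), .inr (12, 1), .inl 1)), (7769730, (.inr (0, 0), .inr (0, 1), .inr (1, 1))), (10648200, (.inr (4, 1), .inr (6, 0), .inr (9, 1))), (8275525, (.inr (7, 0), .inr (7, 1), .inr (8, 1))), (2602530, (.inr (14, 0), .inr (14, 1), .inr (15, 1))), (2567425, (.inr (13, 1), .inr (15, 0), .inr (18,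 1))), (495720, (.inr (15, 0), .inr (15, 1), .inr (16, 1))), (3076575, (.inr (1, 1), .inr (2, 0), .inr (4, 1))), (3088785, (.inr (14, 1), .inr (15, 0), .inr (17, 1))), (3098250, (.inr (16, 0), .inr (16, 1), .inr (17, 1))), (3098250, (.inr (18, 0), .inr (18, 1), .inr (19, 1))), (10042285, (.inr (11, 1), .inr (12, 0), .inr (14, 1))), (14533980, (.inr (16, 1), .inr (17, 0), .inl 4)), (3036285, (.inr (10, 1), .inr (12, 0), .inr (15, 1))), (5470925, (.inr (4, 1), .inr (5, 0), .inr (7, 1))), (13106711, (.inr (20, 1), .inr (21, 1), .inl 0)), (619650, (.inr (6, 1), .inr (8, 0), .inr (11, 1))), (4005013, (.inr (20, 1), .inl 2, .inl 3)), (495720, (.inr (10, 1), .inr (10, 1), .inl 1)), (10922005, (.inr (5, 0), .inr (5, 1), .inr (6, 1))), (1796985, (.inr (17, 0), .inr (17, 1), .inr (18, 1))), (3314360, (.inr (12, 0), .inr (12, 1), .inr (13, 1))), (11767840, (.inr (10, 1), .inr (13, 0), .inr (17, 1))), (5474280, (.inr (2, 1), .inr (9, 0), .inr (17, 1))), (13294680, (.inr (3, 1), .inr (8, 0), .inr (14, 1))), (4617760, (.inr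 (2, 0), .inr (5, 1), .inl 5)), (372400, (.inr (3, 1), .inr (7, 0), .inr (12, 1))), (3053680, (.inr (1, 1), .inr (19, 1), .inl 1)), (13294680, (.inr (3, 0), .inr (7, 1), .inl 5)), (7187320, (.inr (2, 1), .inr (7, 0), .inr (13, 1))), (1191680, (.inr (1, 1), .inr (4, 0), .inr (8, 1))), (7820400, (.inr (9, 0), .inr (9, 1), .inr (10, 1))), (6293560, (.inr (6, 1), .inr (11, 0), .inr (17, 1))), (7001120, (.inr (10, 0), .inr (10, 1), .inr (11, 1))), (13294680, (.inl 0, .inl 5, .inl 5)), (6293560, (.inr (6, 1), .inr (10, 0), .inr (15, 1))), (1266160, (.inr (17, 1), .inr (18, 0), .inr (21, 1))), (13294680, (.inr (15, 1), .inr (16, 0), .inr (18, 1))), (12028520, (.inr (18, 0), .inr (18, 1), .inl 4)), (10241000, (.inr (12, 1), .inr (15, 0), .inr (19, 1))), (74703440, (.inl 2, .inl 3, .inl 6)), (7001120, (.inr (8, 1), .inr (11, 0), .inr (15, 1)))]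
  d := ![.inr (21, 0), .inl 6, .inl 0]
  Q := 8076968396
  L := 214544473083023617
  N := ![8076968399, 16153936798, 0]
  r := ![15413883, 30827766, 0] }

theorem M7_has : HasSys ![1, 2, 0] 8076968396 26562500 214544473083023617 ![8076968399, 16153936798, 0] ![15413883, 30827766, 0] := by
  have h := M7.ok_ofN shM_hv shM_dual (by decide +kernel)
  have h1 : HasSys ![1, 2, 0] 367134924 26562500 9752021482044570 ![367134927, 734269854, 0] ![16392930, 32785860, 0] :=
    M6_has.scale 5 (by decide +kernel) (by decide +kernel) (by decide +kernel)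
  refine h.comp ?_
  intro g
  have e : M7.κs g = ![1, 2, 0] := by fin_cases g <;> rfl
  rw [e]
  exact h1

def M8 : Lev 7 22 := { shM with
  m := ![1, 1, 3, 3, 1, 2, 4]
  Qs := fun _ => 8076968396
  Ls := fun _ => 1072722365415118085
  Ns := fun _ => ![8076968399, 16153936798, 0]
  rs := fun _ => ![77069415, 154138830, 0]
  E := 132812500
  c := [(63930365, (.inr (4, 0), .inr (4, 1), .inr (5, 1))), (74913033, (.inr (0, 1), .inr (20, 0), .inr (20, 1))), (38760225, (.inr (0, 0), .inr (1, 1), .inl 5)), (2230740, (.inr (3, 0), .inr (3, 1), .inr (4, 1))), (42212985, (.inr (1, 0), .inr (1, 1), .inr (2, 1))), (7064010, (.inr (2, 1), .inr (3, 0), .inr (5, 1))), (40314535, (.inr (2, 0), .inr (2, 1), .inr (3, 1))), (7064010, (.inr (3, 1), .inr (4, 0), .inr (6, 1))), (34856430, (.inr (0, 1), .inr (1, 0), .inr (3, 1))), (483327, (.inr (0, 1), .inr (0, 1), .inl 0)), (1301265, (.inr (8, 0), .inr (8, 1), .inr (9, 1))), (6134535, (.inr (5, 1), .inr (8, 0), .inr (12, 1))), (25906065, (.inr (6, 0), .inr (6, 1), .inr (7, 1))),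 (14475865, (.inr (13, 0), .inr (13, 1), .inr (14, 1))), (1673055, (.inr (6, 1), .inr (7, 0), .inr (9, 1))), (2937141, (.inr (21, 1), .inr (21, 1), .inl 2)), (9294750, (.inr (9, 1), .inr (10, 0), .inr (12, 1))), (2788425, (.inr (11, 0), .inr (11, 1), .inr (12, 1))), (2602530, (.inr (11, 1), .inr (13, 0), .inr (16, 1))), (69261825, (.inr (13, 1), .inr (14, 0), .inr (16, 1))), (2937141, (.inr (0, 1), .inr (21, 0), .inl 3)), (6506325, (.inr (10, 1), .inr (11, 0), .inr (13, 1))), (185895, (.inr (15, 1), .inr (17, 0), .inr (21, 1))), (2156382, (.inr (0, 1), .inr (20, 0), .inl 6)), (50838960, (.inr (9, 1), .inr (11, 1), .inl 1)), (77069415, (.inr (19, 0), .inr (19, 1), .inr (21, 1))), (9294750, (.inr (8, 1), .inr (9, 0), .inr (11, 1))), (64919090, (.inr (8, 1), .inr (12, 1), .inl 1)), (38309190, (.inr (0, 0), .inr (0, 1), .inr (1, 1))), (51163350, (.inr (4, 1), .inr (6, 0), .inr (9, 1))), (36857825, (.inr (7, 0), .inr (7, 1), .inr (8, 1))), (7807590, (.inr (14, 0), .inr (14, 1), .inr (15, 1))), (10358525, (.inr (13,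 1), .inr (15, 0), .inr (18, 1))), (1487160, (.inr (15, 0), .inr (15, 1), .inr (16, 1))), (13214100, (.inr (1, 1), .inr (2, 0), .inr (4, 1))), (13016355, (.inr (14, 1), .inr (15, 0), .inr (17, 1))), (9294750, (.inr (16, 0), .inr (16, 1), .inr (17, 1))), (9294750, (.inr (18, 0), .inr (18, 1), .inr (19, 1))), (51064355, (.inr (11, 1), .inr (12, 0), .inr (14, 1))), (71492565, (.inr (16, 1), .inr (17, 0), .inl 4)), (9108855, (.inr (10, 1), .inr (12, 0), .inr (15, 1))), (23600275, (.inr (4, 1), .inr (5, 0), .inr (7, 1))), (64554508, (.inr (20, 1), .inr (21, 1), .inl 0)), (1858950, (.inr (6, 1), .inr (8, 0), .inr (11, 1))), (14671289, (.inr (20, 1), .inl 2, .inl 3)), (1487160, (.inr (10, 1), .inr (10, 1), .inl 1)), (53469140, (.inr (5, 0), .inr (5, 1), .inr (6, 1))), (5390955, (.inr (17, 0), .inr (17, 1), .inr (18, 1))), (16896205, (.inr (12, 0), .inr (12, 1), .inr (13, 1))), (59991020, (.inr (10, 1), .inr (13, 0), .inr (17, 1))), (27907215, (.inr (2, 1), .inr (9, 0), .inr (17, 1))), (67774665, (.inr (3, 1), .inr (8,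 0), .inr (14, 1))), (23540780, (.inr (2, 0), .inr (5, 1), .inl 5)), (1898450, (.inr (3, 1), .inr (7, 0), .inr (12, 1))), (15567290, (.inr (1, 1), .inr (19, 1), .inl 1)), (67774665, (.inr (3, 0), .inr (7, 1), .inl 5)), (36640085, (.inr (2, 1), .inr (7, 0), .inr (13, 1))), (6075040, (.inr (1, 1), .inr (4, 0), .inr (8, 1))), (39867450, (.inr (9, 0), .inr (9, 1), .inr (10, 1))), (32083805, (.inr (6, 1), .inr (11, 0), .inr (17, 1))), (35690860, (.inr (10, 0), .inr (10, 1), .inr (11, 1))), (67774665, (.inl 0, .inl 5, .inl 5)), (32083805, (.inr (6, 1), .inr (10, 0), .inr (15, 1))), (6454730, (.inr (17, 1), .inr (18, 0), .inr (21, 1))), (67774665, (.inr (15, 1), .inr (16, 0), .inr (18, 1))), (61319935, (.inr (18, 0), .inr (18, 1), .inl 4)), (52207375, (.inr (12, 1), .inr (15, 0), .inr (19, 1))), (380829070, (.inl 2, .inl 3, .inl 6)), (35690860, (.inr (8, 1), .inr (11, 0), .inr (15, 1)))]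
  d := ![.inr (21, 0), .inl 6, .inl 0]
  Q := 177693304780
  L := 23599892041418055226
  N := ![177693304783, 355386609566, 0]
  r := ![74132274, 148264548, 0] }

theorem M8_has : HasSys ![1, 2, 0] 177693304780 132812500 23599892041418055226 ![177693304783, 355386609566, 0] ![74132274, 148264548, 0] := by
  have h := M8.ok_ofN shM_hv shM_dual (by decide +kernel)
  have h1 : HasSys ![1, 2, 0] 8076968396 132812500 1072722365415118085 ![8076968399, 16153936798, 0] ![77069415, 154138830, 0] :=
    M7_has.scale 5 (by decide +kernel) (by decide +kernel) (by decide +kernel)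
  refine h.comp ?_
  intro g
  have e : M8.κs g = ![1, 2, 0] := by fin_cases g <;> rfl
  rw [e]
  exact h1

def M9 : Lev 7 22 := { shM with
  m := ![1, 1, 3, 3, 1, 2, 4]
  Qs := fun _ => 177693304780
  Ls := fun _ => 117999460207090276130
  Ns := fun _ => ![177693304783, 355386609566, 0]
  rs := fun _ => ![370661370, 741322740, 0]
  E := 664062500
  c := [(318744220, (.inr (4, 0), .inr (4, 1), .inr (5, 1))), (364192224, (.inr (0, 1), .inr (20, 0), .inr (20, 1))), (180733800, (.inr (0, 0), .inr (1, 1), .inl 5)), (6692220, (.inr (3, 0), .inr (3, 1), .inr (4, 1))), (201638955, (.inr (1, 0), .inr (1, 1), .inr (2, 1))), (21192030, (.inr (2, 1), .inr (3, 0), .inr (5, 1))), (192037355, (.inr (2, 0), .inr (2, 1), .inr (3, 1))), (21192030, (.inr (3, 1), .inr (4, 0), .inr (6, 1))), (169022415, (.inr (0, 1), .inr (1, 0), .inr (3, 1))), (1449981, (.inr (0, 1), .inr (0, 1), .inl 0)), (3903795, (.inr (8, 0), .inr (8, 1), .inr (9, 1))), (18403605, (.inr (5, 1), .inr (8, 0), .inr (12, 1))), (121077570, (.inr (6, 0), .inr (6,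 1), .inr (7, 1))), (59443220, (.inr (13, 0), .inr (13, 1), .inr (14, 1))), (5019165, (.inr (6, 1), .inr (7, 0), .inr (9, 1))), (8811423, (.inr (21, 1), .inr (21, 1), .inl 2)), (27884250, (.inr (9, 1), .inr (10, 0), .inr (12, 1))), (8365275, (.inr (11, 0), .inr (11, 1), .inr (12, 1))), (7807590, (.inr (11, 1), .inr (13, 0), .inr (16, 1))), (347238600, (.inr (13, 1), .inr (14, 0), .inr (16, 1))), (8811423, (.inr (0, 1), .inr (21, 0), .inl 3)), (19518975, (.inr (10, 1), .inr (11, 0), .inr (13, 1))), (557685, (.inr (15, 1), .inr (17, 0), .inr (21, 1))), (6469146, (.inr (0, 1), .inr (20, 0), .inl 6)), (253298130, (.inr (9, 1), .inr (11, 1), .inl 1)), (370661370, (.inr (19, 0), .inr (19, 1), .inr (21, 1))), (27884250, (.inr (8, 1), .inr (9, 0), .inr (11, 1))), (327569770, (.inr (8, 1), .inr (12, 1), .inl 1)), (189927570, (.inr (0, 0), .inr (0, 1), .inr (1, 1))), (249583800, (.inr (4, 1), .inr (6, 0), .inr (9, 1))), (170729725, (.inr (7, 0), .inr (7, 1), .inr (8, 1))), (23422770, (.inr (14, 0), .inr (14, 1), .inr (15,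 1))), (44356825, (.inr (13, 1), .inr (15, 0), .inr (18, 1))), (4461480, (.inr (15, 0), .inr (15, 1), .inr (16, 1))), (59564175, (.inr (1, 1), .inr (2, 0), .inr (4, 1))), (57799065, (.inr (14, 1), .inr (15, 0), .inr (17, 1))), (27884250, (.inr (16, 0), .inr (16, 1), .inr (17, 1))), (27884250, (.inr (18, 0), .inr (18, 1), .inr (19, 1))), (257880565, (.inr (11, 1), .inr (12, 0), .inr (14, 1))), (353930820, (.inr (16, 1), .inr (17, 0), .inl 4)), (27326565, (.inr (10, 1), .inr (12, 0), .inr (15, 1))), (106738325, (.inr (4, 1), .inr (5, 0), .inr (7, 1))), (319835399, (.inr (20, 1), .inr (21, 1), .inl 0)), (5576850, (.inr (6, 1), .inr (8, 0), .inr (11, 1))), (57295117, (.inr (20, 1), .inl 2, .inl 3)), (4461480, (.inr (10, 1), .inr (10, 1), .inl 1)), (263923045, (.inr (5, 0), .inr (5, 1), .inr (6, 1))), (16172865, (.inr (17, 0), .inr (17, 1), .inr (18, 1))), (85454240, (.inr (12, 0), .inr (12, 1), .inr (13, 1))), (303410560, (.inr (10, 1), .inr (13, 0), .inr (17, 1))), (141143520, (.inr (2, 1), .inr (9, 0), .inr (17,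 1))), (342777120, (.inr (3, 1), .inr (8, 0), .inr (14, 1))), (119059840, (.inr (2, 0), .inr (5, 1), .inl 5)), (9601600, (.inr (3, 1), .inr (7, 0), .inr (12, 1))), (78733120, (.inr (1, 1), .inr (19, 1), .inl 1)), (342777120, (.inr (3, 0), .inr (7, 1), .inl 5)), (185310880, (.inr (2, 1), .inr (7, 0), .inr (13, 1))), (30725120, (.inr (1, 1), .inr (4, 0), .inr (8, 1))), (201633600, (.inr (9, 0), .inr (9, 1), .inr (10, 1))), (162267040, (.inr (6, 1), .inr (11, 0), .inr (17, 1))), (180510080, (.inr (10, 0), .inr (10, 1), .inr (11, 1))), (342777120, (.inl 0, .inl 5, .inl 5)), (162267040, (.inr (6, 1), .inr (10, 0), .inr (15, 1))), (32645440, (.inr (17, 1), .inr (18, 0), .inr (21, 1))), (342777120, (.inr (15, 1), .inr (16, 0), .inr (18, 1))), (310131680, (.inr (18, 0), .inr (18, 1), .inl 4)), (264044000, (.inr (12, 1), .inr (15, 0), .inr (19, 1))), (1926080960, (.inl 2, .inl 3, .inl 6)), (180510080, (.inr (8, 1), .inr (11, 0), .inr (15, 1)))]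
  d := ![.inr (21, 0), .inl 6, .inl 0]
  Q := 3909252705228
  L := 2595988124567099087553
  N := ![3909252705231, 7818505410462, 0]
  r := ![361849947, 723699894, 0] }

theorem M9_has : HasSys ![1, 2, 0] 3909252705228 664062500 2595988124567099087553 ![3909252705231, 7818505410462, 0] ![361849947, 723699894, 0] := by
  have h := M9.ok_ofN shM_hv shM_dual (by decide +kernel)
  have h1 : HasSys ![1, 2, 0] 177693304780 664062500 117999460207090276130 ![177693304783, 355386609566, 0] ![370661370, 741322740, 0] :=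
    M8_has.scale 5 (by decide +kernel) (by decide +kernel) (by decide +kernel)
  refine h.comp ?_
  intro g
  have e : M9.κs g = ![1, 2, 0] := by fin_cases g <;> rfl
  rw [e]
  exact h1

def M10 : Lev 7 22 := { shM with
  m := ![1, 1, 3, 3, 1, 2, 4]
  Qs := fun _ => 3909252705228
  Ls := fun _ => 12979940622835495437765
  Ns := fun _ => ![3909252705231, 7818505410462, 0]
  rs := fun _ => ![1809249735, 3618499470, 0]
  E := 3320312500
  c := [(1590998285, (.inr (4, 0), .inr (4, 1), .inr (5, 1))), (1789842297, (.inr (0, 1), .inr (20, 0), .inr (20, 1))), (864467025, (.inr (0, 0), .inr (1, 1), .inl 5)), (20076660, (.inr (3, 0), .inr (3, 1), .inr (4, 1))), (979916865, (.inr (1, 0), .inr (1, 1), .inr (2, 1))), (63576090, (.inr (2, 1), .inr (3, 0), .inr (5, 1))), (931580815, (.inr (2, 0), .inr (2, 1), .inr (3, 1))), (63576090, (.inr (3, 1), .inr (4, 0), .inr (6, 1))), (829332870, (.inr (0, 1), .inr (1, 0), .inr (3, 1))), (4349943, (.inr (0, 1), .inr (0, 1), .inl 0)), (11711385, (.inr (8, 0), .inr (8, 1), .inr (9, 1))),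 (55210815, (.inr (5, 1), .inr (8, 0), .inr (12, 1))), (580029585, (.inr (6, 0), .inr (6, 1), .inr (7, 1))), (258407785, (.inr (13, 0), .inr (13, 1), .inr (14, 1))), (15057495, (.inr (6, 1), .inr (7, 0), .inr (9, 1))), (26434269, (.inr (21, 1), .inr (21, 1), .inl 2)), (83652750, (.inr (9, 1), .inr (10, 0), .inr (12, 1))), (25095825, (.inr (11, 0), .inr (11, 1), .inr (12, 1))), (23422770, (.inr (11, 1), .inr (13, 0), .inr (16, 1))), (1738981425, (.inr (13, 1), .inr (14, 0), .inr (16, 1))), (26434269, (.inr (0, 1), .inr (21, 0), .inl 3)), (58556925, (.inr (10, 1), .inr (11, 0), .inr (13, 1))), (1673055, (.inr (15, 1), .inr (17, 0), .inr (21, 1))), (19407438, (.inr (0, 1), .inr (20, 0), .inl 6)), (1263800640, (.inr (9, 1), .inr (11, 1), .inl 1)), (1809249735, (.inr (19, 0), .inr (19, 1), .inr (21, 1))), (83652750, (.inr (8, 1), .inr (9, 0), .inr (11, 1))), (1646771810, (.inr (8, 1), .inr (12, 1), .inl 1)), (944782710, (.inr (0, 0), .inr (0, 1), .inr (1, 1))), (1229220150, (.inr (4, 1), .inr (6, 0), .inr (9, 1))),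 (812970425, (.inr (7, 0), .inr (7, 1), .inr (8, 1))), (70268310, (.inr (14, 0), .inr (14, 1), .inr (15, 1))), (199476725, (.inr (13, 1), .inr (15, 0), .inr (18, 1))), (13384440, (.inr (15, 0), .inr (15, 1), .inr (16, 1))), (278301900, (.inr (1, 1), .inr (2, 0), .inr (4, 1))), (267147195, (.inr (14, 1), .inr (15, 0), .inr (17, 1))), (83652750, (.inr (16, 0), .inr (16, 1), .inr (17, 1))), (83652750, (.inr (18, 0), .inr (18, 1), .inr (19, 1))), (1297079195, (.inr (11, 1), .inr (12, 0), .inr (14, 1))), (1759058085, (.inr (16, 1), .inr (17, 0), .inl 4)), (81979695, (.inr (10, 1), .inr (12, 0), .inr (15, 1))), (499902475, (.inr (4, 1), .inr (5, 0), .inr (7, 1))), (1590365572, (.inr (20, 1), .inr (21, 1), .inl 0)), (16730550, (.inr (6, 1), .inr (8, 0), .inr (11, 1))), (238291601, (.inr (20, 1), .inl 2, .inl 3)), (13384440, (.inr (10, 1), .inr (10, 1), .inl 1)), (1309347260, (.inr (5, 0), .inr (5, 1), .inr (6, 1))), (48518595, (.inr (17, 0), .inr (17, 1), .inr (18, 1))), (430190845, (.inr (12, 0), .inr (12, 1), .inr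 (13, 1))), (1527419180, (.inr (10, 1), .inr (13, 0), .inr (17, 1))), (710539935, (.inr (2, 1), .inr (9, 0), .inr (17, 1))), (1725596985, (.inr (3, 1), .inr (8, 0), .inr (14, 1))), (599367020, (.inr (2, 0), .inr (5, 1), .inl 5)), (48336050, (.inr (3, 1), .inr (7, 0), .inr (12, 1))), (396355610, (.inr (1, 1), .inr (19, 1), .inl 1)), (1725596985, (.inr (3, 0), .inr (7, 1), .inl 5)), (932885765, (.inr (2, 1), .inr (7, 0), .inr (13, 1))), (154675360, (.inr (1, 1), .inr (4, 0), .inr (8, 1))), (1015057050, (.inr (9, 0), .inr (9, 1), .inr (10, 1))), (816879245, (.inr (6, 1), .inr (11, 0), .inr (17, 1))), (908717740, (.inr (10, 0), .inr (10, 1), .inr (11, 1))), (1725596985, (.inl 0, .inl 5, .inl 5)), (816879245, (.inr (6, 1), .inr (10, 0), .inr (15, 1))), (164342570, (.inr (17, 1), .inr (18, 0), .inr (21, 1))), (1725596985, (.inr (15, 1), .inr (16, 0), .inr (18, 1))), (1561254415, (.inr (18, 0), .inr (18, 1), .inl 4)), (1329241375, (.inr (12, 1), .inr (15, 0), .inr (19, 1))), (9696211630, (.inl 2, .inl 3, .inl 6)), (908717740,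 (.inr (8, 1), .inr (11, 0), .inr (15, 1)))]
  d := ![.inr (21, 0), .inl 6, .inl 0]
  Q := 86003559515084
  L := 285558693702435521872034
  N := ![86003559515087, 172007119030174, 0]
  r := ![1782815466, 3565630932, 0] }

theorem M10_has : HasSys ![1, 2, 0] 86003559515084 3320312500 285558693702435521872034 ![86003559515087, 172007119030174, 0] ![1782815466, 3565630932, 0] := by
  have h := M10.ok_ofN shM_hv shM_dual (by decide +kernel)
  have h1 : HasSys ![1, 2, 0] 3909252705228 3320312500 12979940622835495437765 ![3909252705231, 7818505410462, 0] ![1809249735, 3618499470, 0] :=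
    M9_has.scale 5 (by decide +kernel) (by decide +kernel) (by decide +kernel)
  refine h.comp ?_
  intro g
  have e : M10.κs g = ![1, 2, 0] := by fin_cases g <;> rfl
  rw [e]
  exact h1

def M11 : Lev 7 22 := { shM with
  m := ![1, 1, 3, 3, 1, 2, 4]
  Qs := fun _ => 86003559515084
  Ls := fun _ => 1427793468512177609360170
  Ns := fun _ => ![86003559515087, 172007119030174, 0]
  rs := fun _ => ![8914077330, 17828154660, 0]
  E := 16601562500
  c := [(7946822980, (.inr (4, 0), .inr (4, 1), .inr (5, 1))), (8855855016, (.inr (0, 1), .inr (20, 0), .inr (20, 1))), (4204729200, (.inr (0, 0), .inr (1, 1), .inl 5)), (60229980, (.inr (3, 0), .inr (3, 1), .inr (4, 1))), (4814750595, (.inr (1, 0), .inr (1, 1), .inr (2, 1))), (190728270, (.inr (2, 1), .inr (3, 0), .inr (5, 1))), (4572086195, (.inr (2, 0), .inr (2, 1), .inr (3, 1))), (190728270, (.inr (3, 1), .inr (4, 0), .inr (6, 1))), (4099326735, (.inr (0, 1), .inr (1, 0), .inr (3, 1))), (13049829, (.inr (0, 1), .inr (0, 1), .inl 0)), (35134155, (.inr (8, 0), .inr (8,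 1), .inr (9, 1))), (165632445, (.inr (5, 1), .inr (8, 0), .inr (12, 1))), (2824073130, (.inr (6, 0), .inr (6, 1), .inr (7, 1))), (1175613980, (.inr (13, 0), .inr (13, 1), .inr (14, 1))), (45172485, (.inr (6, 1), .inr (7, 0), .inr (9, 1))), (79302807, (.inr (21, 1), .inr (21, 1), .inl 2)), (250958250, (.inr (9, 1), .inr (10, 0), .inr (12, 1))), (75287475, (.inr (11, 0), .inr (11, 1), .inr (12, 1))), (70268310, (.inr (11, 1), .inr (13, 0), .inr (16, 1))), (8703272400, (.inr (13, 1), .inr (14, 0), .inr (16, 1))), (79302807, (.inr (0, 1), .inr (21, 0), .inl 3)), (175670775, (.inr (10, 1), .inr (11, 0), .inr (13, 1))), (5019165, (.inr (15, 1), .inr (17, 0), .inr (21, 1))), (58222314, (.inr (0, 1), .inr (20, 0), .inl 6)), (6310933170, (.inr (9, 1), .inr (11, 1), .inl 1)), (8914077330, (.inr (19, 0), .inr (19, 1), .inr (21, 1))), (250958250, (.inr (8, 1), .inr (9, 0), .inr (11, 1))), (8260627930, (.inr (8, 1), .inr (12, 1), .inl 1)), (4709348130, (.inr (0, 0), .inr (0, 1), .inr (1, 1))), (6090004200, (.inr (4, 1),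 .inr (6, 0), .inr (9, 1))), (3942817525, (.inr (7, 0), .inr (7, 1), .inr (8, 1))), (210804930, (.inr (14, 0), .inr (14, 1), .inr (15, 1))), (930461425, (.inr (13, 1), .inr (15, 0), .inr (18, 1))), (40153320, (.inr (15, 0), .inr (15, 1), .inr (16, 1))), (1332952575, (.inr (1, 1), .inr (2, 0), .inr (4, 1))), (1270191585, (.inr (14, 1), .inr (15, 0), .inr (17, 1))), (250958250, (.inr (16, 0), .inr (16, 1), .inr (17, 1))), (250958250, (.inr (18, 0), .inr (18, 1), .inr (19, 1))), (6508425085, (.inr (11, 1), .inr (12, 0), .inr (14, 1))), (8763502380, (.inr (16, 1), .inr (17, 0), .inl 4)), (245939085, (.inr (10, 1), .inr (12, 0), .inr (15, 1))), (2398144925, (.inr (4, 1), .inr (5, 0), .inr (7, 1))), (7925393591, (.inr (20, 1), .inr (21, 1), .inl 0)), (50191650, (.inr (6, 1), .inr (8, 0), .inr (11, 1))), (1046906053, (.inr (20, 1), .inl 2, .inl 3)), (40153320, (.inr (10, 1), .inr (10, 1), .inl 1)), (6515932405, (.inr (5, 0), .inr (5, 1), .inr (6, 1))), (145555785, (.inr (17, 0), .inr (17, 1), .inr (18, 1))), (2159713160,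 (.inr (12, 0), .inr (12, 1), .inr (13, 1))), (7668195040, (.inr (10, 1), .inr (13, 0), .inr (17, 1))), (3567166680, (.inr (2, 1), .inr (9, 0), .inr (17, 1))), (8663119080, (.inr (3, 1), .inr (8, 0), .inr (14, 1))), (3009038560, (.inr (2, 0), .inr (5, 1), .inl 5)), (242664400, (.inr (3, 1), .inr (7, 0), .inr (12, 1))), (1989848080, (.inr (1, 1), .inr (19, 1), .inl 1)), (8663119080, (.inr (3, 0), .inr (7, 1), .inl 5)), (4683422920, (.inr (2, 1), .inr (7, 0), .inr (13, 1))), (776526080, (.inr (1, 1), .inr (4, 0), .inr (8, 1))), (5095952400, (.inr (9, 0), .inr (9, 1), .inr (10, 1))), (4101028360, (.inr (6, 1), .inr (11, 0), .inr (17, 1))), (4562090720, (.inr (10, 0), .inr (10, 1), .inr (11, 1))), (8663119080, (.inl 0, .inl 5, .inl 5)), (4101028360, (.inr (6, 1), .inr (10, 0), .inr (15, 1))), (825058960, (.inr (17, 1), .inr (18, 0), .inr (21, 1))), (8663119080, (.inr (15, 1), .inr (16, 0), .inr (18, 1))), (7838060120, (.inr (18, 0), .inr (18, 1), .inl 4)), (6673271000, (.inr (12, 1), .inr (15, 0), .inr (19, 1))),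 (48678478640, (.inl 2, .inl 3, .inl 6)), (4562090720, (.inr (8, 1), .inr (11, 0), .inr (15, 1)))]
  d := ![.inr (21, 0), .inl 6, .inl 0]
  Q := 1892078309331916
  L := 31411456307268177688662977
  N := ![1892078309331919, 3784156618663838, 0]
  r := ![8834774523, 17669549046, 0] }

theorem M11_has : HasSys ![1, 2, 0] 1892078309331916 16601562500 31411456307268177688662977 ![1892078309331919, 3784156618663838, 0] ![8834774523, 17669549046, 0] := by
  have h := M11.ok_ofN shM_hv shM_dual (by decide +kernel)
  have h1 : HasSys ![1, 2, 0] 86003559515084 16601562500 1427793468512177609360170 ![86003559515087, 172007119030174, 0] ![8914077330, 17828154660, 0] :=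
    M10_has.scale 5 (by decide +kernel) (by decide +kernel) (by decide +kernel)
  refine h.comp ?_
  intro g
  have e : M11.κs g = ![1, 2, 0] := by fin_cases g <;> rfl
  rw [e]
  exact h1

def M12 : Lev 7 22 := { shM with
  m := ![1, 1, 3, 3, 1, 2, 4]
  Qs := fun _ => 1892078309331916
  Ls := fun _ => 157057281536340888443314885
  Ns := fun _ => ![1892078309331919, 3784156618663838, 0]
  rs := fun _ => ![44173872615, 88347745230, 0]
  E := 83007812500
  c := [(39709609565, (.inr (4, 0), .inr (4, 1), .inr (5, 1))), (43999205673, (.inr (0, 1), .inr (20, 0), .inr (20, 1))), (20670828225, (.inr (0, 0), .inr (1, 1), .inl 5)), (180689940, (.inr (3, 0), .inr (3, 1), .inr (4, 1))), (23819251785, (.inr (1, 0), .inr (1, 1), .inr (2, 1))), (572184810, (.inr (2, 1), .inr (3, 0), .inr (5, 1))), (22602977335, (.inr (2, 0), .inr (2, 1), .inr (3, 1))), (572184810, (.inr (3, 1), .inr (4, 0), .inr (6, 1))), (20354620830, (.inr (0, 1), .inr (1, 0), .inr (3, 1))), (39149487, (.inr (0, 1), .inr (0, 1), .inl 0)), (105402465, (.inr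 (8, 0), .inr (8, 1), .inr (9, 1))), (496897335, (.inr (5, 1), .inr (8, 0), .inr (12, 1))), (13892141265, (.inr (6, 0), .inr (6, 1), .inr (7, 1))), (5528795065, (.inr (13, 0), .inr (13, 1), .inr (14, 1))), (135517455, (.inr (6, 1), .inr (7, 0), .inr (9, 1))), (237908421, (.inr (21, 1), .inr (21, 1), .inl 2)), (752874750, (.inr (9, 1), .inr (10, 0), .inr (12, 1))), (225862425, (.inr (11, 0), .inr (11, 1), .inr (12, 1))), (210804930, (.inr (11, 1), .inr (13, 0), .inr (16, 1))), (43541457825, (.inr (13, 1), .inr (14, 0), .inr (16, 1))), (237908421, (.inr (0, 1), .inr (21, 0), .inl 3)), (527012325, (.inr (10, 1), .inr (11, 0), .inr (13, 1))), (15057495, (.inr (15, 1), .inr (17, 0), .inr (21, 1))), (174666942, (.inr (0, 1), .inr (20, 0), .inl 6)), (31530455760, (.inr (9, 1), .inr (11, 1), .inl 1)), (44173872615, (.inr (19, 0), .inr (19, 1), .inr (21, 1))), (752874750, (.inr (8, 1), .inr (9, 0), .inr (11, 1))), (41383446290, (.inr (8, 1), .inr (12, 1), .inl 1)), (23503044390, (.inr (0, 0), .inr (0, 1), .inr (1, 1))),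 (30281731350, (.inr (4, 1), .inr (6, 0), .inr (9, 1))), (19347983825, (.inr (7, 0), .inr (7, 1), .inr (8, 1))), (632414790, (.inr (14, 0), .inr (14, 1), .inr (15, 1))), (4451540525, (.inr (13, 1), .inr (15, 0), .inr (18, 1))), (120459960, (.inr (15, 0), .inr (15, 1), .inr (16, 1))), (6489092100, (.inr (1, 1), .inr (2, 0), .inr (4, 1))), (6154324755, (.inr (14, 1), .inr (15, 0), .inr (17, 1))), (752874750, (.inr (16, 0), .inr (16, 1), .inr (17, 1))), (752874750, (.inr (18, 0), .inr (18, 1), .inr (19, 1))), (32611212755, (.inr (11, 1), .inr (12, 0), .inr (14, 1))), (43722147765, (.inr (16, 1), .inr (17, 0), .inl 4)), (737817255, (.inr (10, 1), .inr (12, 0), .inr (15, 1))), (11686622275, (.inr (4, 1), .inr (5, 0), .inr (7, 1))), (39547665148, (.inr (20, 1), .inr (21, 1), .inl 0)), (150574950, (.inr (6, 1), .inr (8, 0), .inr (11, 1))), (4800874409, (.inr (20, 1), .inl 2, .inl 3)), (120459960, (.inr (10, 1), .inr (10, 1), .inl 1)), (32487250340, (.inr (5, 0), .inr (5, 1), .inr (6, 1))), (436667355, (.inr (17, 0),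 .inr (17, 1), .inr (18, 1))), (10824842605, (.inr (12, 0), .inr (12, 1), .inr (13, 1))), (38434272620, (.inr (10, 1), .inr (13, 0), .inr (17, 1))), (17879234415, (.inr (2, 1), .inr (9, 0), .inr (17, 1))), (43420997865, (.inr (3, 1), .inr (8, 0), .inr (14, 1))), (15081803180, (.inr (2, 0), .inr (5, 1), .inl 5)), (1216274450, (.inr (3, 1), .inr (7, 0), .inr (12, 1))), (9973450490, (.inr (1, 1), .inr (19, 1), .inl 1)), (43420997865, (.inr (3, 0), .inr (7, 1), .inl 5)), (23474096885, (.inr (2, 1), .inr (7, 0), .inr (13, 1))), (3892078240, (.inr (1, 1), .inr (4, 0), .inr (8, 1))), (25541763450, (.inr (9, 0), .inr (9, 1), .inr (10, 1))), (20555038205, (.inr (6, 1), .inr (11, 0), .inr (17, 1))), (22865959660, (.inr (10, 0), .inr (10, 1), .inr (11, 1))), (43420997865, (.inl 0, .inl 5, .inl 5)), (20555038205, (.inr (6, 1), .inr (10, 0), .inr (15, 1))), (4135333130, (.inr (17, 1), .inr (18, 0), .inr (21, 1))), (43420997865, (.inr (15, 1), .inr (16, 0), .inr (18, 1))), (39285664735, (.inr (18, 0), .inr (18, 1), .inl 4)),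 (33447547375, (.inr (12, 1), .inr (15, 0), .inr (19, 1))), (243984654670, (.inl 2, .inl 3, .inl 6)), (22865959660, (.inr (8, 1), .inr (11, 0), .inr (15, 1)))]
  d := ![.inr (21, 0), .inl 6, .inl 0]
  Q := 41625722805302220
  L := 3455260193799500888681223306
  N := ![41625722805302223, 83251445610604446, 0]
  r := ![43935964194, 87871928388, 0] }

theorem M12_has : HasSys ![1, 2, 0] 41625722805302220 83007812500 3455260193799500888681223306 ![41625722805302223, 83251445610604446, 0] ![43935964194, 87871928388, 0] := by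
  have h := M12.ok_ofN shM_hv shM_dual (by decide +kernel)
  have h1 : HasSys ![1, 2, 0] 1892078309331916 83007812500 157057281536340888443314885 ![1892078309331919, 3784156618663838, 0] ![44173872615, 88347745230, 0] :=
    M11_has.scale 5 (by decide +kernel) (by decide +kernel) (by decide +kernel)
  refine h.comp ?_
  intro g
  have e : M12.κs g = ![1, 2, 0] := by fin_cases g <;> rfl
  rw [e]
  exact h1

def M13 : Lev 7 22 := { shM with
  m := ![1, 1, 3, 3, 1, 2, 4]
  Qs := fun _ => 41625722805302220
  Ls := fun _ => 17276300968997504443406116530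
  Ns := fun _ => ![41625722805302223, 83251445610604446, 0]
  rs := fun _ => ![219679820970, 439359641940, 0]
  E := 415039062500
  c := [(198474531820, (.inr (4, 0), .inr (4, 1), .inr (5, 1))), (219155820144, (.inr (0, 1), .inr (20, 0), .inr (20, 1))), (102295687800, (.inr (0, 0), .inr (1, 1), .inl 5)), (542069820, (.inr (3, 0), .inr (3, 1), .inr (4, 1))), (118332755355, (.inr (1, 0), .inr (1, 1), .inr (2, 1))), (1716554430, (.inr (2, 1), .inr (3, 0), .inr (5, 1))), (112242525755, (.inr (2, 0), .inr (2, 1), .inr (3, 1))), (1716554430, (.inr (3, 1), .inr (4, 0), .inr (6, 1))), (101347065615, (.inr (0, 1), .inr (1, 0), .inr (3, 1))), (117448461, (.inr (0, 1), .inr (0, 1), .inl 0)), (316207395, (.inr (8, 0), .inr (8, 1), .inr (9, 1))), (1490692005, (.inr (5, 1), .inr (8, 0), .inr (12, 1))), (68776033170, (.inr (6, 0), .inr (6, 1), .inr (7, 1))), (26596150820, (.inr (13, 0), .inr (13, 1), .inr (14, 1))), (406552365, (.inr (6, 1), .inr (7, 0), .inr (9, 1))), (713725263, (.inr (21, 1), .inr (21, 1), .inl 2)), (2258624250,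 (.inr (9, 1), .inr (10, 0), .inr (12, 1))), (677587275, (.inr (11, 0), .inr (11, 1), .inr (12, 1))), (632414790, (.inr (11, 1), .inr (13, 0), .inr (16, 1))), (217782576600, (.inr (13, 1), .inr (14, 0), .inr (16, 1))), (713725263, (.inr (0, 1), .inr (21, 0), .inl 3)), (1581036975, (.inr (10, 1), .inr (11, 0), .inr (13, 1))), (45172485, (.inr (15, 1), .inr (17, 0), .inr (21, 1))), (524000826, (.inr (0, 1), .inr (20, 0), .inl 6)), (157579648530, (.inr (9, 1), .inr (11, 1), .inl 1)), (219679820970, (.inr (19, 0), .inr (19, 1), .inr (21, 1))), (2258624250, (.inr (8, 1), .inr (9, 0), .inr (11, 1))), (207158151370, (.inr (8, 1), .inr (12, 1), .inl 1)), (117384133170, (.inr (0, 0), .inr (0, 1), .inr (1, 1))), (150903787800, (.inr (4, 1), .inr (6, 0), .inr (9, 1))), (95641607725, (.inr (7, 0), .inr (7, 1), .inr (8, 1))), (1897244370, (.inr (14, 0), .inr (14, 1), .inr (15, 1))), (21655402825, (.inr (13, 1), .inr (15, 0), .inr (18, 1))), (361379880, (.inr (15, 0), .inr (15, 1), .inr (16, 1))), (31918448175, (.inr (1, 1),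 .inr (2, 0), .inr (4, 1))), (30181724265, (.inr (14, 1), .inr (15, 0), .inr (17, 1))), (2258624250, (.inr (16, 0), .inr (16, 1), .inr (17, 1))), (2258624250, (.inr (18, 0), .inr (18, 1), .inr (19, 1))), (163263325765, (.inr (11, 1), .inr (12, 0), .inr (14, 1))), (218324646420, (.inr (16, 1), .inr (17, 0), .inl 4)), (2213451765, (.inr (10, 1), .inr (12, 0), .inr (15, 1))), (57520804325, (.inr (4, 1), .inr (5, 0), .inr (7, 1))), (197500417319, (.inr (20, 1), .inr (21, 1), .inl 0)), (451724850, (.inr (6, 1), .inr (8, 0), .inr (11, 1))), (22703404477, (.inr (20, 1), .inl 2, .inl 3)), (361379880, (.inr (10, 1), .inr (10, 1), .inl 1)), (162159016645, (.inr (5, 0), .inr (5, 1), .inr (6, 1))), (1310002065, (.inr (17, 0), .inr (17, 1), .inr (18, 1))), (54203043440, (.inr (12, 0), .inr (12, 1), .inr (13, 1))), (192451255360, (.inr (10, 1), .inr (13, 0), .inr (17, 1))), (89526375120, (.inr (2, 1), .inr (9, 0), .inr (17, 1))), (217421196720, (.inr (3, 1), .inr (8, 0), .inr (14, 1))), (75518847040, (.inr (2, 0), .inr (5,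 1), .inl 5)), (6090229600, (.inr (3, 1), .inr (7, 0), .inr (12, 1))), (49939882720, (.inr (1, 1), .inr (19, 1), .inl 1)), (217421196720, (.inr (3, 0), .inr (7, 1), .inl 5)), (117541431280, (.inr (2, 1), .inr (7, 0), .inr (13, 1))), (19488734720, (.inr (1, 1), .inr (4, 0), .inr (8, 1))), (127894821600, (.inr (9, 0), .inr (9, 1), .inr (10, 1))), (102924880240, (.inr (6, 1), .inr (11, 0), .inr (17, 1))), (114496316480, (.inr (10, 0), .inr (10, 1), .inr (11, 1))), (217421196720, (.inl 0, .inl 5, .inl 5)), (102924880240, (.inr (6, 1), .inr (10, 0), .inr (15, 1))), (20706780640, (.inr (17, 1), .inr (18, 0), .inr (21, 1))), (217421196720, (.inr (15, 1), .inr (16, 0), .inr (18, 1))), (196714416080, (.inr (18, 0), .inr (18, 1), .inl 4)), (167481314000, (.inr (12, 1), .inr (15, 0), .inr (19, 1))), (1221700057760, (.inl 2, .inl 3, .inl 6)), (114496316480, (.inr (8, 1), .inr (11, 0), .inr (15, 1)))]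
  d := ![.inr (21, 0), .inl 6, .inl 0]
  Q := 915765901716648908
  L := 380078621317945104444119841793
  N := ![915765901716648911, 1831531803433297822, 0]
  r := ![218966095707, 437932191414, 0] }

theorem M13_has : HasSys ![1, 2, 0] 915765901716648908 415039062500 380078621317945104444119841793 ![915765901716648911, 1831531803433297822, 0] ![218966095707, 437932191414, 0] := by
  have h := M13.ok_ofN shM_hv shM_dual (by decide +kernel)
  have h1 : HasSys ![1, 2, 0] 41625722805302220 415039062500 17276300968997504443406116530 ![41625722805302223, 83251445610604446, 0] ![219679820970, 439359641940, 0] :=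
    M12_has.scale 5 (by decide +kernel) (by decide +kernel) (by decide +kernel)
  refine h.comp ?_
  intro g
  have e : M13.κs g = ![1, 2, 0] := by fin_cases g <;> rfl
  rw [e]
  exact h1

def M14 : Lev 7 22 := { shM with
  m := ![1, 1, 3, 3, 1, 2, 4]
  Qs := fun _ => 915765901716648908
  Ls := fun _ => 1900393106589725522220599208965
  Ns := fun _ => ![915765901716648911, 1831531803433297822, 0]
  rs := fun _ => ![1094830478535, 2189660957070, 0]
  E := 2075195312500
  c := [(992152111085, (.inr (4, 0), .inr (4, 1), .inr (5, 1))), (1093258476057, (.inr (0, 1), .inr (20, 0), .inr (20, 1))), (508303079025, (.inr (0, 0), .inr (1, 1), .inl 5)), (1626209460, (.inr (3, 0), .inr (3, 1), .inr (4, 1))), (589373266065, (.inr (1, 0), .inr (1, 1), .inr (2, 1))), (5149663290, (.inr (2, 1), .inr (3, 0), .inr (5, 1))), (558895546015, (.inr (2, 0), .inr (2, 1), .inr (3, 1))), (5149663290, (.inr (3, 1), .inr (4, 0), .inr (6, 1))), (505457212470, (.inr (0, 1), .inr (1, 0), .inr (3, 1))), (352345383, (.inr (0, 1), .inr (0, 1),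 .inl 0)), (948622185, (.inr (8, 0), .inr (8, 1), .inr (9, 1))), (4472076015, (.inr (5, 1), .inr (8, 0), .inr (12, 1))), (341826146385, (.inr (6, 0), .inr (6, 1), .inr (7, 1))), (129837280585, (.inr (13, 0), .inr (13, 1), .inr (14, 1))), (1219657095, (.inr (6, 1), .inr (7, 0), .inr (9, 1))), (2141175789, (.inr (21, 1), .inr (21, 1), .inl 2)), (6775872750, (.inr (9, 1), .inr (10, 0), .inr (12, 1))), (2032761825, (.inr (11, 0), .inr (11, 1), .inr (12, 1))), (1897244370, (.inr (11, 1), .inr (13, 0), .inr (16, 1))), (1089138745425, (.inr (13, 1), .inr (14, 0), .inr (16, 1))), (2141175789, (.inr (0, 1), .inr (21, 0), .inl 3)), (4743110925, (.inr (10, 1), .inr (11, 0), .inr (13, 1))), (135517455, (.inr (15, 1), .inr (17, 0), .inr (21, 1))), (1572002478, (.inr (0, 1), .inr (20, 0), .inl 6)), (787680351840, (.inr (9, 1), .inr (11, 1), .inl 1)), (1094830478535, (.inr (19, 0), .inr (19, 1), .inr (21, 1))), (6775872750, (.inr (8, 1), .inr (9, 0), .inr (11, 1))), (1036513516610, (.inr (8, 1), .inr (12, 1), .inl 1)), (586527399510,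 (.inr (0, 0), .inr (0, 1), .inr (1, 1))), (753004332150, (.inr (4, 1), .inr (6, 0), .inr (9, 1))), (474913104425, (.inr (7, 0), .inr (7, 1), .inr (8, 1))), (5691733110, (.inr (14, 0), .inr (14, 1), .inr (15, 1))), (106470114725, (.inr (13, 1), .inr (15, 0), .inr (18, 1))), (1084139640, (.inr (15, 0), .inr (15, 1), .inr (16, 1))), (158011203900, (.inr (1, 1), .inr (2, 0), .inr (4, 1))), (149138922795, (.inr (14, 1), .inr (15, 0), .inr (17, 1))), (6775872750, (.inr (16, 0), .inr (16, 1), .inr (17, 1))), (6775872750, (.inr (18, 0), .inr (18, 1), .inr (19, 1))), (816938414795, (.inr (11, 1), .inr (12, 0), .inr (14, 1))), (1090764954885, (.inr (16, 1), .inr (17, 0), .inl 4)), (6640355295, (.inr (10, 1), .inr (12, 0), .inr (15, 1))), (284867100475, (.inr (4, 1), .inr (5, 0), .inr (7, 1))), (986788361332, (.inr (20, 1), .inr (21, 1), .inl 0)), (1355174550, (.inr (6, 1), .inr (8, 0), .inr (11, 1))), (109614119681, (.inr (20, 1), .inl 2, .inl 3)), (1084139640, (.inr (10, 1), .inr (10, 1), .inl 1)), (809963378060, (.inr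 (5, 0), .inr (5, 1), .inr (6, 1))), (3930006195, (.inr (17, 0), .inr (17, 1), .inr (18, 1))), (271251708445, (.inr (12, 0), .inr (12, 1), .inr (13, 1))), (963095953580, (.inr (10, 1), .inr (13, 0), .inr (17, 1))), (448022484735, (.inr (2, 1), .inr (9, 0), .inr (17, 1))), (1088054605785, (.inr (3, 1), .inr (8, 0), .inr (14, 1))), (377923728620, (.inr (2, 0), .inr (5, 1), .inl 5)), (30477720050, (.inr (3, 1), .inr (7, 0), .inr (12, 1))), (249917304410, (.inr (1, 1), .inr (19, 1), .inl 1)), (1088054605785, (.inr (3, 0), .inr (7, 1), .inl 5)), (588219996965, (.inr (2, 1), .inr (7, 0), .inr (13, 1))), (97528704160, (.inr (1, 1), .inr (4, 0), .inr (8, 1))), (640032121050, (.inr (9, 0), .inr (9, 1), .inr (10, 1))), (515073468845, (.inr (6, 1), .inr (11, 0), .inr (17, 1))), (572981136940, (.inr (10, 0), .inr (10, 1), .inr (11, 1))), (1088054605785, (.inl 0, .inl 5, .inl 5)), (515073468845, (.inr (6, 1), .inr (10, 0), .inr (15, 1))), (103624248170, (.inr (17, 1), .inr (18, 0), .inr (21, 1))), (1088054605785, (.inr (15,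 1), .inr (16, 0), .inr (18, 1))), (984430357615, (.inr (18, 0), .inr (18, 1), .inl 4)), (838137301375, (.inr (12, 1), .inr (15, 0), .inr (19, 1))), (6113830642030, (.inl 2, .inl 3, .inl 6)), (572981136940, (.inr (8, 1), .inr (11, 0), .inr (15, 1)))]
  d := ![.inr (21, 0), .inl 6, .inl 0]
  Q := 20146849837766276044
  L := 41808648344973961522222740384754
  N := ![20146849837766276047, 40293699675532552094, 0]
  r := ![1092689302746, 2185378605492, 0] }

theorem M14_has : HasSys ![1, 2, 0] 20146849837766276044 2075195312500 41808648344973961522222740384754 ![20146849837766276047, 40293699675532552094, 0] ![1092689302746, 2185378605492, 0] := by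
  have h := M14.ok_ofN shM_hv shM_dual (by decide +kernel)
  have h1 : HasSys ![1, 2, 0] 915765901716648908 2075195312500 1900393106589725522220599208965 ![915765901716648911, 1831531803433297822, 0] ![1094830478535, 2189660957070, 0] :=
    M13_has.scale 5 (by decide +kernel) (by decide +kernel) (by decide +kernel)
  refine h.comp ?_
  intro g
  have e : M14.κs g = ![1, 2, 0] := by fin_cases g <;> rfl
  rw [e]
  exact h1

def M15 : Lev 7 22 := { shM with
  m := ![1, 1, 3, 3, 1, 2, 4]
  Qs := fun _ => 20146849837766276044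
  Ls := fun _ => 209043241724869807611113701923770
  Ns := fun _ => ![20146849837766276047, 40293699675532552094, 0]
  rs := fun _ => ![5463446513730, 10926893027460, 0]
  E := 10375976562500
  c := [(4960098911380, (.inr (4, 0), .inr (4, 1), .inr (5, 1))), (5458730506296, (.inr (0, 1), .inr (20, 0), .inr (20, 1))), (2531989315200, (.inr (0, 0), .inr (1, 1), .inl 5)), (4878628380, (.inr (3, 0), .inr (3, 1), .inr (4, 1))), (2939994798195, (.inr (1, 0), .inr (1, 1), .inr (2, 1))), (15448989870, (.inr (2, 1), .inr (3, 0), .inr (5, 1))), (2787526481795, (.inr (2, 0), .inr (2, 1), .inr (3, 1))), (15448989870, (.inr (3, 1), .inr (4, 0), .inr (6, 1))), (2523451715535, (.inr (0, 1), .inr (1, 0), .inr (3, 1))), (1057036149, (.inr (0, 1), .inr (0, 1), .inl 0)), (2845866555, (.inr (8, 0), .inr (8, 1), .inr (9, 1))), (13416228045, (.inr (5, 1), .inr (8, 0), .inr (12, 1))), (1702968673530, (.inr (6, 0), .inr (6, 1), .inr (7, 1))), (639755982380, (.inr (13, 0), .inr (13, 1), .inr (14, 1))), (3658971285, (.inr (6, 1), .inr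 (7, 0), .inr (9, 1))), (6423527367, (.inr (21, 1), .inr (21, 1), .inl 2)), (20327618250, (.inr (9, 1), .inr (10, 0), .inr (12, 1))), (6098285475, (.inr (11, 0), .inr (11, 1), .inr (12, 1))), (5691733110, (.inr (11, 1), .inr (13, 0), .inr (16, 1))), (5446371314400, (.inr (13, 1), .inr (14, 0), .inr (16, 1))), (6423527367, (.inr (0, 1), .inr (21, 0), .inl 3)), (14229332775, (.inr (10, 1), .inr (11, 0), .inr (13, 1))), (406552365, (.inr (15, 1), .inr (17, 0), .inr (21, 1))), (4716007434, (.inr (0, 1), .inr (20, 0), .inl 6)), (3937748086770, (.inr (9, 1), .inr (11, 1), .inl 1)), (5463446513730, (.inr (19, 0), .inr (19, 1), .inr (21, 1))), (20327618250, (.inr (8, 1), .inr (9, 0), .inr (11, 1))), (5184735862330, (.inr (8, 1), .inr (12, 1), .inl 1)), (2931457198530, (.inr (0, 0), .inr (0, 1), .inr (1, 1))), (3760477840200, (.inr (4, 1), .inr (6, 0), .inr (9, 1))), (2364680719525, (.inr (7, 0), .inr (7, 1), .inr (8, 1))), (17075199330, (.inr (14, 0), .inr (14, 1), .inr (15, 1))), (526929875425, (.inr (13, 1), .inr (15,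 0), .inr (18, 1))), (3252418920, (.inr (15, 0), .inr (15, 1), .inr (16, 1))), (785312908575, (.inr (1, 1), .inr (2, 0), .inr (4, 1))), (740385518385, (.inr (14, 1), .inr (15, 0), .inr (17, 1))), (20327618250, (.inr (16, 0), .inr (16, 1), .inr (17, 1))), (20327618250, (.inr (18, 0), .inr (18, 1), .inr (19, 1))), (4086557431885, (.inr (11, 1), .inr (12, 0), .inr (14, 1))), (5451249942780, (.inr (16, 1), .inr (17, 0), .inl 4)), (19921065885, (.inr (10, 1), .inr (12, 0), .inr (15, 1))), (1416124738925, (.inr (4, 1), .inr (5, 0), .inr (7, 1))), (4931800630871, (.inr (20, 1), .inr (21, 1), .inl 0)), (4065523650, (.inr (6, 1), .inr (8, 0), .inr (11, 1))), (536361890293, (.inr (20, 1), .inl 2, .inl 3)), (3252418920, (.inr (10, 1), .inr (10, 1), .inl 1)), (4047321774805, (.inr (5, 0), .inr (5, 1), .inr (6, 1))), (11790018585, (.inr (17, 0), .inr (17, 1), .inr (18, 1))), (1356968015960, (.inr (12, 0), .inr (12, 1), .inr (13, 1))), (4817998798240, (.inr (10, 1), .inr (13, 0), .inr (17, 1))), (2241284251080, (.inr (2, 1),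 .inr (9, 0), .inr (17, 1))), (5443118895480, (.inr (3, 1), .inr (8, 0), .inr (14, 1))), (1890607123360, (.inr (2, 0), .inr (5, 1), .inl 5)), (152468316400, (.inr (3, 1), .inr (7, 0), .inr (12, 1))), (1250240194480, (.inr (1, 1), .inr (19, 1), .inl 1)), (5443118895480, (.inr (3, 0), .inr (7, 1), .inl 5)), (2942638506520, (.inr (2, 1), .inr (7, 0), .inr (13, 1))), (487898612480, (.inr (1, 1), .inr (4, 0), .inr (8, 1))), (3201834644400, (.inr (9, 0), .inr (9, 1), .inr (10, 1))), (2576714547160, (.inr (6, 1), .inr (11, 0), .inr (17, 1))), (2866404348320, (.inr (10, 0), .inr (10, 1), .inr (11, 1))), (5443118895480, (.inl 0, .inl 5, .inl 5)), (2576714547160, (.inr (6, 1), .inr (10, 0), .inr (15, 1))), (518392275760, (.inr (17, 1), .inr (18, 0), .inr (21, 1))), (5443118895480, (.inr (15, 1), .inr (16, 0), .inr (18, 1))), (4924726619720, (.inr (18, 0), .inr (18, 1), .inl 4)), (4192878701000, (.inr (12, 1), .inr (15, 0), .inr (19, 1))), (30585144269840, (.inl 2, .inl 3, .inl 6)), (2866404348320, (.inr (8, 1), .inr (11,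 0), .inr (15, 1)))]
  d := ![.inr (21, 0), .inl 6, .inl 0]
  Q := 443230696430858073036
  L := 4598951317947135767611120125451137
  N := ![443230696430858073039, 886461392861716146078, 0]
  r := ![5457022986363, 10914045972726, 0] }

theorem M15_has : HasSys ![1, 2, 0] 443230696430858073036 10375976562500 4598951317947135767611120125451137 ![443230696430858073039, 886461392861716146078, 0] ![5457022986363, 10914045972726, 0] := by
  have h := M15.ok_ofN shM_hv shM_dual (by decide +kernel)
  have h1 : HasSys ![1, 2, 0] 20146849837766276044 10375976562500 209043241724869807611113701923770 ![20146849837766276047, 40293699675532552094, 0] ![5463446513730, 10926893027460, 0] :=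
    M14_has.scale 5 (by decide +kernel) (by decide +kernel) (by decide +kernel)
  refine h.comp ?_
  intro g
  have e : M15.κs g = ![1, 2, 0] := by fin_cases g <;> rfl
  rw [e]
  exact h1

def M16 : Lev 7 22 := { shM with
  m := ![1, 1, 3, 3, 1, 2, 4]
  Qs := fun _ => 443230696430858073036
  Ls := fun _ => 22994756589735678838055600627255685
  Ns := fun _ => ![443230696430858073039, 886461392861716146078, 0]
  rs := fun _ => ![27285114931815, 54570229863630, 0]
  E := 51879882812500
  c := [(24798509624765, (.inr (4, 0), .inr (4, 1), .inr (5, 1))), (27270966909513, (.inr (0, 1), .inr (20, 0), .inr (20, 1))), (12631368336225, (.inr (0, 0), .inr (1, 1), .inl 5)), (14635885140, (.inr (3, 0), .inr (3, 1), .inr (4, 1))), (14679359394585, (.inr (1, 0), .inr (1, 1), .inr (2, 1))), (46346969610, (.inr (2, 1), .inr (3, 0), .inr (5, 1))), (13916778664135, (.inr (2, 0), .inr (2, 1), .inr (3, 1))), (46346969610, (.inr (3, 1), .inr (4, 0), .inr (6, 1))), (12605755537230, (.inr (0, 1), .inr (1, 0), .inr (3, 1))), (3171108447,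 (.inr (0, 1), .inr (0, 1), .inl 0)), (8537599665, (.inr (8, 0), .inr (8, 1), .inr (9, 1))), (40248684135, (.inr (5, 1), .inr (8, 0), .inr (12, 1))), (8496357192465, (.inr (6, 0), .inr (6, 1), .inr (7, 1))), (3170488650265, (.inr (13, 0), .inr (13, 1), .inr (14, 1))), (10976913855, (.inr (6, 1), .inr (7, 0), .inr (9, 1))), (19270582101, (.inr (21, 1), .inr (21, 1), .inl 2)), (60982854750, (.inr (9, 1), .inr (10, 0), .inr (12, 1))), (18294856425, (.inr (11, 0), .inr (11, 1), .inr (12, 1))), (17075199330, (.inr (11, 1), .inr (13, 0), .inr (16, 1))), (27233889333825, (.inr (13, 1), .inr (14, 0), .inr (16, 1))), (19270582101, (.inr (0, 1), .inr (21, 0), .inl 3)), (42687998325, (.inr (10, 1), .inr (11, 0), .inr (13, 1))), (1219657095, (.inr (15, 1), .inr (17, 0), .inr (21, 1))), (14148022302, (.inr (0, 1), .inr (20, 0), .inl 6)), (19686779416560, (.inr (9, 1), .inr (11, 1), .inl 1)), (27285114931815, (.inr (19, 0), .inr (19, 1), .inr (21, 1))), (60982854750, (.inr (8, 1), .inr (9, 0), .inr (11, 1))), (25930184149490,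 (.inr (8, 1), .inr (12, 1), .inl 1)), (14653746595590, (.inr (0, 0), .inr (0, 1), .inr (1, 1))), (18788757739350, (.inr (4, 1), .inr (6, 0), .inr (9, 1))), (11793749189825, (.inr (7, 0), .inr (7, 1), .inr (8, 1))), (51225597990, (.inr (14, 0), .inr (14, 1), .inr (15, 1))), (2618387282525, (.inr (13, 1), .inr (15, 0), .inr (18, 1))), (9757256760, (.inr (15, 0), .inr (15, 1), .inr (16, 1))), (3912335210100, (.inr (1, 1), .inr (2, 0), .inr (4, 1))), (3686000305155, (.inr (14, 1), .inr (15, 0), .inr (17, 1))), (60982854750, (.inr (16, 0), .inr (16, 1), .inr (17, 1))), (60982854750, (.inr (18, 0), .inr (18, 1), .inr (19, 1))), (20438383233155, (.inr (11, 1), .inr (12, 0), .inr (14, 1))), (27248525218965, (.inr (16, 1), .inr (17, 0), .inl 4)), (59763197655, (.inr (10, 1), .inr (12, 0), .inr (15, 1))), (7055991404275, (.inr (4, 1), .inr (5, 0), .inr (7, 1))), (24652579626988, (.inr (20, 1), .inr (21, 1), .inl 0)), (12196570950, (.inr (6, 1), .inr (8, 0), .inr (11, 1))), (2646683327129, (.inr (20, 1), .inl 2, .inl 3)),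 (9757256760, (.inr (10, 1), .inr (10, 1), .inl 1)), (20229123527540, (.inr (5, 0), .inr (5, 1), .inr (6, 1))), (35370055755, (.inr (17, 0), .inr (17, 1), .inr (18, 1))), (6786968501005, (.inr (12, 0), .inr (12, 1), .inr (13, 1))), (24097551082220, (.inr (10, 1), .inr (13, 0), .inr (17, 1))), (11209936737615, (.inr (2, 1), .inr (9, 0), .inr (17, 1))), (27224132077065, (.inr (3, 1), .inr (8, 0), .inr (14, 1))), (9456001057580, (.inr (2, 0), .inr (5, 1), .inl 5)), (762580730450, (.inr (3, 1), .inr (7, 0), .inr (12, 1))), (6253161989690, (.inr (1, 1), .inr (19, 1), .inl 1)), (27224132077065, (.inr (3, 0), .inr (7, 1), .inl 5)), (14717808097685, (.inr (2, 1), .inr (7, 0), .inr (13, 1))), (2440258337440, (.inr (1, 1), .inr (4, 0), .inr (8, 1))), (16014195339450, (.inr (9, 0), .inr (9, 1), .inr (10, 1))), (12887614344605, (.inr (6, 1), .inr (11, 0), .inr (17, 1))), (14336517732460, (.inr (10, 0), .inr (10, 1), .inr (11, 1))), (27224132077065, (.inl 0, .inl 5, .inl 5)), (12887614344605, (.inr (6, 1), .inr (10, 0), .inr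 (15, 1))), (2592774483530, (.inr (17, 1), .inr (18, 0), .inr (21, 1))), (27224132077065, (.inr (15, 1), .inr (16, 0), .inr (18, 1))), (24631357593535, (.inr (18, 0), .inr (18, 1), .inl 4)), (20970970087375, (.inr (12, 1), .inr (15, 0), .inr (19, 1))), (152973694528270, (.inl 2, .inl 3, .inl 6)), (14336517732460, (.inr (8, 1), .inr (11, 0), .inr (15, 1)))]
  d := ![.inr (21, 0), .inl 6, .inl 0]
  Q := 9751075321478877606860
  L := 505884644974184934438055619897837786
  N := ![9751075321478877606863, 19502150642957755213726, 0]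
  r := ![27265844349714, 54531688699428, 0] }

theorem M16_has : HasSys ![1, 2, 0] 9751075321478877606860 51879882812500 505884644974184934438055619897837786 ![9751075321478877606863, 19502150642957755213726, 0] ![27265844349714, 54531688699428, 0] := by
  have h := M16.ok_ofN shM_hv shM_dual (by decide +kernel)
  have h1 : HasSys ![1, 2, 0] 443230696430858073036 51879882812500 22994756589735678838055600627255685 ![443230696430858073039, 886461392861716146078, 0] ![27285114931815, 54570229863630, 0] :=
    M15_has.scale 5 (by decide +kernel) (by decide +kernel) (by decide +kernel)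
  refine h.comp ?_
  intro g
  have e : M16.κs g = ![1, 2, 0] := by fin_cases g <;> rfl
  rw [e]
  exact h1

def M17 : Lev 7 22 := { shM with
  m := ![1, 1, 3, 3, 1, 2, 4]
  Qs := fun _ => 9751075321478877606860
  Ls := fun _ => 2529423224870924672190278099489188930
  Ns := fun _ => ![9751075321478877606863, 19502150642957755213726, 0]
  rs := fun _ => ![136329221748570, 272658443497140, 0]
  E := 259399414062500
  c := [(123986593327420, (.inr (4, 0), .inr (4, 1), .inr (5, 1))), (136286777681664, (.inr (0, 1), .inr (20, 0), .inr (20, 1))), (63071106961800, (.inr (0, 0), .inr (1, 1), .inl 5)), (43907655420, (.inr (3, 0), .inr (3, 1), .inr (4, 1))), (73334953183755, (.inr (1, 0), .inr (1, 1), .inr (2, 1))), (139040908830, (.inr (2, 1), .inr (3, 0), .inr (5, 1))), (69521332086155, (.inr (2, 0), .inr (2, 1), .inr (3, 1))), (139040908830, (.inr (3, 1), .inr (4, 0), .inr (6, 1))), (62994268564815, (.inr (0, 1), .inr (1, 0), .inr (3, 1))), (9513325341, (.inr (0, 1), .inr (0, 1), .inl 0)), (25612798995, (.inr (8, 0),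 .inr (8, 1), .inr (9, 1))), (120746052405, (.inr (5, 1), .inr (8, 0), .inr (12, 1))), (42426327436770, (.inr (6, 0), .inr (6, 1), .inr (7, 1))), (15767569466420, (.inr (13, 0), .inr (13, 1), .inr (14, 1))), (32930741565, (.inr (6, 1), .inr (7, 0), .inr (9, 1))), (57811746303, (.inr (21, 1), .inr (21, 1), .inl 2)), (182948564250, (.inr (9, 1), .inr (10, 0), .inr (12, 1))), (54884569275, (.inr (11, 0), .inr (11, 1), .inr (12, 1))), (51225597990, (.inr (11, 1), .inr (13, 0), .inr (16, 1))), (136175544954600, (.inr (13, 1), .inr (14, 0), .inr (16, 1))), (57811746303, (.inr (0, 1), .inr (21, 0), .inl 3)), (128063994975, (.inr (10, 1), .inr (11, 0), .inr (13, 1))), (3658971285, (.inr (15, 1), .inr (17, 0), .inr (21, 1))), (42444066906, (.inr (0, 1), .inr (20, 0), .inl 6)), (98428014030930, (.inr (9, 1), .inr (11, 1), .inl 1)), (136329221748570, (.inr (19, 0), .inr (19, 1), .inr (21, 1))), (182948564250, (.inr (8, 1), .inr (9, 0), .inr (11, 1))), (129670435260970, (.inr (8, 1), .inr (12, 1), .inl 1)), (73258114786770,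 (.inr (0, 0), .inr (0, 1), .inr (1, 1))), (93902894311800, (.inr (4, 1), .inr (6, 0), .inr (9, 1))), (58879782725725, (.inr (7, 0), .inr (7, 1), .inr (8, 1))), (153676793970, (.inr (14, 0), .inr (14, 1), .inr (15, 1))), (13043150128825, (.inr (13, 1), .inr (15, 0), .inr (18, 1))), (29271770280, (.inr (15, 0), .inr (15, 1), .inr (16, 1))), (19518988052175, (.inr (1, 1), .inr (2, 0), .inr (4, 1))), (18382219665465, (.inr (14, 1), .inr (15, 0), .inr (17, 1))), (182948564250, (.inr (16, 0), .inr (16, 1), .inr (17, 1))), (182948564250, (.inr (18, 0), .inr (18, 1), .inr (19, 1))), (102208704386965, (.inr (11, 1), .inr (12, 0), .inr (14, 1))), (136219452610020, (.inr (16, 1), .inr (17, 0), .inl 4)), (179289592965, (.inr (10, 1), .inr (12, 0), .inr (15, 1))), (35206060150325, (.inr (4, 1), .inr (5, 0), .inr (7, 1))), (123243627552839, (.inr (20, 1), .inr (21, 1), .inl 0)), (36589712850, (.inr (6, 1), .inr (8, 0), .inr (11, 1))), (13128038262637, (.inr (20, 1), .inl 2, .inl 3)), (29271770280, (.inr (10, 1), .inr (10,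 1), .inl 1)), (101123161598245, (.inr (5, 0), .inr (5, 1), .inr (6, 1))), (106110167265, (.inr (17, 0), .inr (17, 1), .inr (18, 1))), (33941227768640, (.inr (12, 0), .inr (12, 1), .inr (13, 1))), (120510426684160, (.inr (10, 1), .inr (13, 0), .inr (17, 1))), (56060230134720, (.inr (2, 1), .inr (9, 0), .inr (17, 1))), (136146273184320, (.inr (3, 1), .inr (8, 0), .inr (14, 1))), (47288901610240, (.inr (2, 0), .inr (5, 1), .inl 5)), (3813621097600, (.inr (3, 1), .inr (7, 0), .inr (12, 1))), (31271693000320, (.inr (1, 1), .inr (19, 1), .inl 1)), (136146273184320, (.inr (3, 0), .inr (7, 1), .inl 5)), (73602887183680, (.inr (2, 1), .inr (7, 0), .inr (13, 1))), (12203587512320, (.inr (1, 1), .inr (4, 0), .inr (8, 1))), (80086043049600, (.inr (9, 0), .inr (9, 1), .inr (10, 1))), (64450196549440, (.inr (6, 1), .inr (11, 0), .inr (17, 1))), (71696076634880, (.inr (10, 0), .inr (10, 1), .inr (11, 1))), (136146273184320, (.inl 0, .inl 5, .inl 5)), (64450196549440, (.inr (6, 1), .inr (10, 0), .inr (15, 1))), (12966311731840,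 (.inr (17, 1), .inr (18, 0), .inr (21, 1))), (136146273184320, (.inr (15, 1), .inr (16, 0), .inr (18, 1))), (123179961452480, (.inr (18, 0), .inr (18, 1), .inl 4)), (104874580184000, (.inr (12, 1), .inr (15, 0), .inr (19, 1))), (765012392178560, (.inl 2, .inl 3, .inl 6)), (71696076634880, (.inr (8, 1), .inr (11, 0), .inr (15, 1)))]
  d := ![.inr (21, 0), .inl 6, .inl 0]
  Q := 214523657072535307350988
  L := 55647310947160342788190278157300935233
  N := ![214523657072535307350991, 429047314145070614701982, 0]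
  r := ![136271410002267, 272542820004534, 0] }

theorem M17_has : HasSys ![1, 2, 0] 214523657072535307350988 259399414062500 55647310947160342788190278157300935233 ![214523657072535307350991, 429047314145070614701982, 0] ![136271410002267, 272542820004534, 0] := by
  have h := M17.ok_ofN shM_hv shM_dual (by decide +kernel)
  have h1 : HasSys ![1, 2, 0] 9751075321478877606860 259399414062500 2529423224870924672190278099489188930 ![9751075321478877606863, 19502150642957755213726, 0] ![136329221748570, 272658443497140, 0] :=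
    M16_has.scale 5 (by decide +kernel) (by decide +kernel) (by decide +kernel)
  refine h.comp ?_
  intro g
  have e : M17.κs g = ![1, 2, 0] := by fin_cases g <;> rfl
  rw [e]
  exact h1

def M18 : Lev 7 22 := { shM with
  m := ![1, 1, 3, 3, 1, 2, 4]
  Qs := fun _ => 214523657072535307350988
  Ls := fun _ => 278236554735801713940951390786504676165
  Ns := fun _ => ![214523657072535307350991, 429047314145070614701982, 0]
  rs := fun _ => ![681357050011335, 1362714100022670, 0]
  E := 1296997070312500
  c := [(619915102247885, (.inr (4, 0), .inr (4, 1), .inr (5, 1))), (681229717810617, (.inr (0, 1), .inr (20, 0), .inr (20, 1))), (315098330651025, (.inr (0, 0), .inr (1, 1), .inl 5)), (131722966260, (.inr (3, 0), .inr (3, 1), .inr (4, 1))), (366489234551265, (.inr (1, 0), .inr (1, 1), .inr (2, 1))), (417122726490, (.inr (2, 1), .inr (3, 0), .inr (5, 1))), (347418976727215, (.inr (2, 0), .inr (2, 1), .inr (3, 1))), (417122726490, (.inr (3, 1), .inr (4, 0), .inr (6, 1))), (314867815460070, (.inr (0, 1), .inr (1,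 0), .inr (3, 1))), (28539976023, (.inr (0, 1), .inr (0, 1), .inl 0)), (76838396985, (.inr (8, 0), .inr (8, 1), .inr (9, 1))), (362238157215, (.inr (5, 1), .inr (8, 0), .inr (12, 1))), (211965261607185, (.inr (6, 0), .inr (6, 1), .inr (7, 1))), (78583225977385, (.inr (13, 0), .inr (13, 1), .inr (14, 1))), (98792224695, (.inr (6, 1), .inr (7, 0), .inr (9, 1))), (173435238909, (.inr (21, 1), .inr (21, 1), .inl 2)), (548845692750, (.inr (9, 1), .inr (10, 0), .inr (12, 1))), (164653707825, (.inr (11, 0), .inr (11, 1), .inr (12, 1))), (153676793970, (.inr (11, 1), .inr (13, 0), .inr (16, 1))), (680896019629425, (.inr (13, 1), .inr (14, 0), .inr (16, 1))), (173435238909, (.inr (0, 1), .inr (21, 0), .inl 3)), (384191984925, (.inr (10, 1), .inr (11, 0), .inr (13, 1))), (10976913855, (.inr (15, 1), .inr (17, 0), .inr (21, 1))), (127332200718, (.inr (0, 1), .inr (20, 0), .inl 6)), (492122420999040, (.inr (9, 1), .inr (11, 1), .inl 1)), (681357050011335, (.inr (19, 0), .inr (19, 1), .inr (21, 1))), (548845692750, (.inr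 (8, 1), .inr (9, 0), .inr (11, 1))), (648410719845410, (.inr (8, 1), .inr (12, 1), .inl 1)), (366258719360310, (.inr (0, 0), .inr (0, 1), .inr (1, 1))), (469391788404150, (.inr (4, 1), .inr (6, 0), .inr (9, 1))), (294132023958425, (.inr (7, 0), .inr (7, 1), .inr (8, 1))), (461030381910, (.inr (14, 0), .inr (14, 1), .inr (15, 1))), (65069391792725, (.inr (13, 1), .inr (15, 0), .inr (18, 1))), (87815310840, (.inr (15, 0), .inr (15, 1), .inr (16, 1))), (97466876265900, (.inr (1, 1), .inr (2, 0), .inr (4, 1))), (91767752746395, (.inr (14, 1), .inr (15, 0), .inr (17, 1))), (548845692750, (.inr (16, 0), .inr (16, 1), .inr (17, 1))), (548845692750, (.inr (18, 0), .inr (18, 1), .inr (19, 1))), (511093886598395, (.inr (11, 1), .inr (12, 0), .inr (14, 1))), (681027742595685, (.inr (16, 1), .inr (17, 0), .inl 4)), (537868778895, (.inr (10, 1), .inr (12, 0), .inr (15, 1))), (175808610138475, (.inr (4, 1), .inr (5, 0), .inr (7, 1))), (616160326017892, (.inr (20, 1), .inr (21, 1), .inl 0)), (109769138550, (.inr (6, 1), .inr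 (8, 0), .inr (11, 1))), (65324056194161, (.inr (20, 1), .inl 2, .inl 3)), (87815310840, (.inr (10, 1), .inr (10, 1), .inl 1)), (505548439872860, (.inr (5, 0), .inr (5, 1), .inr (6, 1))), (318330501795, (.inr (17, 0), .inr (17, 1), .inr (18, 1))), (169725294634045, (.inr (12, 0), .inr (12, 1), .inr (13, 1))), (602620147239980, (.inr (10, 1), .inr (13, 0), .inr (17, 1))), (280332790013535, (.inr (2, 1), .inr (9, 0), .inr (17, 1))), (680808204318585, (.inr (3, 1), .inr (8, 0), .inr (14, 1))), (236471197018220, (.inr (2, 0), .inr (5, 1), .inl 5)), (19070257824050, (.inr (3, 1), .inr (7, 0), .inr (12, 1))), (156376114157210, (.inr (1, 1), .inr (19, 1), .inl 1)), (680808204318585, (.inr (3, 0), .inr (7, 1), .inl 5)), (368055976004165, (.inr (2, 1), .inr (7, 0), .inr (13, 1))), (61024825036960, (.inr (1, 1), .inr (4, 0), .inr (8, 1))), (400475414305050, (.inr (9, 0), .inr (9, 1), .inr (10, 1))), (322287357226445, (.inr (6, 1), .inr (11, 0), .inr (17, 1))), (358520847092140, (.inr (10, 0), .inr (10, 1), .inr (11, 1))),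 (680808204318585, (.inl 0, .inl 5, .inl 5)), (322287357226445, (.inr (6, 1), .inr (10, 0), .inr (15, 1))), (64838876601770, (.inr (17, 1), .inr (18, 0), .inr (21, 1))), (680808204318585, (.inr (15, 1), .inr (16, 0), .inr (18, 1))), (615969327716815, (.inr (18, 0), .inr (18, 1), .inl 4)), (524432090161375, (.inr (12, 1), .inr (15, 0), .inr (19, 1))), (3825493719504430, (.inl 2, .inl 3, .inl 6)), (358520847092140, (.inr (8, 1), .inr (11, 0), .inr (15, 1)))]
  d := ![.inr (21, 0), .inl 6, .inl 0]
  Q := 4719520455595776761721804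
  L := 6121204204187637706700951390959939915074
  N := ![4719520455595776761721807, 9439040911191553523443614, 0]
  r := ![681183614772426, 1362367229544852, 0] }

theorem M18_has : HasSys ![1, 2, 0] 4719520455595776761721804 1296997070312500 6121204204187637706700951390959939915074 ![4719520455595776761721807, 9439040911191553523443614, 0] ![681183614772426, 1362367229544852, 0] := by
  have h := M18.ok_ofN shM_hv shM_dual (by decide +kernel)
  have h1 : HasSys ![1, 2, 0] 214523657072535307350988 1296997070312500 278236554735801713940951390786504676165 ![214523657072535307350991, 429047314145070614701982, 0] ![681357050011335, 1362714100022670, 0] :=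
    M17_has.scale 5 (by decide +kernel) (by decide +kernel) (by decide +kernel)
  refine h.comp ?_
  intro g
  have e : M18.κs g = ![1, 2, 0] := by fin_cases g <;> rfl
  rw [e]
  exact h1

def M19 : Lev 7 22 := { shM with
  m := ![1, 1, 3, 3, 1, 2, 4]
  Qs := fun _ => 4719520455595776761721804
  Ls := fun _ => 30606021020938188533504756954799699575370
  Ns := fun _ => ![4719520455595776761721807, 9439040911191553523443614, 0]
  rs := fun _ => ![3405918073862130, 6811836147724260, 0]
  E := 6484985351562500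
  c := [(3099521918071780, (.inr (4, 0), .inr (4, 1), .inr (5, 1))), (3405536077259976, (.inr (0, 1), .inr (20, 0), .inr (20, 1))), (1574720040781200, (.inr (0, 0), .inr (1, 1), .inl 5)), (395168898780, (.inr (3, 0), .inr (3, 1), .inr (4, 1))), (1831889578653795, (.inr (1, 0), .inr (1, 1), .inr (2, 1))), (1251368179470, (.inr (2, 1), .inr (3, 0), .inr (5, 1))), (1736531832525395, (.inr (2, 0), .inr (2, 1), .inr (3, 1))), (1251368179470, (.inr (3, 1), .inr (4, 0), .inr (6, 1))), (1574028495208335, (.inr (0, 1), .inr (1, 0), .inr (3, 1))), (85619928069, (.inr (0, 1), .inr (0, 1), .inl 0)), (230515190955, (.inr (8, 0), .inr (8, 1), .inr (9, 1))), (1086714471645, (.inr (5, 1), .inr (8, 0), .inr (12, 1))), (1059327181305930, (.inr (6, 0), .inr (6, 1), .inr (7, 1))), (392152265822780, (.inr (13, 0), .inr (13, 1), .inr (14, 1))), (296376674085, (.inr (6, 1), .inr (7, 0), .inr (9, 1))), (520305716727, (.inr (21, 1), .inr (21, 1), .inl 2)), (1646537078250, (.inr (9, 1), .inr (10, 0), .inr (12, 1))), (493961123475, (.inr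 (11, 0), .inr (11, 1), .inr (12, 1))), (461030381910, (.inr (11, 1), .inr (13, 0), .inr (16, 1))), (3404534982716400, (.inr (13, 1), .inr (14, 0), .inr (16, 1))), (520305716727, (.inr (0, 1), .inr (21, 0), .inl 3)), (1152575954775, (.inr (10, 1), .inr (11, 0), .inr (13, 1))), (32930741565, (.inr (15, 1), .inr (17, 0), .inr (21, 1))), (381996602154, (.inr (0, 1), .inr (20, 0), .inl 6)), (2460559157528370, (.inr (9, 1), .inr (11, 1), .inl 1)), (3405918073862130, (.inr (19, 0), .inr (19, 1), .inr (21, 1))), (1646537078250, (.inr (8, 1), .inr (9, 0), .inr (11, 1))), (3242229229848730, (.inr (8, 1), .inr (12, 1), .inl 1)), (1831198033080930, (.inr (0, 0), .inr (0, 1), .inr (1, 1))), (2346590892556200, (.inr (4, 1), .inr (6, 0), .inr (9, 1))), (1469859450781525, (.inr (7, 0), .inr (7, 1), .inr (8, 1))), (1383091145730, (.inr (14, 0), .inr (14, 1), .inr (15, 1))), (324907882409425, (.inr (13, 1), .inr (15, 0), .inr (18, 1))), (263445932520, (.inr (15, 0), .inr (15, 1), .inr (16, 1))), (486950189344575, (.inr (1, 1),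 .inr (2, 0), .inr (4, 1))), (458408726989185, (.inr (14, 1), .inr (15, 0), .inr (17, 1))), (1646537078250, (.inr (16, 0), .inr (16, 1), .inr (17, 1))), (1646537078250, (.inr (18, 0), .inr (18, 1), .inr (19, 1))), (2555620526982685, (.inr (11, 1), .inr (12, 0), .inr (14, 1))), (3404930151615180, (.inr (16, 1), .inr (17, 0), .inl 4)), (1613606336685, (.inr (10, 1), .inr (12, 0), .inr (15, 1))), (878377978852925, (.inr (4, 1), .inr (5, 0), .inr (7, 1))), (3080628194850551, (.inr (20, 1), .inr (21, 1), .inl 0)), (329307415650, (.inr (6, 1), .inr (8, 0), .inr (11, 1))), (325671875613733, (.inr (20, 1), .inl 2, .inl 3)), (263445932520, (.inr (10, 1), .inr (10, 1), .inl 1)), (2527540095009205, (.inr (5, 0), .inr (5, 1), .inr (6, 1))), (954991505385, (.inr (17, 0), .inr (17, 1), .inr (18, 1))), (848683940542760, (.inr (12, 0), .inr (12, 1), .inr (13, 1))), (3013304777657440, (.inr (10, 1), .inr (13, 0), .inr (17, 1))), (1401758868087480, (.inr (2, 1), .inr (9, 0), .inr (17, 1))), (3404271536783880, (.inr (3, 1), .inr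 (8, 0), .inr (14, 1))), (1182436051992160, (.inr (2, 0), .inr (5, 1), .inl 5)), (95357746128400, (.inr (3, 1), .inr (7, 0), .inr (12, 1))), (781933518252880, (.inr (1, 1), .inr (19, 1), .inl 1)), (3404271536783880, (.inr (3, 0), .inr (7, 1), .inl 5)), (1840404500278120, (.inr (2, 1), .inr (7, 0), .inr (13, 1))), (305144787610880, (.inr (1, 1), .inr (4, 0), .inr (8, 1))), (2002512668696400, (.inr (9, 0), .inr (9, 1), .inr (10, 1))), (1611545909569960, (.inr (6, 1), .inr (11, 0), .inr (17, 1))), (1792725627213920, (.inr (10, 0), .inr (10, 1), .inr (11, 1))), (3404271536783880, (.inl 0, .inl 5, .inl 5)), (1611545909569960, (.inr (6, 1), .inr (10, 0), .inr (15, 1))), (324216336836560, (.inr (17, 1), .inr (18, 0), .inr (21, 1))), (3404271536783880, (.inr (15, 1), .inr (16, 0), .inr (18, 1))), (3080055199947320, (.inr (18, 0), .inr (18, 1), .inl 4)), (2622338018531000, (.inr (12, 1), .inr (15, 0), .inr (19, 1))), (19128763873357040, (.inl 2, .inl 3, .inl 6)), (1792725627213920, (.inr (8, 1), .inr (11, 0), .inr (15,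 1)))]
  d := ![.inr (21, 0), .inl 6, .inl 0]
  Q := 103829450023107088757879756
  L := 673332462460640147737104756955320005292097
  N := ![103829450023107088757879759, 207658900046214177515759518, 0]
  r := ![3405397768145403, 6810795536290806, 0] }

theorem M19_has : HasSys ![1, 2, 0] 103829450023107088757879756 6484985351562500 673332462460640147737104756955320005292097 ![103829450023107088757879759, 207658900046214177515759518, 0] ![3405397768145403, 6810795536290806, 0] := by
  have h := M19.ok_ofN shM_hv shM_dual (by decide +kernel)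
  have h1 : HasSys ![1, 2, 0] 4719520455595776761721804 6484985351562500 30606021020938188533504756954799699575370 ![4719520455595776761721807, 9439040911191553523443614, 0] ![3405918073862130, 6811836147724260, 0] :=
    M18_has.scale 5 (by decide +kernel) (by decide +kernel) (by decide +kernel)
  refine h.comp ?_
  intro g
  have e : M19.κs g = ![1, 2, 0] := by fin_cases g <;> rfl
  rw [e]
  exact h1

def M20 : Lev 7 22 := { shM with
  m := ![1, 1, 3, 3, 1, 2, 4]
  Qs := fun _ => 103829450023107088757879756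
  Ls := fun _ => 3366662312303200738685523784776600026460485
  Ns := fun _ => ![103829450023107088757879759, 207658900046214177515759518, 0]
  rs := fun _ => ![17026988840727015, 34053977681454030, 0]
  E := 32424926757812500
  c := [(15497448810855965, (.inr (4, 0), .inr (4, 1), .inr (5, 1))), (17025842850920553, (.inr (0, 1), .inr (20, 0), .inr (20, 1))), (7871285366484225, (.inr (0, 0), .inr (1, 1), .inl 5)), (1185506696340, (.inr (3, 0), .inr (3, 1), .inr (4, 1))), (9157778110961385, (.inr (1, 0), .inr (1, 1), .inr (2, 1))), (3754104538410, (.inr (2, 1), .inr (3, 0), .inr (5, 1))), (8680970009294935, (.inr (2, 0), .inr (2, 1), .inr (3, 1))), (3754104538410, (.inr (3, 1), .inr (4, 0), .inr (6, 1))), (7869210729765630, (.inr (0, 1), .inr (1, 0), .inr (3, 1))), (256859784207, (.inr (0, 1), .inr (0, 1), .inl 0)), (691545572865, (.inr (8, 0), .inr (8, 1), .inr (9, 1))), (3260143414935, (.inr (5, 1), .inr (8, 0), .inr (12, 1))), (5295138526339665, (.inr (6, 0), .inr (6, 1), .inr (7, 1))), (1958469736921465, (.inr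 (13, 0), .inr (13, 1), .inr (14, 1))), (889130022255, (.inr (6, 1), .inr (7, 0), .inr (9, 1))), (1560917150181, (.inr (21, 1), .inr (21, 1), .inl 2)), (4939611234750, (.inr (9, 1), .inr (10, 0), .inr (12, 1))), (1481883370425, (.inr (11, 0), .inr (11, 1), .inr (12, 1))), (1383091145730, (.inr (11, 1), .inr (13, 0), .inr (16, 1))), (17022839567289825, (.inr (13, 1), .inr (14, 0), .inr (16, 1))), (1560917150181, (.inr (0, 1), .inr (21, 0), .inl 3)), (3457727864325, (.inr (10, 1), .inr (11, 0), .inr (13, 1))), (98792224695, (.inr (15, 1), .inr (17, 0), .inr (21, 1))), (1145989806462, (.inr (0, 1), .inr (20, 0), .inl 6)), (12302636945241360, (.inr (9, 1), .inr (11, 1), .inl 1)), (17026988840727015, (.inr (19, 0), .inr (19, 1), .inr (21, 1))), (4939611234750, (.inr (8, 1), .inr (9, 0), .inr (11, 1))), (16211673041108690, (.inr (8, 1), .inr (12, 1), .inl 1)), (9155703474242790, (.inr (0, 0), .inr (0, 1), .inr (1, 1))), (11731850314387350, (.inr (4, 1), .inr (6, 0), .inr (9, 1))), (7346895246875825, (.inr (7, 0), .inr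 (7, 1), .inr (8, 1))), (4149273437190, (.inr (14, 0), .inr (14, 1), .inr (15, 1))), (1623222182384525, (.inr (13, 1), .inr (15, 0), .inr (18, 1))), (790337797560, (.inr (15, 0), .inr (15, 1), .inr (16, 1))), (2433598370768100, (.inr (1, 1), .inr (2, 0), .inr (4, 1))), (2290753524717555, (.inr (14, 1), .inr (15, 0), .inr (17, 1))), (4939611234750, (.inr (16, 0), .inr (16, 1), .inr (17, 1))), (4939611234750, (.inr (18, 0), .inr (18, 1), .inr (19, 1))), (12778555916885555, (.inr (11, 1), .inr (12, 0), .inr (14, 1))), (17024025073986165, (.inr (16, 1), .inr (17, 0), .inl 4)), (4840819010055, (.inr (10, 1), .inr (12, 0), .inr (15, 1))), (4389894678746275, (.inr (4, 1), .inr (5, 0), .inr (7, 1))), (15402620668536028, (.inr (20, 1), .inr (21, 1), .inl 0)), (987922246950, (.inr (6, 1), .inr (8, 0), .inr (11, 1))), (1625514161997449, (.inr (20, 1), .inl 2, .inl 3)), (790337797560, (.inr (10, 1), .inr (10, 1), .inl 1)), (12637094161980740, (.inr (5, 0), .inr (5, 1), .inr (6, 1))), (2864974516155, (.inr (17, 0), .inr (17,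 1), .inr (18, 1))), (4243592104831405, (.inr (12, 0), .inr (12, 1), .inr (13, 1))), (15067136012659820, (.inr (10, 1), .inr (13, 0), .inr (17, 1))), (7009079094496815, (.inr (2, 1), .inr (9, 0), .inr (17, 1))), (17022049229492265, (.inr (3, 1), .inr (8, 0), .inr (14, 1))), (5912420460663980, (.inr (2, 0), .inr (5, 1), .inl 5)), (476808101666450, (.inr (3, 1), .inr (7, 0), .inr (12, 1))), (3909826433664890, (.inr (1, 1), .inr (19, 1), .inl 1)), (17022049229492265, (.inr (3, 0), .inr (7, 1), .inl 5)), (9202396362162485, (.inr (2, 1), .inr (7, 0), .inr (13, 1))), (1525785925332640, (.inr (1, 1), .inr (4, 0), .inr (8, 1))), (10012970134995450, (.inr (9, 0), .inr (9, 1), .inr (10, 1))), (8058056918163005, (.inr (6, 1), .inr (11, 0), .inr (17, 1))), (8963992311329260, (.inr (10, 0), .inr (10, 1), .inr (11, 1))), (17022049229492265, (.inl 0, .inl 5, .inl 5)), (8058056918163005, (.inr (6, 1), .inr (10, 0), .inr (15, 1))), (1621147545665930, (.inr (17, 1), .inr (18, 0), .inr (21, 1))), (17022049229492265, (.inr (15,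 1), .inr (16, 0), .inr (18, 1))), (15400901683826335, (.inr (18, 0), .inr (18, 1), .inl 4)), (13112222795827375, (.inr (12, 1), .inr (15, 0), .inr (19, 1))), (95647705194289870, (.inl 2, .inl 3, .inl 6)), (8963992311329260, (.inr (8, 1), .inr (11, 0), .inr (15, 1)))]
  d := ![.inr (21, 0), .inl 6, .inl 0]
  Q := 2284247900508355952673354700
  L := 74066570870670416251081523784778160943610666
  N := ![2284247900508355952673354703, 4568495801016711905346709406, 0]
  r := ![17025427923576834, 34050855847153668, 0] }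

theorem M20_has : HasSys ![1, 2, 0] 2284247900508355952673354700 32424926757812500 74066570870670416251081523784778160943610666 ![2284247900508355952673354703, 4568495801016711905346709406, 0] ![17025427923576834, 34050855847153668, 0] := by
  have h := M20.ok_ofN shM_hv shM_dual (by decide +kernel)
  have h1 : HasSys ![1, 2, 0] 103829450023107088757879756 32424926757812500 3366662312303200738685523784776600026460485 ![103829450023107088757879759, 207658900046214177515759518, 0] ![17026988840727015, 34053977681454030, 0] :=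
    M19_has.scale 5 (by decide +kernel) (by decide +kernel) (by decide +kernel)
  refine h.comp ?_
  intro g
  have e : M20.κs g = ![1, 2, 0] := by fin_cases g <;> rfl
  rw [e]
  exact h1

def T0 : Lev 2 0 := { shTB with
  m := ![1, 5]
  E := 2
  c := [(1, (.inl 0, .inl 0, .inl 1))]
  d := ![.inl 1, .inl 0, .inl 0]
  Q := 0
  L := 1
  N := ![6, 0, 0]
  r := ![9, 0, 0] }

theorem T0_has : HasSys ![3, 0, 0] 0 2 1 ![6, 0, 0] ![9, 0, 0] := by
  have h := T0.ok_ofN shTB_hv shTB_dual (by decide +kernel)
  exact h.comp (fun g => g.elim0)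

def T1 : Lev 4 2 := { shT with
  m := ![1, 2, 1, 2]
  Qs := ![0, 2284247900508355952673354700]
  Ls := ![16212463378906250, 74066570870670416251081523784778160943610666]
  Ns := ![![6, 0, 0], ![2284247900508355952673354703, 4568495801016711905346709406, 0]]
  rs := ![![145912170410156250, 0, 0], ![17025427923576834, 34050855847153668, 0]]
  E := 32424926757812500
  c := [(9224057938375178, (.inr (0, 0), .inr (1, 0), .inr (1, 1))), (7801369985201656, (.inr (1, 0), .inl 2, .inl 3)), (24623556772610844, (.inr (1, 1), .inl 0, .inl 2)), (203241136167646, (.inr (1, 1), .inl 1, .inl 1)), (64443371243289708, (.inr (0, 0), .inr (0, 0), .inl 1)), (7801369985201656, (.inr (0, 0), .inl 0, .inl 3))]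
  d := ![.inl 3, .inl 0, .inl 0]
  Q := 2284247900508355952673354705
  L := 74066570870670416251081523915087591383363604
  N := ![6852743701525067858020064121, 0, 0]
  r := ![49247113545221688, 0, 0] }

theorem T1_has : HasSys ![3, 0, 0] 2284247900508355952673354705 32424926757812500 74066570870670416251081523915087591383363604 ![6852743701525067858020064121, 0, 0] ![49247113545221688, 0, 0] := by
  have h := T1.ok_ofN shT_hv shT_dual (by decide +kernel)
  refine h.comp ?_
  intro g
  fin_cases g
  · exact T0_has.scale 16212463378906250 (by decide +kernel) (by decide +kernel) (by decide +kernel)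
  · exact M20_has.scale 1 (by decide +kernel) (by decide +kernel) (by decide +kernel)

def T2 : Lev 4 2 := { shT with
  m := ![1, 2, 1, 2]
  Qs := ![2284247900508355952673354705, 2284247900508355952673354700]
  Ls := ![148133141741340832502163047830175182766727208, 148133141741340832502163047569556321887221332]
  Ns := ![![6852743701525067858020064121, 0, 0], ![2284247900508355952673354703, 4568495801016711905346709406, 0]]
  rs := ![![98494227090443376, 0, 0], ![34050855847153668, 68101711694307336, 0]]
  E := 64849853515625000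
  c := [(7050922603199341, (.inr (0, 0), .inr (1, 0), .inr (1, 1))), (3900684992600828, (.inr (1, 0), .inl 2, .inl 3)), (12311778386305422, (.inr (1, 1), .inl 0, .inl 2)), (48739010704802573, (.inr (1, 1), .inl 1, .inl 1)), (32221685621644854, (.inr (0, 0), .inr (0, 0), .inl 1)), (3900684992600828, (.inr (0, 0), .inl 0, .inl 3)), (23099248251353499, (.inr (0, 0), .inr (1, 0), .inl 3)), (48637390136718750, (.inl 0, .inl 2, .inl 3))]
  d := ![.inl 3, .inl 0, .inl 0]
  Q := 4568495801016711905346709410
  L := 296266283482681665004326095579592910343174635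
  N := ![13705487403050135716040128236, 0, 0]
  r := ![50161698657976095, 0, 0] }

theorem T2_has : HasSys ![3, 0, 0] 4568495801016711905346709410 64849853515625000 296266283482681665004326095579592910343174635 ![13705487403050135716040128236, 0, 0] ![50161698657976095, 0, 0] := by
  have h := T2.ok_ofN shT_hv shT_dual (by decide +kernel)
  refine h.comp ?_
  intro g
  fin_cases g
  · exact T1_has.scale 2 (by decide +kernel) (by decide +kernel) (by decide +kernel)
  · exact M20_has.scale 2 (by decide +kernel) (by decide +kernel) (by decide +kernel)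

def T3 : Lev 4 2 := { shT with
  m := ![1, 2, 1, 2]
  Qs := ![4568495801016711905346709410, 2284247900508355952673354700]
  Ls := ![1185065133930726660017304382318371641372698540, 592532566965363330008652190278225287548885328]
  Ns := ![![13705487403050135716040128236, 0, 0], ![2284247900508355952673354703, 4568495801016711905346709406, 0]]
  rs := ![![200646794631904380, 0, 0], ![136203423388614672, 272406846777229344, 0]]
  E := 259399414062500000
  c := [(16806497139246349, (.inr (0, 0), .inr (1, 0), .inr (1, 1))), (3900684992600828, (.inr (1, 0), .inl 2, .inl 3)), (12311778386305422, (.inr (1, 1), .inl 0, .inl 2)), (243288571251677573, (.inr (1, 1), .inl 1, .inl 1)), (32221685621644854, (.inr (0, 0), .inr (0, 0), .inl 1)), (3900684992600828, (.inr (0, 0), .inl 0, .inl 3)), (115496241256767495, (.inr (0, 0), .inr (1, 0), .inl 3)), (243186950683593750, (.inl 0, .inl 2, .inl 3))]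
  d := ![.inl 3, .inl 0, .inl 0]
  Q := 6852743701525067858020064115
  L := 1777597700896089990025956573267710023246020967
  N := ![20558231104575203574060192351, 0, 0]
  r := ![152314266199437099, 0, 0] }

theorem T3_has : HasSys ![3, 0, 0] 6852743701525067858020064115 259399414062500000 1777597700896089990025956573267710023246020967 ![20558231104575203574060192351, 0, 0] ![152314266199437099, 0, 0] := by
  have h := T3.ok_ofN shT_hv shT_dual (by decide +kernel)
  refine h.comp ?_
  intro g
  fin_cases g
  · exact T2_has.scale 4 (by decide +kernel) (by decide +kernel) (by decide +kernel)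
  · exact M20_has.scale 8 (by decide +kernel) (by decide +kernel) (by decide +kernel)

def T4 : Lev 4 2 := { shT with
  m := ![1, 2, 1, 2]
  Qs := ![6852743701525067858020064115, 2284247900508355952673354700]
  Ls := ![7110390803584359960103826293070840092984083868, 2370130267861453320034608761112901150195541312]
  Ns := ![![20558231104575203574060192351, 0, 0], ![2284247900508355952673354703, 4568495801016711905346709406, 0]]
  rs := ![![609257064797748396, 0, 0], ![544813693554458688, 1089627387108917376, 0]]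
  E := 1037597656250000000
  c := [(55828795283434381, (.inr (0, 0), .inr (1, 0), .inr (1, 1))), (3900684992600828, (.inr (1, 0), .inl 2, .inl 3)), (12311778386305422, (.inr (1, 1), .inl 0, .inl 2)), (1021486813439177573, (.inr (1, 1), .inl 1, .inl 1)), (32221685621644854, (.inr (0, 0), .inr (0, 0), .inl 1)), (3900684992600828, (.inr (0, 0), .inl 0, .inl 3)), (485084213278423479, (.inr (0, 0), .inr (1, 0), .inl 3)), (1021385192871093750, (.inl 0, .inl 2, .inl 3))]
  d := ![.inl 3, .inl 0, .inl 0]
  Q := 9136991602033423810693418820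
  L := 9480521071445813280138435056819861092044906295
  N := ![27410974806100271432080256466, 0, 0]
  r := ![560924536365281115, 0, 0] }

theorem T4_has : HasSys ![3, 0, 0] 9136991602033423810693418820 1037597656250000000 9480521071445813280138435056819861092044906295 ![27410974806100271432080256466, 0, 0] ![560924536365281115, 0, 0] := by
  have h := T4.ok_ofN shT_hv shT_dual (by decide +kernel)
  refine h.comp ?_
  intro g
  fin_cases g
  · exact T3_has.scale 4 (by decide +kernel) (by decide +kernel) (by decide +kernel)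
  · exact M20_has.scale 32 (by decide +kernel) (by decide +kernel) (by decide +kernel)

def T5 : Lev 4 2 := { shT with
  m := ![1, 2, 1, 2]
  Qs := ![9136991602033423810693418820, 2284247900508355952673354700]
  Ls := ![37922084285783253120553740227279444368179625180, 9480521071445813280138435044451604600782165248]
  Ns := ![![27410974806100271432080256466, 0, 0], ![2284247900508355952673354703, 4568495801016711905346709406, 0]]
  rs := ![![2243698145461124460, 0, 0], ![2179254774217834752, 4358509548435669504, 0]]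
  E := 4150390625000000000
  c := [(211917987860186509, (.inr (0, 0), .inr (1, 0), .inr (1, 1))), (3900684992600828, (.inr (1, 0), .inl 2, .inl 3)), (12311778386305422, (.inr (1, 1), .inl 0, .inl 2)), (4134279782189177573, (.inr (1, 1), .inl 1, .inl 1)), (32221685621644854, (.inr (0, 0), .inr (0, 0), .inl 1)), (3900684992600828, (.inr (0, 0), .inl 0, .inl 3)), (1963436101365047415, (.inr (0, 0), .inr (1, 0), .inl 3)), (4134178161621093750, (.inl 0, .inl 2, .inl 3))]
  d := ![.inl 3, .inl 0, .inl 0]
  Q := 11421239502541779763366773525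
  L := 47402605357229066400692175282227195835990447607
  N := ![34263718507625339290100320581, 0, 0]
  r := ![2195365617028657179, 0, 0] }

theorem T5_has : HasSys ![3, 0, 0] 11421239502541779763366773525 4150390625000000000 47402605357229066400692175282227195835990447607 ![34263718507625339290100320581, 0, 0] ![2195365617028657179, 0, 0] := by
  have h := T5.ok_ofN shT_hv shT_dual (by decide +kernel)
  refine h.comp ?_
  intro g
  fin_cases g
  · exact T4_has.scale 4 (by decide +kernel) (by decide +kernel) (by decide +kernel)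
  · exact M20_has.scale 128 (by decide +kernel) (by decide +kernel) (by decide +kernel)

def T6 : Lev 4 2 := { shT with
  m := ![1, 2, 1, 2]
  Qs := ![11421239502541779763366773525, 2284247900508355952673354700]
  Ls := ![189610421428916265602768701128908783343961790428, 37922084285783253120553740177806418403128660992]
  Ns := ![![34263718507625339290100320581, 0, 0], ![2284247900508355952673354703, 4568495801016711905346709406, 0]]
  rs := ![![8781462468114628716, 0, 0], ![8717019096871339008, 17434038193742678016, 0]]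
  E := 16601562500000000000
  c := [(836274758167195021, (.inr (0, 0), .inr (1, 0), .inr (1, 1))), (3900684992600828, (.inr (1, 0), .inl 2, .inl 3)), (12311778386305422, (.inr (1, 1), .inl 0, .inl 2)), (16585451657189177573, (.inr (1, 1), .inl 1, .inl 1)), (32221685621644854, (.inr (0, 0), .inr (0, 0), .inl 1)), (3900684992600828, (.inr (0, 0), .inl 0, .inl 3)), (7876843653711543159, (.inr (0, 0), .inr (1, 0), .inl 3)), (16585350036621093750, (.inl 0, .inl 2, .inl 3))]
  d := ![.inl 3, .inl 0, .inl 0]
  Q := 13705487403050135716040128230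
  L := 227532505714699518723322441348651456686772612855
  N := ![41116462209150407148120384696, 0, 0]
  r := ![8733129939682161435, 0, 0] }

theorem T6_has : HasSys ![3, 0, 0] 13705487403050135716040128230 16601562500000000000 227532505714699518723322441348651456686772612855 ![41116462209150407148120384696, 0, 0] ![8733129939682161435, 0, 0] := by
  have h := T6.ok_ofN shT_hv shT_dual (by decide +kernel)
  refine h.comp ?_
  intro g
  fin_cases g
  · exact T5_has.scale 4 (by decide +kernel) (by decide +kernel) (by decide +kernel)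
  · exact M20_has.scale 512 (by decide +kernel) (by decide +kernel) (by decide +kernel)

def T7 : Lev 4 2 := { shT with
  m := ![1, 2, 1, 2]
  Qs := ![13705487403050135716040128230, 2284247900508355952673354700]
  Ls := ![910130022858798074893289765394605826747090451420, 151688337143133012482214960711225673612514643968]
  Ns := ![![41116462209150407148120384696, 0, 0], ![2284247900508355952673354703, 4568495801016711905346709406, 0]]
  rs := ![![34932519758728645740, 0, 0], ![34868076387485356032, 69736152774970712064, 0]]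
  E := 66406250000000000000
  c := [(3333701839395229069, (.inr (0, 0), .inr (1, 0), .inr (1, 1))), (3900684992600828, (.inr (1, 0), .inl 2, .inl 3)), (12311778386305422, (.inr (1, 1), .inl 0, .inl 2)), (66390139157189177573, (.inr (1, 1), .inl 1, .inl 1)), (32221685621644854, (.inr (0, 0), .inr (0, 0), .inl 1)), (3900684992600828, (.inr (0, 0), .inl 0, .inl 3)), (31530473863097526135, (.inr (0, 0), .inr (1, 0), .inl 3)), (66390037536621093750, (.inl 0, .inl 2, .inl 3))]
  d := ![.inl 3, .inl 0, .inl 0]
  Q := 15989735303558491668713482935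
  L := 1061818360001931087375504726273528187589901273847
  N := ![47969205910675475006140448811, 0, 0]
  r := ![34884187230296178459, 0, 0] }

theorem T7_has : HasSys ![3, 0, 0] 15989735303558491668713482935 66406250000000000000 1061818360001931087375504726273528187589901273847 ![47969205910675475006140448811, 0, 0] ![34884187230296178459, 0, 0] := by
  have h := T7.ok_ofN shT_hv shT_dual (by decide +kernel)
  refine h.comp ?_
  intro g
  fin_cases g
  · exact T6_has.scale 4 (by decide +kernel) (by decide +kernel) (by decide +kernel)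
  · exact M20_has.scale 2048 (by decide +kernel) (by decide +kernel) (by decide +kernel)

def T8 : Lev 4 2 := { shT with
  m := ![1, 2, 1, 2]
  Qs := ![15989735303558491668713482935, 2284247900508355952673354700]
  Ls := ![4247273440007724349502018905094112750359605095388, 606753348572532049928859842844902694450058575872]
  Ns := ![![47969205910675475006140448811, 0, 0], ![2284247900508355952673354703, 4568495801016711905346709406, 0]]
  rs := ![![139536748921184713836, 0, 0], ![139472305549941424128, 278944611099882848256, 0]]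
  E := 265625000000000000000
  c := [(13323410164307365261, (.inr (0, 0), .inr (1, 0), .inr (1, 1))), (3900684992600828, (.inr (1, 0), .inl 2, .inl 3)), (12311778386305422, (.inr (1, 1), .inl 0, .inl 2)), (265608889157189177573, (.inr (1, 1), .inl 1, .inl 1)), (32221685621644854, (.inr (0, 0), .inr (0, 0), .inl 1)), (3900684992600828, (.inr (0, 0), .inl 0, .inl 3)), (126144994700641458039, (.inr (0, 0), .inr (1, 0), .inl 3)), (265608787536621093750, (.inl 0, .inl 2, .inl 3))]
  d := ![.inl 3, .inl 0, .inl 0]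
  Q := 18273983204066847621386837640
  L := 4854026788580256399430878748609753861202415917815
  N := ![54821949612200542864160512926, 0, 0]
  r := ![139488416392752246555, 0, 0] }

theorem T8_has : HasSys ![3, 0, 0] 18273983204066847621386837640 265625000000000000000 4854026788580256399430878748609753861202415917815 ![54821949612200542864160512926, 0, 0] ![139488416392752246555, 0, 0] := by
  have h := T8.ok_ofN shT_hv shT_dual (by decide +kernel)
  refine h.comp ?_
  intro g
  fin_cases g
  · exact T7_has.scale 4 (by decide +kernel) (by decide +kernel) (by decide +kernel)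
  · exact M20_has.scale 8192 (by decide +kernel) (by decide +kernel) (by decide +kernel)

def T9 : Lev 4 2 := { shT with
  m := ![1, 2, 1, 2]
  Qs := ![18273983204066847621386837640, 2284247900508355952673354700]
  Ls := ![19416107154321025597723514994439015444809663671260, 2427013394290128199715439371379610777800234303488]
  Ns := ![![54821949612200542864160512926, 0, 0], ![2284247900508355952673354703, 4568495801016711905346709406, 0]]
  rs := ![![557953665571008986220, 0, 0], ![557889222199765696512, 1115778444399531393024, 0]]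
  E := 1062500000000000000000
  c := [(53282243463955910029, (.inr (0, 0), .inr (1, 0), .inr (1, 1))), (3900684992600828, (.inr (1, 0), .inl 2, .inl 3)), (12311778386305422, (.inr (1, 1), .inl 0, .inl 2)), (1062483889157189177573, (.inr (1, 1), .inl 1, .inl 1)), (32221685621644854, (.inr (0, 0), .inr (0, 0), .inl 1)), (3900684992600828, (.inr (0, 0), .inl 0, .inl 3)), (504603078050817185655, (.inr (0, 0), .inr (1, 0), .inl 3)), (1062483787536621093750, (.inl 0, .inl 2, .inl 3))]
  d := ![.inl 3, .inl 0, .inl 0]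
  Q := 20558231104575203574060192345
  L := 21843120548611153797438954368501531555652474493687
  N := ![61674693313725610722180577041, 0, 0]
  r := ![557905333042576518939, 0, 0] }

theorem T9_has : HasSys ![3, 0, 0] 20558231104575203574060192345 1062500000000000000000 21843120548611153797438954368501531555652474493687 ![61674693313725610722180577041, 0, 0] ![557905333042576518939, 0, 0] := by
  have h := T9.ok_ofN shT_hv shT_dual (by decide +kernel)
  refine h.comp ?_
  intro g
  fin_cases g
  · exact T8_has.scale 4 (by decide +kernel) (by decide +kernel) (by decide +kernel)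
  · exact M20_has.scale 32768 (by decide +kernel) (by decide +kernel) (by decide +kernel)

def T10 : Lev 4 2 := { shT with
  m := ![1, 2, 1, 2]
  Qs := ![20558231104575203574060192345, 2284247900508355952673354700]
  Ls := ![87372482194444615189755817474006126222609897974748, 9708053577160512798861757485518443111200937213952]
  Ns := ![![61674693313725610722180577041, 0, 0], ![2284247900508355952673354703, 4568495801016711905346709406, 0]]
  rs := ![![2231621332170306075756, 0, 0], ![2231556888799062786048, 4463113777598125572096, 0]]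
  E := 4250000000000000000000
  c := [(213117576662550089101, (.inr (0, 0), .inr (1, 0), .inr (1, 1))), (3900684992600828, (.inr (1, 0), .inl 2, .inl 3)), (12311778386305422, (.inr (1, 1), .inl 0, .inl 2)), (4249983889157189177573, (.inr (1, 1), .inl 1, .inl 1)), (32221685621644854, (.inr (0, 0), .inr (0, 0), .inl 1)), (3900684992600828, (.inr (0, 0), .inl 0, .inl 3)), (2018435411451520096119, (.inr (0, 0), .inr (1, 0), .inl 3)), (4249983787536621093750, (.inl 0, .inl 2, .inl 3))]
  d := ![.inl 3, .inl 0, .inl 0]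
  Q := 22842479005083559526733547050
  L := 97080535771605127988617574970256142333452708797175
  N := ![68527437015250678580200641156, 0, 0]
  r := ![2231572999641873608475, 0, 0] }

theorem T10_has : HasSys ![3, 0, 0] 22842479005083559526733547050 4250000000000000000000 97080535771605127988617574970256142333452708797175 ![68527437015250678580200641156, 0, 0] ![2231572999641873608475, 0, 0] := by
  have h := T10.ok_ofN shT_hv shT_dual (by decide +kernel)
  refine h.comp ?_
  intro g
  fin_cases g
  · exact T9_has.scale 4 (by decide +kernel) (by decide +kernel) (by decide +kernel)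
  · exact M20_has.scale 131072 (by decide +kernel) (by decide +kernel) (by decide +kernel)

def T11 : Lev 4 2 := { shT with
  m := ![1, 2, 1, 2]
  Qs := ![22842479005083559526733547050, 2284247900508355952673354700]
  Ls := ![388322143086420511954470299881024569333810835188700, 38832214308642051195447029942073772444803748855808]
  Ns := ![![68527437015250678580200641156, 0, 0], ![2284247900508355952673354703, 4568495801016711905346709406, 0]]
  rs := ![![8926291998567494433900, 0, 0], ![8926227555196251144192, 17852455110392502288384, 0]]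
  E := 17000000000000000000000
  c := [(852458909456926805389, (.inr (0, 0), .inr (1, 0), .inr (1, 1))), (3900684992600828, (.inr (1, 0), .inl 2, .inl 3)), (12311778386305422, (.inr (1, 1), .inl 0, .inl 2)), (16999983889157189177573, (.inr (1, 1), .inl 1, .inl 1)), (32221685621644854, (.inr (0, 0), .inr (0, 0), .inl 1)), (3900684992600828, (.inr (0, 0), .inl 0, .inl 3)), (8073764745054331737975, (.inr (0, 0), .inr (1, 0), .inl 3)), (16999983787536621093750, (.inl 0, .inl 2, .inl 3))]
  d := ![.inl 3, .inl 0, .inl 0]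
  Q := 25126726905591915479406901755
  L := 427154357395062563149917329866024585444653646011127
  N := ![75380180716775746438220705271, 0, 0]
  r := ![8926243666039061966619, 0, 0] }

theorem T11_has : HasSys ![3, 0, 0] 25126726905591915479406901755 17000000000000000000000 427154357395062563149917329866024585444653646011127 ![75380180716775746438220705271, 0, 0] ![8926243666039061966619, 0, 0] := by
  have h := T11.ok_ofN shT_hv shT_dual (by decide +kernel)
  refine h.comp ?_
  intro g
  fin_cases g
  · exact T10_has.scale 4 (by decide +kernel) (by decide +kernel) (by decide +kernel)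
  · exact M20_has.scale 524288 (by decide +kernel) (by decide +kernel) (by decide +kernel)

def T12 : Lev 4 2 := { shT with
  m := ![1, 2, 1, 2]
  Qs := ![25126726905591915479406901755, 2284247900508355952673354700]
  Ls := ![1708617429580250252599669319464098341778614584044508, 155328857234568204781788119768295089779214995423232]
  Ns := ![![75380180716775746438220705271, 0, 0], ![2284247900508355952673354703, 4568495801016711905346709406, 0]]
  rs := ![![35704974664156247866476, 0, 0], ![35704910220785004576768, 71409820441570009153536, 0]]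
  E := 68000000000000000000000
  c := [(3409824240634433670541, (.inr (0, 0), .inr (1, 0), .inr (1, 1))), (3900684992600828, (.inr (1, 0), .inl 2, .inl 3)), (12311778386305422, (.inr (1, 1), .inl 0, .inl 2)), (67999983889157189177573, (.inr (1, 1), .inl 1, .inl 1)), (32221685621644854, (.inr (0, 0), .inr (0, 0), .inl 1)), (3900684992600828, (.inr (0, 0), .inl 0, .inl 3)), (32295082079465578305399, (.inr (0, 0), .inr (1, 0), .inl 3)), (67999983787536621093750, (.inl 0, .inl 2, .inl 3))]
  d := ![.inl 3, .inl 0, .inl 0]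
  Q := 27410974806100271432080256460
  L := 1863946286814818457381457439404098357889457394866935
  N := ![82232924418300814296240769386, 0, 0]
  r := ![35704926331627815399195, 0, 0] }

theorem T12_has : HasSys ![3, 0, 0] 27410974806100271432080256460 68000000000000000000000 1863946286814818457381457439404098357889457394866935 ![82232924418300814296240769386, 0, 0] ![35704926331627815399195, 0, 0] := by
  have h := T12.ok_ofN shT_hv shT_dual (by decide +kernel)
  refine h.comp ?_
  intro g
  fin_cases g
  · exact T11_has.scale 4 (by decide +kernel) (by decide +kernel) (by decide +kernel)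
  · exact M20_has.scale 2097152 (by decide +kernel) (by decide +kernel) (by decide +kernel)

/-- the top level -/
def top : Top 1 9 where
  S := Sum.elim ![55901] (fun x => ![![189200, 26900, 243001], ![135200, 53900, 243001], ![131200, 55900, 243001], ![127000, 58000, 243001], ![122600, 60200, 243001], ![118000, 62500, 243001], ![113200, 64900, 243001], ![108200, 67400, 243001], ![81000, 243001, 243001]] x.1 x.2)
  C := 243000
  w := Sum.elim ![19] (fun x => ![![78, 6, 0], ![54, 18, 0], ![47, 19, 0], ![45, 20, 0], ![43, 21, 0], ![41, 22, 0], ![39, 23, 0], ![37, 24, 0], ![30, 0, 0]] x.1 x.2)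
  D := 84
  m := ![1]
  κs := ![![1, 2, 0], ![1, 2, 0], ![1, 2, 0], ![1, 2, 0], ![1, 2, 0], ![1, 2, 0], ![1, 2, 0], ![1, 2, 0], ![3, 0, 0]]
  Qs := ![2284247900508355952673354700, 2284247900508355952673354700, 2284247900508355952673354700, 2284247900508355952673354700, 2284247900508355952673354700, 2284247900508355952673354700, 2284247900508355952673354700, 2284247900508355952673354700, 27410974806100271432080256460]
  Ls := ![6523812003851864600835101030268393770727029807775744, 6523812003851864600835101030268393770727029807775744, 6523812003851864600835101030268393770727029807775744, 6523812003851864600835101030268393770727029807775744, 6523812003851864600835101030268393770727029807775744, 6523812003851864600835101030268393770727029807775744, 6523812003851864600835101030268393770727029807775744, 6523812003851864600835101030268393770727029807775744, 78285744046222375210021212454972131031357210584411270]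
  Ns := ![![2284247900508355952673354703, 4568495801016711905346709406, 0], ![2284247900508355952673354703, 4568495801016711905346709406, 0], ![2284247900508355952673354703, 4568495801016711905346709406, 0], ![2284247900508355952673354703, 4568495801016711905346709406, 0], ![2284247900508355952673354703, 4568495801016711905346709406, 0], ![2284247900508355952673354703, 4568495801016711905346709406, 0], ![2284247900508355952673354703, 4568495801016711905346709406, 0], ![2284247900508355952673354703, 4568495801016711905346709406, 0], ![82232924418300814296240769386, 0, 0]]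
  rs := ![![1499606229272970192224256, 2999212458545940384448512, 0], ![1499606229272970192224256, 2999212458545940384448512, 0], ![1499606229272970192224256, 2999212458545940384448512, 0], ![1499606229272970192224256, 2999212458545940384448512, 0], ![1499606229272970192224256, 2999212458545940384448512, 0], ![1499606229272970192224256, 2999212458545940384448512, 0], ![1499606229272970192224256, 2999212458545940384448512, 0], ![1499606229272970192224256, 2999212458545940384448512, 0], ![1499606905928368246766190, 0, 0]]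
  z := ![6, 6, 1, 1, 1, 1, 1, 1, 6]
  E := 2856000000000000000000000
  c := [(391147016628379542499354, [.inr (7, 1), .inr (7, 1), .inr (1, 1), .inr (1, 1)]), (828032720958780420974579, [.inr (1, 0), .inr (8, 0)]), (1499606229272970192224256, [.inr (2, 0), .inr (7, 0)]), (1499606229272970192224256, [.inr (3, 0), .inr (6, 0)]), (1499606229272970192224256, [.inr (4, 0), .inr (5, 0)]), (156459212644590649724902, [.inr (8, 0), .inr (7, 1), .inr (7, 1), .inr (0, 1)]), (1428000000000000000000000, [.inr (7, 1), .inr (5, 1), .inr (2, 1), .inr (2, 1)]), (71606229272970192224256, [.inr (6, 1), .inr (6, 1), .inr (2, 1), .inr (2, 1)]), (1428000000000000000000000, [.inr (6, 1), .inr (6, 1), .inl 0, .inl 0]), (785606229272970192224256, [.inr (5, 1), .inr (5, 1), .inr (3, 1), .inr (3, 1)]), (749803114636485096112128, [.inr (4, 1), .inr (4, 1), .inr (4, 1), .inr (4, 1)]), (476000000000000000000000, [.inr (7, 1), .inr (3, 1), .inr (3, 1), .inr (3, 1)]), (1499606229272970192224256, [.inr (0, 0), .inr (0, 1)]), (515114972324997176066709,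 [.inr (8, 0), .inr (1, 1), .inr (1, 1), .inr (1, 1)]), (671573508314189771249677, [.inr (1, 0), .inr (1, 1), .inr (0, 1), .inr (0, 1)])]
  K := 45684958010167119053467094087

theorem top_ok : top.Ok := top.ok_of (by decide +kernel) (by decide +kernel)

theorem top_sub : ∀ g, HasSys (top.κs g) (top.Qs g) top.E (top.Ls g) (top.Ns g) (top.rs g) := by
  intro g
  fin_cases g
  · exact M20_has.scale 88080384 (by decide +kernel) (by decide +kernel) (by decide +kernel)
  · exact M20_has.scale 88080384 (by decide +kernel) (by decide +kernel) (by decide +kernel)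
  · exact M20_has.scale 88080384 (by decide +kernel) (by decide +kernel) (by decide +kernel)
  · exact M20_has.scale 88080384 (by decide +kernel) (by decide +kernel) (by decide +kernel)
  · exact M20_has.scale 88080384 (by decide +kernel) (by decide +kernel) (by decide +kernel)
  · exact M20_has.scale 88080384 (by decide +kernel) (by decide +kernel) (by decide +kernel)
  · exact M20_has.scale 88080384 (by decide +kernel) (by decide +kernel) (by decide +kernel)
  · exact M20_has.scale 88080384 (by decide +kernel) (by decide +kernel) (by decide +kernel)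
  · exact T12_has.scale 42 (by decide +kernel) (by decide +kernel) (by decide +kernel)

/-- the instance: `OPT ≥ 45684958010167119053467094088` and `LP ≤ 7675072945708076000982471806507002889312864285681771/168000000000000000000000` -/
theorem top_good : ∃ C m, 0 < C ∧ 45684958010167119053467094087 < m ∧ Good C m (7675072945708076000982471806507002889312864285681771 / 168000000000000000000000) := by
  obtain ⟨C, m, hC, hm, h⟩ := top_ok.good top_sub
  refine ⟨C, m, hC, hm, ?_⟩
  have e : ((((top.c.map Prod.fst).sum + ∑ g, top.Ls g : ℕ) : ℚ) / (top.E : ℚ)) = 7675072945708076000982471806507002889312864285681771 / 168000000000000000000000 := by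
    have e1 : (top.c.map Prod.fst).sum + ∑ g, top.Ls g = 130476240077037292016702020710619049118318692856590107 := by decide +kernel
    have e2 : top.E = 2856000000000000000000000 := rfl
    rw [e1, e2]
    norm_num
  rw [← e]
  exact_mod_cast h

end Vale.Agent.P302.Nest.DataD
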