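import Mathlib

/-!
Bin packing: instances, `OPT` and the Gilmore-Gomory configuration LP value, exactly as in the
statement of problem P302.  An instance is a finite family `a : Fin n → ℚ` of item sizes.
-/

namespace Vale.Agent.P302

/-- `a` is a bin packing instance: all item sizes are in `(0,1]`. -/
def IsInstance {n : ℕ} (a : Fin n → ℚ) : Prop := ∀ i, 0 < a i ∧ a i ≤ 1

/-- The items can be partitioned into `k` bins of total size at most `1` each:
`f i` is the bin of item `i`. -/
def Packs {n : ℕ} (a : Fin n → ℚ) (k : ℕ) : Prop :=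
  ∃ f : Fin n → Fin k, ∀ b : Fin k, ∑ i ∈ Finset.univ.filter (fun i => f i = b), a i ≤ 1

/-- The least number of bins. -/
noncomputable def OPT {n : ℕ} (a : Fin n → ℚ) : ℕ := sInf {k | Packs a k}

/-- The set of distinct sizes. -/
def sizes {n : ℕ} (a : Fin n → ℚ) : Finset ℚ := Finset.univ.image a

/-- The multiplicity of the size `σ`. -/
def mult {n : ℕ} (a : Fin n → ℚ) (σ : ℚ) : ℕ := (Finset.univ.filter (fun i => a i = σ)).card

/-- Configurations: vectors `c` in `ℕ^S`, `S` the set of sizes, with `∑ σ c_σ ≤ 1`. -/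
def IsConfig {n : ℕ} (a : Fin n → ℚ) (c : sizes a → ℕ) : Prop :=
  ∑ σ : sizes a, (σ : ℚ) * (c σ : ℚ) ≤ 1

/-- Feasible fractional solutions of the configuration LP: nonnegative weights `z c` on
configurations `c` that cover every size at least as often as it occurs. -/
def IsFractional {n : ℕ} (a : Fin n → ℚ) (z : (sizes a → ℕ) →₀ ℝ) : Prop :=
  (∀ c, 0 ≤ z c) ∧ (∀ c, z c ≠ 0 → IsConfig a c) ∧
    ∀ σ : sizes a, (mult a σ : ℝ) ≤ z.sum (fun c x => (c σ : ℝ) * x)

/-- The Gilmore-Gomory configuration LP value. -/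
noncomputable def LP {n : ℕ} (a : Fin n → ℚ) : ℝ :=
  sInf {v : ℝ | ∃ z, IsFractional a z ∧ v = z.sum (fun _ x => x)}

end Vale.Agent.P302
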