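import Vale.Agent.P302.Bridge

/-!
Adding an item of size one raises `OPT` and the LP bound by exactly one.
-/

namespace Vale.Agent.P302

theorem sum_filter_cons (x : ℕ) (l : List ℕ) {k : ℕ} (f : Fin (x :: l).length → Fin k) (b : Fin k) :
    ∑ i ∈ Finset.univ.filter (fun i => f i = b), (x :: l).get i
      = (if f (0 : Fin (l.length + 1)) = b then x else 0)
        + ∑ i ∈ Finset.univ.filter (fun i : Fin l.length => f (Fin.succ i) = b), l.get i := by
  rw [Finset.sum_filter, Finset.sum_filter]
  exact Fin.sum_univ_succ (n := l.length) (fun i => if f i = b then (x :: l).get i else 0)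

theorem NatPacks.cons {C k : ℕ} {l : List ℕ} (h : NatPacks C k l) : NatPacks C (k + 1) (C :: l) := by
  obtain ⟨f, hf⟩ := h
  refine ⟨Fin.cons (Fin.last k) (fun i => Fin.castSucc (f i)), fun b => ?_⟩
  rw [sum_filter_cons]
  induction b using Fin.lastCases with
  | last =>
      have : (Finset.univ.filter fun i : Fin l.length =>
          (Fin.cons (Fin.last k) (fun i => Fin.castSucc (f i)) : Fin (l.length + 1) → Fin (k + 1))
            (Fin.succ i) = Fin.last k) = ∅ := by
        refine Finset.filter_eq_empty_iff.2 ?_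
        intro i _ hi
        rw [Fin.cons_succ] at hi
        exact (Fin.castSucc_lt_last (f i)).ne hi
      erw [this]
      simp only [Finset.sum_empty, Nat.add_zero]
      split_ifs <;> omega
  | cast b =>
      have h0 : ¬ ((Fin.cons (Fin.last k) (fun i => Fin.castSucc (f i)) :
          Fin (l.length + 1) → Fin (k + 1)) 0 = Fin.castSucc b) := by
        rw [Fin.cons_zero]
        exact (Fin.castSucc_lt_last b).ne'
      erw [if_neg h0]
      rw [Nat.zero_add]
      refine le_trans (le_of_eq ?_) (hf b)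
      congr 1
      ext i
      simp only [Finset.mem_filter, Finset.mem_univ, true_and]
      erw [Fin.cons_succ]
      exact Fin.castSucc_inj

theorem NatPacks.of_cons {C k : ℕ} {l : List ℕ} (hl : ∀ x ∈ l, 0 < x)
    (h : NatPacks C (k + 1) (C :: l)) : NatPacks C k l := by
  obtain ⟨f, hf⟩ := h
  set b0 : Fin (k + 1) := f (0 : Fin (l.length + 1)) with hb0
  have hne : ∀ i : Fin l.length, f (Fin.succ i) ≠ b0 := by
    intro i hi
    have h1 := hf b0
    rw [sum_filter_cons, if_pos rfl] at h1
    have h2 : l.get i ≤ ∑ i ∈ Finset.univ.filter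
        (fun i : Fin l.length => f (Fin.succ i) = b0), l.get i :=
      Finset.single_le_sum (f := fun i : Fin l.length => l.get i) (fun _ _ => Nat.zero_le _)
        (Finset.mem_filter.2 ⟨Finset.mem_univ _, hi⟩)
    have h3 := hl _ (List.get_mem l i)
    omega
  have hex : ∀ i : Fin l.length, ∃ y : Fin k, b0.succAbove y = f (Fin.succ i) :=
    fun i => Fin.exists_succAbove_eq (hne i)
  choose g hg using hex
  refine ⟨g, fun b => ?_⟩
  have h1 := hf (b0.succAbove b)
  rw [sum_filter_cons] at h1
  refine le_trans (le_of_eq ?_) (le_trans (Nat.le_add_left _ _) h1)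
  congr 1
  ext i
  simp only [Finset.mem_filter, Finset.mem_univ, true_and]
  rw [← hg i]
  exact (Fin.succAbove_right_injective.eq_iff).symm

theorem cert_sum_nonneg {C : ℕ} {cert : List (ℚ × List ℕ)} (h : ∀ p ∈ cert, 0 ≤ p.1 ∧ p.2.sum ≤ C)
    (x : ℕ) : 0 ≤ (cert.map fun p => p.1 * (p.2.count x : ℚ)).sum := by
  refine List.sum_nonneg ?_
  intro y hy
  obtain ⟨p, hp, rfl⟩ := List.mem_map.1 hy
  have := (h p hp).1
  positivity

theorem IsCert.cons {C : ℕ} {l : List ℕ} {cert : List (ℚ × List ℕ)} (h : IsCert C l cert) :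
    IsCert C (C :: l) ((1, [C]) :: cert) := by
  obtain ⟨h1, h2⟩ := h
  refine ⟨?_, ?_⟩
  · intro p hp
    rcases List.mem_cons.1 hp with rfl | hp
    · simp
    · exact h1 p hp
  · intro x hx
    rw [List.map_cons, List.sum_cons]
    have h3 : (l.count x : ℚ) ≤ (cert.map fun p => p.1 * (p.2.count x : ℚ)).sum := by
      by_cases hxl : x ∈ l
      · exact h2 x hxl
      · rw [List.count_eq_zero_of_not_mem hxl]
        simpa using cert_sum_nonneg h1 x
    rw [List.count_cons, List.count_cons]
    push_cast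
    simp only [List.count_nil, Nat.cast_zero, zero_add, one_mul]
    linarith

/-- Certificates with integer weights over a common denominator `D`. -/
def IsCertN (C D : ℕ) (items : List ℕ) (cert : List (ℕ × List ℕ)) : Prop :=
  (∀ p ∈ cert, p.2.sum ≤ C) ∧
    ∀ x ∈ items, D * items.count x ≤ (cert.map fun p => p.1 * p.2.count x).sum

/-- rational form -/
def toCert (D : ℕ) (cert : List (ℕ × List ℕ)) : List (ℚ × List ℕ) :=
  cert.map fun p => ((p.1 : ℚ) / D, p.2)

theorem toCert_sum (D : ℕ) (x : ℕ) : ∀ cert : List (ℕ × List ℕ),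
    ((toCert D cert).map fun p => p.1 * (p.2.count x : ℚ)).sum
      = (((cert.map fun p => p.1 * p.2.count x).sum : ℕ) : ℚ) / D
  | [] => by simp [toCert]
  | p :: l => by
      have ih := toCert_sum D x l
      unfold toCert at *
      rw [List.map_cons, List.map_cons, List.sum_cons, ih, List.map_cons, List.sum_cons]
      push_cast
      ring

theorem toCert_val (D : ℕ) : ∀ cert : List (ℕ × List ℕ),
    ((toCert D cert).map Prod.fst).sum = (((cert.map Prod.fst).sum : ℕ) : ℚ) / D
  | [] => by simp [toCert]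
  | p :: l => by
      have ih := toCert_val D l
      unfold toCert at *
      rw [List.map_cons, List.map_cons, List.sum_cons, ih, List.map_cons, List.sum_cons]
      push_cast
      ring

theorem IsCertN.toCert {C D : ℕ} (hD : 0 < D) {items : List ℕ} {cert : List (ℕ × List ℕ)}
    (h : IsCertN C D items cert) : IsCert C items (toCert D cert) := by
  have hD' : (0 : ℚ) < D := by exact_mod_cast hD
  refine ⟨?_, ?_⟩
  · intro p hp
    obtain ⟨q, hq, rfl⟩ := List.mem_map.1 hp
    exact ⟨by positivity, h.1 q hq⟩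
  · intro x hx
    rw [toCert_sum, le_div_iff₀ hD']
    have := h.2 x hx
    rw [mul_comm] at this
    exact_mod_cast this

/-- All data needed for an instance of optimum `m` with small LP value. -/
def Good (C m : ℕ) (v : ℚ) : Prop :=
  ∃ (items : List ℕ) (cert : List (ℚ × List ℕ)), (∀ x ∈ items, 0 < x ∧ x ≤ C) ∧
    NatPacks C m items ∧ (∀ k, k + 1 = m → ¬ NatPacks C k items) ∧ IsCert C items cert ∧
    (cert.map Prod.fst).sum = v

theorem Good.succ {C m : ℕ} {v : ℚ} (hC : 0 < C) (hm : 0 < m) (h : Good C m v) :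
    Good C (m + 1) (v + 1) := by
  obtain ⟨items, cert, h1, h2, h3, h4, h5⟩ := h
  refine ⟨C :: items, (1, [C]) :: cert, ?_, h2.cons, ?_, h4.cons, ?_⟩
  · intro x hx
    rcases List.mem_cons.1 hx with rfl | hx
    · exact ⟨hC, le_rfl⟩
    · exact h1 x hx
  · intro k hk hp
    obtain ⟨j, rfl⟩ : ∃ j, m = j + 1 := ⟨m - 1, by omega⟩
    have : k = j + 1 := by omega
    subst this
    exact h3 j rfl (NatPacks.of_cons (fun x hx => (h1 x hx).1) hp)
  · rw [List.map_cons, List.sum_cons, h5]
    ring

theorem Good.add {C m : ℕ} {v : ℚ} (hC : 0 < C) (hm : 0 < m) (h : Good C m v) :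
    ∀ j : ℕ, Good C (m + j) (v + j)
  | 0 => by simpa using h
  | j + 1 => by
      have := Good.succ hC (by omega) (Good.add hC hm h j)
      rw [← Nat.add_assoc, Nat.cast_add, Nat.cast_one, ← add_assoc]
      exact this

theorem Good.main {C m : ℕ} {v : ℚ} (hC : 0 < C) (h : Good C (m + 1) v) :
    ∃ (n : ℕ) (a : Fin n → ℚ), IsInstance a ∧ OPT a = m + 1 ∧ LP a ≤ (v : ℝ) := by
  obtain ⟨items, cert, h1, h2, h3, h4, h5⟩ := h
  have hC' : (0 : ℚ) < C := by exact_mod_cast hC
  refine ⟨items.length, inst C items, ?_, ?_, ?_⟩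
  · intro i
    have := h1 _ (List.get_mem items i)
    refine ⟨div_pos (by exact_mod_cast this.1) hC', ?_⟩
    rw [inst, div_le_one hC']
    exact_mod_cast this.2
  · refine opt_eq ?_ ((packs_iff hC items).2 h2) (fun hp => h3 m rfl ((packs_iff hC items).1 hp))
    intro i
    have := h1 _ (List.get_mem items i)
    refine ⟨div_pos (by exact_mod_cast this.1) hC', ?_⟩
    rw [inst, div_le_one hC']
    exact_mod_cast this.2
  · rw [← h5]
    exact lp_le hC h4

end Vale.Agent.P302
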