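import Vale.Agent.P302.Search

/-!
A faster version of the verified search (recursors, pruning by the total size of what is left),
with a list `crit` of forbidden bin patterns.
-/

namespace Vale.Agent.P302.Fast

open Vale.Agent.P302

/-- The vector `s` is a sum of `k` vectors of total size at most `C`, none of them in `crit`. -/
def SolvC (ws : List ℕ) (C : ℕ) (crit : List (List ℕ)) : ℕ → List ℕ → Prop
  | 0, s => ∀ x ∈ s, x = 0
  | k + 1, s => ∃ p q : List ℕ, p.length = ws.length ∧ q.length = ws.length ∧
      s = vadd p q ∧ (dot ws p ≤ C ∧ p ∉ crit) ∧ SolvC ws C crit k q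

theorem SolvC.exch {ws : List ℕ} {C : ℕ} {crit : List (List ℕ)} : ∀ (k : ℕ) (s : List ℕ) (t : ℕ),
    SolvC ws C crit (k + 1) s → 0 < s.getD t 0 →
    ∃ p q : List ℕ, p.length = ws.length ∧ q.length = ws.length ∧
      s = vadd p q ∧ (dot ws p ≤ C ∧ p ∉ crit) ∧ SolvC ws C crit k q ∧ 0 < p.getD t 0 := by
  intro k
  induction k with
  | zero =>
      rintro s t ⟨p, q, hp, hq, hs, hd, hk⟩ ht
      refine ⟨p, q, hp, hq, hs, hd, hk, ?_⟩
      rw [hs, getD_vadd p q t (by omega)] at ht
      have : q.getD t 0 = 0 := by
        by_cases h : t < q.length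
        · rw [List.getD_eq_getElem _ _ h]
          exact hk _ (List.getElem_mem h)
        · exact List.getD_eq_default _ _ (by omega)
      omega
  | succ k ih =>
      rintro s t ⟨p, q, hp, hq, hs, hd, hk⟩ ht
      by_cases hpt : 0 < p.getD t 0
      · exact ⟨p, q, hp, hq, hs, hd, hk, hpt⟩
      · rw [hs, getD_vadd p q t (by omega)] at ht
        obtain ⟨p', q', hp', hq', hs', hd', hk', ht'⟩ := ih q t hk (by omega)
        refine ⟨p', vadd p q', hp', ?_, ?_, hd', ⟨p, q', hp, hq', rfl, hd, hk'⟩, ht'⟩
        · rw [length_vadd _ _ (by omega), hp]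
        · rw [hs, hs', ← vadd_assoc, vadd_comm p p', vadd_assoc]

theorem dot_zero : ∀ (ws s : List ℕ), s.length = ws.length → (∀ x ∈ s, x = 0) → dot ws s = 0
  | [], [], _, _ => rfl
  | w :: ws, x :: xs, hs, h => by
      simp only [List.length_cons, Nat.add_right_cancel_iff] at hs
      have h0 : x = 0 := h x (by simp)
      simp [dot, h0, dot_zero ws xs hs (fun y hy => h y (by simp [hy]))]

theorem SolvC.dot_le {ws : List ℕ} {C : ℕ} {crit : List (List ℕ)} : ∀ (k : ℕ) (s : List ℕ),
    s.length = ws.length → SolvC ws C crit k s → dot ws s ≤ k * C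
  | 0, s, hl, h => by simp [dot_zero ws s hl h]
  | k + 1, s, hl, ⟨p, q, hp, hq, hs, hd, hk⟩ => by
      have := SolvC.dot_le k q hq hk
      rw [hs, dot_vadd ws p q hp hq]
      nlinarith [hd.1]

theorem Solv.toC {ws : List ℕ} {C : ℕ} : ∀ (k : ℕ) (s : List ℕ), Solv ws C k s →
    SolvC ws C [] k s
  | 0, _, h => h
  | _ + 1, _, ⟨p, q, hp, hq, hs, hd, hk⟩ =>
      ⟨p, q, hp, hq, hs, ⟨hd, by simp⟩, Solv.toC _ _ hk⟩

/-- An entry of a decoded state: size, code of one item, multiplicity (positive), and the total
size of this and all later entries. -/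
structure Ent where
  w : ℕ
  r : ℕ
  c : ℕ
  s : ℕ

/-- sum of sizes of a decoded state -/
def tl (l : List Ent) : ℕ :=
  List.rec (motive := fun _ => ℕ) 0 (fun x _ _ => x.s) l

/-- decoding -/
def dec (B : ℕ) (ws : List ℕ) : ℕ → ℕ → List Ent :=
  List.rec (motive := fun _ => ℕ → ℕ → List Ent) (fun _ _ => [])
    (fun w _ ih r c =>
      Bool.rec (⟨w, r, c % B, (c % B) * w + tl (ih (r * B) (c / B))⟩ :: ih (r * B) (c / B))
        (ih (r * B) (c / B)) (Nat.beq (c % B) 0)) ws

/-- membership -/
noncomputable def mem (x : ℕ) (t : Tree) : Bool :=
  Tree.rec (motive := fun _ => Bool) false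
    (fun _ y _ il ir => Bool.rec (Bool.rec ir il (Nat.ble x y)) true (Nat.beq x y)) t

/-- take up to `c` copies -/
noncomputable def take (g : ℕ → ℕ → Bool) (w r c : ℕ) : ℕ → ℕ → Bool :=
  Nat.rec (motive := fun _ => ℕ → ℕ → Bool) g
    (fun _ ih space acc =>
      Bool.rec false (Bool.rec true (ih (space - w) (acc - r)) (Nat.ble w space)) (g space acc)) c

/-- fill a bin -/
noncomputable def fill (leaf : ℕ → ℕ → Bool) (slack m : ℕ) (l : List Ent) : ℕ → ℕ → Bool :=
  List.rec (motive := fun _ => ℕ → ℕ → Bool) leaf
    (fun x _ ih space acc =>
      Bool.rec true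
        (Bool.rec (leaf space acc) (take ih x.w x.r x.c space acc) (Nat.ble m space))
        (Nat.ble space (slack + x.s))) l

/-- is `acc + c = code` for some `c` in the list? -/
noncomputable def exempt (code acc : ℕ) (cr : List ℕ) : Bool :=
  List.rec (motive := fun _ => Bool) false
    (fun c _ ih => Bool.rec ih true (Nat.beq (acc + c) code)) cr

/-- the leaf test -/
noncomputable def leaf (T : Tree) (cr : List ℕ) (code slack : ℕ) (space acc : ℕ) : Bool :=
  Bool.rec true (Bool.rec (exempt code acc cr) true (mem acc T)) (Nat.ble space slack)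

/-- the bin of the first remaining item -/
noncomputable def chk (C m : ℕ) (T : Tree) (cr : List ℕ) (slack code : ℕ) (l : List Ent) : Bool :=
  List.rec (motive := fun _ => Bool) false
    (fun x l _ => Bool.rec true
      (take (fill (leaf T cr code slack) slack m l) x.w x.r (x.c - 1) (C - x.w) (code - x.r))
      (Nat.ble x.w C)) l

/-- all states of `T'` are dead -/
noncomputable def level (C B m : ℕ) (ws cr : List ℕ) (k : ℕ) (T : Tree) (T' : Tree) : Bool :=
  Tree.rec (motive := fun _ => Bool) true
    (fun _ y _ il ir => Bool.rec false (Bool.rec false ir il)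
      (chk C m T cr ((k + 1) * C - tl (dec B ws 1 y)) y (dec B ws 1 y))) T'

/-- the decoded form of a vector -/
def ents (B : ℕ) : List ℕ → ℕ → List ℕ → List Ent
  | w :: ws, r, x :: xs =>
      match x with
      | 0 => ents B ws (r * B) xs
      | x + 1 => ⟨w, r, x + 1, (x + 1) * w + tl (ents B ws (r * B) xs)⟩ :: ents B ws (r * B) xs
  | _, _, _ => []

theorem tl_ents {B : ℕ} : ∀ (ws : List ℕ) (r : ℕ) (v : List ℕ), tl (ents B ws r v) = dot ws v
  | [], _, [] => rfl
  | [], _, _ :: _ => rfl
  | _ :: _, _, [] => rfl
  | w :: ws, r, 0 :: xs => by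
      simp only [ents, dot, Nat.zero_mul, Nat.zero_add]
      exact tl_ents ws (r * B) xs
  | w :: ws, r, (x + 1) :: xs => by
      have := tl_ents (B := B) ws (r * B) xs
      simp only [ents, dot]
      rw [← this]
      rfl

theorem dec_enc {B : ℕ} : ∀ (ws : List ℕ) (r : ℕ) (v : List ℕ), v.length = ws.length →
    (∀ x ∈ v, x < B) → dec B ws r (enc B v) = ents B ws r v
  | [], _, [], _, _ => rfl
  | w :: ws, r, x :: xs, h, hv => by
      simp only [List.length_cons, Nat.add_right_cancel_iff] at h
      have hx : x < B := hv x (by simp)
      have hB : 0 < B := by omega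
      have ih := dec_enc ws (r * B) xs h (fun y hy => hv y (by simp [hy]))
      have e1 : enc B (x :: xs) % B = x := by
        simp only [enc]
        rw [Nat.add_mul_mod_self_left, Nat.mod_eq_of_lt hx]
      have e2 : enc B (x :: xs) / B = enc B xs := by
        simp only [enc]
        rw [Nat.add_mul_div_left _ _ hB, Nat.div_eq_of_lt hx, Nat.zero_add]
      have e3 : dec B (w :: ws) r (enc B (x :: xs))
          = Bool.rec (⟨w, r, enc B (x :: xs) % B, (enc B (x :: xs) % B) * w
              + tl (dec B ws (r * B) (enc B (x :: xs) / B))⟩ ::
                dec B ws (r * B) (enc B (x :: xs) / B))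
            (dec B ws (r * B) (enc B (x :: xs) / B)) (Nat.beq (enc B (x :: xs) % B) 0) := rfl
      rw [e3, e1, e2, ih]
      cases x with
      | zero => rfl
      | succ x => rfl

theorem mem_iff {x : ℕ} : ∀ {t : Tree}, mem x t = t.mem x
  | .nil => rfl
  | .node l y r => by
      have h1 : mem x (.node l y r)
          = Bool.rec (Bool.rec (mem x r) (mem x l) (Nat.ble x y)) true (Nat.beq x y) := rfl
      have h2 : Tree.mem x (.node l y r)
          = bif Nat.beq x y then true else bif Nat.ble x y then Tree.mem x l else Tree.mem x r := rfl
      rw [h1, h2, mem_iff (t := l), mem_iff (t := r)]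
      cases Nat.beq x y <;> cases Nat.ble x y <;> rfl

theorem take_spec {g : ℕ → ℕ → Bool} {w r : ℕ} : ∀ (c space acc : ℕ),
    take g w r c space acc = true → ∀ j ≤ c, j * w ≤ space →
      g (space - j * w) (acc - j * r) = true
  | 0, space, acc, h, j, hj, _ => by
      have : j = 0 := by omega
      subst this
      have e : take g w r 0 space acc = g space acc := rfl
      rw [e] at h
      simpa using h
  | c + 1, space, acc, h, j, hj, hs => by
      have e : take g w r (c + 1) space acc
          = Bool.rec false (Bool.rec true (take g w r c (space - w) (acc - r)) (Nat.ble w space))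
            (g space acc) := rfl
      rw [e] at h
      cases hg : g space acc with
      | false => rw [hg] at h; exact absurd h (by simp)
      | true =>
          rw [hg] at h
          cases j with
          | zero => simpa using hg
          | succ j =>
              have hw : w ≤ space := by nlinarith
              have hb : Nat.ble w space = true := Nat.ble_eq_true_of_le hw
              rw [hb] at h
              have h2 : take g w r c (space - w) (acc - r) = true := h
              have := take_spec c (space - w) (acc - r) h2 j (by omega) (by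
                rw [Nat.succ_mul] at hs; omega)
              rw [Nat.succ_mul, Nat.succ_mul]
              rw [show space - (j * w + w) = space - w - j * w by omega,
                show acc - (j * r + r) = acc - r - j * r by omega]
              exact this

theorem small_zero {B m : ℕ} : ∀ (ws p : List ℕ), p.length = ws.length → (∀ w ∈ ws, m ≤ w) →
    dot ws p < m → dot ws p = 0 ∧ enc B p = 0
  | [], [], _, _, _ => ⟨rfl, rfl⟩
  | w :: ws, y :: ys, hl, hm, hd => by
      simp only [List.length_cons, Nat.add_right_cancel_iff] at hl
      simp only [dot] at hd ⊢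
      have hw := hm w (by simp)
      have hy : y = 0 := by
        by_contra h0
        have : 1 ≤ y := by omega
        nlinarith
      subst hy
      have := small_zero (B := B) ws ys hl (fun u hu => hm u (by simp [hu])) (by omega)
      simp [enc, this.1, this.2]

theorem dot_mono : ∀ (ws p v : List ℕ), List.Forall₂ (· ≤ ·) p v → dot ws p ≤ dot ws v
  | [], _, _, _ => by simp [dot]
  | _ :: _, [], [], _ => le_rfl
  | w :: ws, y :: ys, x :: xs, h => by
      rw [List.forall₂_cons] at h
      simp only [dot]
      have := dot_mono ws ys xs h.2
      have := Nat.mul_le_mul_right w h.1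
      omega

theorem fill_spec {leaf : ℕ → ℕ → Bool} {slack m B : ℕ} : ∀ (ws : List ℕ) (r : ℕ) (v p : List ℕ)
    (space acc : ℕ), v.length = ws.length → (∀ w ∈ ws, m ≤ w) → List.Forall₂ (· ≤ ·) p v →
    fill leaf slack m (ents B ws r v) space acc = true → dot ws p ≤ space →
    space - dot ws p ≤ slack → leaf (space - dot ws p) (acc - r * enc B p) = true
  | [], r, [], [], space, acc, _, _, _, h, _, _ => by
      have e : fill leaf slack m (ents B [] r []) space acc = leaf space acc := rfl
      rw [e] at h
      simpa [dot, enc] using h
  | w :: ws, r, 0 :: xs, y :: ys, space, acc, hl, hm, hp, h, hd, hs => by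
      simp only [List.length_cons, Nat.add_right_cancel_iff] at hl
      rw [List.forall₂_cons] at hp
      have hy : y = 0 := by omega
      subst hy
      simp only [dot, Nat.zero_mul, Nat.zero_add] at hd hs ⊢
      have := fill_spec (B := B) ws (r * B) xs ys space acc hl
        (fun u hu => hm u (by simp [hu])) hp.2 h hd hs
      simp only [enc, Nat.zero_add]
      rw [← Nat.mul_assoc]
      exact this
  | w :: ws, r, (x + 1) :: xs, y :: ys, space, acc, hl, hm, hp, h, hd, hs => by
      simp only [List.length_cons, Nat.add_right_cancel_iff] at hl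
      have hp' := hp
      rw [List.forall₂_cons] at hp
      have e : fill leaf slack m (ents B (w :: ws) r ((x + 1) :: xs)) space acc
          = Bool.rec true
            (Bool.rec (leaf space acc)
              (take (fill leaf slack m (ents B ws (r * B) xs)) w r (x + 1) space acc)
              (Nat.ble m space))
            (Nat.ble space (slack + ((x + 1) * w + tl (ents B ws (r * B) xs)))) := rfl
      rw [e, tl_ents] at h
      have hmono := dot_mono (w :: ws) (y :: ys) ((x + 1) :: xs) hp'
      have hle : space ≤ slack + ((x + 1) * w + dot ws xs) := by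
        have : dot (w :: ws) ((x + 1) :: xs) = (x + 1) * w + dot ws xs := rfl
        omega
      rw [Nat.ble_eq_true_of_le hle] at h
      cases hms : Nat.ble m space with
      | false =>
          rw [hms] at h
          have hlt : space < m := by
            by_contra hge
            rw [Nat.ble_eq_true_of_le (by omega)] at hms
            exact absurd hms (by simp)
          have hz := small_zero (B := B) (w :: ws) (y :: ys)
            (by simp only [List.length_cons, Nat.add_right_cancel_iff]; rw [hp.2.length_eq, hl]) hm
            (by omega)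
          rw [hz.1, hz.2]
          simpa using h
      | true =>
          rw [hms] at h
          simp only [dot] at hd hs ⊢
          have h1 := take_spec (x + 1) space acc h y hp.1 (by omega)
          have := fill_spec (B := B) ws (r * B) xs ys (space - y * w) (acc - y * r) hl
            (fun u hu => hm u (by simp [hu])) hp.2 h1 (by omega) (by omega)
          simp only [enc]
          rw [show acc - r * (y + B * enc B ys) = acc - y * r - r * B * enc B ys by
              rw [Nat.mul_add, Nat.sub_add_eq]; ring_nf,
            show space - (y * w + dot ws ys) = space - y * w - dot ws ys by omega]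
          exact this

theorem exempt_spec {code acc : ℕ} : ∀ (cr : List ℕ), exempt code acc cr = true →
    ∃ c ∈ cr, acc + c = code
  | [], h => absurd h (by simp [exempt])
  | c :: cr, h => by
      have e : exempt code acc (c :: cr)
          = Bool.rec (exempt code acc cr) true (Nat.beq (acc + c) code) := rfl
      rw [e] at h
      cases hb : Nat.beq (acc + c) code with
      | true => exact ⟨c, by simp, Nat.eq_of_beq_eq_true hb⟩
      | false =>
          rw [hb] at h
          obtain ⟨d, hd, h2⟩ := exempt_spec cr h
          exact ⟨d, by simp [hd], h2⟩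

theorem leaf_spec {T : Tree} {cr : List ℕ} {code slack space acc : ℕ}
    (h : leaf T cr code slack space acc = true) (hs : space ≤ slack)
    (hn : ∀ c ∈ cr, acc + c ≠ code) : T.mem acc = true := by
  unfold leaf at h
  rw [Nat.ble_eq_true_of_le hs] at h
  have h' : Bool.rec (exempt code acc cr) true (mem acc T) = true := h
  cases hm : mem acc T with
  | true => rw [← mem_iff]; exact hm
  | false =>
      rw [hm] at h'
      obtain ⟨c, hc, he⟩ := exempt_spec cr h'
      exact absurd he (hn c hc)

theorem chk_spec {T : Tree} {cr : List ℕ} {C m slack code B : ℕ} : ∀ (ws : List ℕ) (r : ℕ)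
    (v : List ℕ), v.length = ws.length → (∀ w ∈ ws, m ≤ w) →
    chk C m T cr slack code (ents B ws r v) = true →
    ∃ t, 0 < v.getD t 0 ∧ ∀ p : List ℕ, List.Forall₂ (· ≤ ·) p v → 0 < p.getD t 0 →
      dot ws p ≤ C → C - dot ws p ≤ slack →
      leaf T cr code slack (C - dot ws p) (code - r * enc B p) = true
  | [], _, [], _, _, h => absurd h (by simp [ents, chk])
  | w :: ws, r, 0 :: xs, hl, hm, h => by
      simp only [List.length_cons, Nat.add_right_cancel_iff] at hl
      obtain ⟨t, ht, H⟩ := chk_spec ws (r * B) xs hl (fun u hu => hm u (by simp [hu])) h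
      refine ⟨t + 1, by simpa using ht, ?_⟩
      intro p hp ht' hd hs
      cases p with
      | nil => simp at hp
      | cons y ys =>
          rw [List.forall₂_cons] at hp
          obtain ⟨hy, hys⟩ := hp
          have hy0 : y = 0 := by omega
          subst hy0
          simp only [dot, Nat.zero_mul, Nat.zero_add] at hd hs ⊢
          have := H ys hys (by simpa using ht') hd hs
          simpa [enc, Nat.mul_assoc] using this
  | w :: ws, r, (c + 1) :: xs, hl, hm, h => by
      simp only [List.length_cons, Nat.add_right_cancel_iff] at hl
      refine ⟨0, by simp, ?_⟩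
      intro p hp ht' hd hs
      cases p with
      | nil => simp at hp
      | cons y ys =>
          rw [List.forall₂_cons] at hp
          obtain ⟨hy, hys⟩ := hp
          simp only [List.getD_cons_zero] at ht'
          obtain ⟨j, rfl⟩ : ∃ j, y = j + 1 := ⟨y - 1, by omega⟩
          simp only [dot, Nat.succ_mul] at hd hs ⊢
          have e : chk C m T cr slack code (ents B (w :: ws) r ((c + 1) :: xs))
              = Bool.rec true
                (take (fill (leaf T cr code slack) slack m (ents B ws (r * B) xs)) w r
                  (c + 1 - 1) (C - w) (code - r))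
                (Nat.ble w C) := rfl
          rw [e, Nat.ble_eq_true_of_le (show w ≤ C by omega)] at h
          have h1 := take_spec (c + 1 - 1) (C - w) (code - r) h j (by omega) (by omega)
          have := fill_spec (B := B) ws (r * B) xs ys (C - w - j * w) (code - r - j * r) hl
            (fun u hu => hm u (by simp [hu])) hys h1 (by omega) (by omega)
          simp only [enc]
          rw [show code - r * (j + 1 + B * enc B ys) = code - r - j * r - r * B * enc B ys by
              rw [Nat.mul_add, Nat.sub_add_eq, Nat.mul_add, Nat.mul_one, Nat.add_comm (r * j) r,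
                Nat.sub_add_eq]; ring_nf,
            show C - (j * w + w + dot ws ys) = C - w - j * w - dot ws ys by omega]
          exact this

/-- The state with code `c` cannot be packed into `k` bins. -/
def Dead (C B : ℕ) (ws : List ℕ) (crit : List (List ℕ)) (k c : ℕ) : Prop :=
  ∀ v : List ℕ, v.length = ws.length → (∀ x ∈ v, x < B) → enc B v = c → ¬ SolvC ws C crit k v

theorem enc_inj {B : ℕ} : ∀ (p q : List ℕ), p.length = q.length → (∀ x ∈ p, x < B) →
    (∀ x ∈ q, x < B) → enc B p = enc B q → p = q
  | [], [], _, _, _, _ => rfl
  | x :: xs, y :: ys, h, hp, hq, he => by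
      simp only [List.length_cons, Nat.add_right_cancel_iff] at h
      have hx : x < B := hp x (by simp)
      have hy : y < B := hq y (by simp)
      have hB : 0 < B := by omega
      simp only [enc] at he
      have e1 : x = y := by
        have := congrArg (· % B) he
        simp only [Nat.add_mul_mod_self_left] at this
        rwa [Nat.mod_eq_of_lt hx, Nat.mod_eq_of_lt hy] at this
      subst e1
      have e2 : enc B xs = enc B ys := by
        have := Nat.add_left_cancel he
        exact Nat.eq_of_mul_eq_mul_left hB this
      rw [enc_inj xs ys h (fun z hz => hp z (by simp [hz])) (fun z hz => hq z (by simp [hz])) e2]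

theorem level_all {C B m : ℕ} {ws cr : List ℕ} {k : ℕ} {T : Tree} : ∀ {T' : Tree},
    level C B m ws cr k T T' = true → ∀ y, T'.mem y = true →
    chk C m T cr ((k + 1) * C - tl (dec B ws 1 y)) y (dec B ws 1 y) = true
  | .nil, _, y, hy => by simp [Tree.mem] at hy
  | .node l z r, h, y, hy => by
      have e : level C B m ws cr k T (.node l z r)
          = Bool.rec false (Bool.rec false (level C B m ws cr k T r) (level C B m ws cr k T l))
            (chk C m T cr ((k + 1) * C - tl (dec B ws 1 z)) z (dec B ws 1 z)) := rfl
      rw [e] at h
      cases hz : chk C m T cr ((k + 1) * C - tl (dec B ws 1 z)) z (dec B ws 1 z) with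
      | false => rw [hz] at h; exact absurd h (by simp)
      | true =>
          rw [hz] at h
          cases hl : level C B m ws cr k T l with
          | false => rw [hl] at h; exact absurd h (by simp)
          | true =>
              rw [hl] at h
              have hr : level C B m ws cr k T r = true := h
              unfold Tree.mem at hy
              by_cases hyz : y = z
              · rw [hyz]; exact hz
              · have hb : Nat.beq y z = false := by
                  cases hh : Nat.beq y z with
                  | false => rfl
                  | true => exact absurd (Nat.eq_of_beq_eq_true hh) hyz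
                rw [hb] at hy
                simp only [cond_false] at hy
                cases hle : Nat.ble y z with
                | true => rw [hle] at hy; exact level_all hl y hy
                | false => rw [hle] at hy; exact level_all hr y hy

theorem forall₂_lt {B : ℕ} {p v : List ℕ} (h : List.Forall₂ (· ≤ ·) p v) (hv : ∀ x ∈ v, x < B) :
    ∀ x ∈ p, x < B := by
  induction h with
  | nil => simp
  | cons h1 _ ih =>
      intro x hx
      rcases List.mem_cons.1 hx with rfl | hx
      · exact lt_of_le_of_lt h1 (hv _ (by simp))
      · exact ih (fun y hy => hv y (by simp [hy])) x hx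

theorem level_spec {C B m : ℕ} {ws : List ℕ} {crit : List (List ℕ)} {k : ℕ} {T' T : Tree}
    (hm : ∀ w ∈ ws, m ≤ w) (hcrit : ∀ P ∈ crit, P.length = ws.length ∧ ∀ x ∈ P, x < B)
    (hT : ∀ c, T.mem c = true → Dead C B ws crit k c)
    (h : level C B m ws (crit.map (enc B)) k T T' = true) :
    ∀ c, T'.mem c = true → Dead C B ws crit (k + 1) c := by
  rintro c hc v hl hv hcode hS
  have h1 := level_all h c hc
  subst hcode
  rw [dec_enc ws 1 v hl hv, tl_ents] at h1
  obtain ⟨t, ht, H⟩ := chk_spec ws 1 v hl hm h1
  obtain ⟨p, q, hp, hq, hs, ⟨hd, hpc⟩, hk, hpt⟩ := SolvC.exch k v t hS ht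
  have hq' := SolvC.dot_le k q hq hk
  have hv' : dot ws v = dot ws p + dot ws q := by rw [hs, dot_vadd ws p q hp hq]
  have hpv : List.Forall₂ (· ≤ ·) p v := by rw [hs]; exact forall₂_vadd p q (by omega)
  have hsl : C - dot ws p ≤ (k + 1) * C - dot ws v := by rw [hv', Nat.succ_mul]; omega
  have hm1 := H p hpv hpt hd hsl
  rw [Nat.one_mul] at hm1
  have he : enc B v = enc B p + enc B q := by rw [hs, enc_vadd p q (by omega)]
  have hm2 := leaf_spec hm1 hsl (by
    intro c' hc' heq
    obtain ⟨P, hP, rfl⟩ := List.mem_map.1 hc'
    have hP' := hcrit P hP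
    have : enc B p = enc B P := by omega
    have := enc_inj p P (by rw [hp, hP'.1]) (forall₂_lt hpv hv) hP'.2 this
    exact hpc (this ▸ hP))
  rw [he, Nat.add_sub_cancel_left] at hm2
  refine hT _ hm2 q hq ?_ rfl hk
  intro x hx
  obtain ⟨y, hy, hxy⟩ := mem_vadd_right p q (by omega) x hx
  rw [← hs] at hy
  exact lt_of_le_of_lt hxy (hv y hy)

theorem dead_nil {C B : ℕ} {ws : List ℕ} {crit : List (List ℕ)} {k : ℕ} :
    ∀ c, Tree.nil.mem c = true → Dead C B ws crit k c := by
  intro c h
  simp [Tree.mem] at h

end Vale.Agent.P302.Fast
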