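import Vale.Agent.P302.Family

/-!
Nested instances.  A *system* consists of finitely many item types; `part t` is the part of type
`t`, `a t` the (fine) deviation of its size and `n t` its multiplicity.  A *good* triple of kind
`κ` consists of three items, `κ p` of them of part `p`, whose deviations add up to at most `0`.
`Ok κ Q E L N r` says that at most `Q` disjoint good triples can be formed, but that there is a
fractional family of good triples of total weight `L / E`, which uses every item completely, except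
for one distinguished type `d p` in every part, of which `r p / E` items are left over.
-/

namespace Vale.Agent.P302.Nest

open Finset

/-- number of slots of the triple `x` filled with `t` -/
def occ {T : Type} [DecidableEq T] (x : Fin 3 → T) (t : T) : ℕ :=
  (univ.filter fun i => x i = t).card

structure Sys where
  T : Type
  [fin : Fintype T]
  [dec : DecidableEq T]
  part : T → Fin 3
  a : T → ℤ
  n : T → ℕ
  d : Fin 3 → T

attribute [instance] Sys.fin Sys.dec

/-- `x` is a feasible triple of kind `κ` -/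
def Sys.Good (S : Sys) (κ : Fin 3 → ℕ) (x : Fin 3 → S.T) : Prop :=
  (∀ p, (univ.filter fun i => S.part (x i) = p).card = κ p) ∧ ∑ i, S.a (x i) ≤ 0

structure Sys.Ok (S : Sys) (κ : Fin 3 → ℕ) (Q E L : ℕ) (N r : Fin 3 → ℕ) : Prop where
  part_mem : ∀ t, κ (S.part t) ≠ 0
  hd : ∀ p, κ p ≠ 0 → S.part (S.d p) = p
  hN : ∀ p, ∑ t ∈ univ.filter (fun t => S.part t = p), S.n t = N p
  int : ∀ l : List (Fin 3 → S.T), (∀ x ∈ l, S.Good κ x) →
    (∀ t, (l.map fun x => occ x t).sum ≤ S.n t) → l.length ≤ Q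
  lp : ∃ c : List (ℕ × (Fin 3 → S.T)), (∀ p ∈ c, S.Good κ p.2) ∧ (c.map Prod.fst).sum = L ∧
    ∀ t, (c.map fun p => p.1 * occ p.2 t).sum
      + (if S.d (S.part t) = t then r (S.part t) else 0) = E * S.n t

/-- a system with given parameters exists -/
def HasSys (κ : Fin 3 → ℕ) (Q E L : ℕ) (N r : Fin 3 → ℕ) : Prop :=
  ∃ S : Sys, S.Ok κ Q E L N r

theorem HasSys.scale {κ : Fin 3 → ℕ} {Q E L : ℕ} {N r : Fin 3 → ℕ} (h : HasSys κ Q E L N r)
    (k : ℕ) {E' L' : ℕ} {r' : Fin 3 → ℕ} (hE : E * k = E') (hL : L * k = L')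
    (hr : ∀ p, r p * k = r' p) : HasSys κ Q E' L' N r' := by
  obtain ⟨S, h⟩ := h
  refine ⟨S, h.part_mem, h.hd, h.hN, h.int, ?_⟩
  obtain ⟨c, h1, h2, h3⟩ := h.lp
  refine ⟨c.map fun p => (p.1 * k, p.2), ?_, ?_, ?_⟩
  · intro p hp
    obtain ⟨q, hq, rfl⟩ := List.mem_map.1 hp
    exact h1 q hq
  · rw [List.map_map, ← hL, ← h2, ← List.sum_map_mul_right]
    rfl
  · intro t
    rw [List.map_map, ← hE, mul_right_comm, ← h3 t, add_mul, ← List.sum_map_mul_right]
    congr 1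
    · congr 1
      refine List.map_congr_left fun p _ => ?_
      simp only [Function.comp]
      ring
    · split_ifs
      · rw [← hr]
      · simp

/-- coarse classes: `F` classes of plain items and the parts of `G` subsystems -/
abbrev Cls (F G : ℕ) := Fin F ⊕ (Fin G × Fin 3)

/-- The data of one level. -/
structure Lev (F G : ℕ) where
  κ : Fin 3 → ℕ
  P : Cls F G → Fin 3
  v : Cls F G → ℤ
  w : Cls F G → ℕ
  D : ℕ
  m : Fin F → ℕ
  /-- kinds and parameters of the subsystems -/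
  κs : Fin G → Fin 3 → ℕ
  Qs : Fin G → ℕ
  Ls : Fin G → ℕ
  Ns : Fin G → Fin 3 → ℕ
  rs : Fin G → Fin 3 → ℕ
  z : Fin G → ℕ
  E : ℕ
  c : List (ℕ × (Cls F G × Cls F G × Cls F G))
  d : Fin 3 → Cls F G
  /-- the parameters of the result -/
  Q : ℕ
  L : ℕ
  N : Fin 3 → ℕ
  r : Fin 3 → ℕ

variable {F G : ℕ}

/-- the class is used -/
def Lev.U (X : Lev F G) : Cls F G → Prop
  | .inl _ => True
  | .inr (g, p) => X.κs g p ≠ 0

instance (X : Lev F G) : DecidablePred X.U
  | .inl _ => inferInstanceAs (Decidable True)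
  | .inr (g, p) => inferInstanceAs (Decidable (X.κs g p ≠ 0))

/-- the triple as a function -/
def fn {α : Type} (x : α × α × α) : Fin 3 → α := ![x.1, x.2.1, x.2.2]

/-- the triple has kind `κ` -/
def Lev.Kd (X : Lev F G) (x : Fin 3 → Cls F G) : Prop :=
  ∀ p, (univ.filter fun i => X.P (x i) = p).card = X.κ p

/-- the triple is the critical triple of subsystem `g` -/
def Lev.Cr (X : Lev F G) (g : Fin G) (x : Fin 3 → Cls F G) : Prop :=
  ∀ p, occ x (.inr (g, p)) = X.κs g p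

structure Lev.Ok (X : Lev F G) : Prop where
  dual : ∀ x : Fin 3 → Cls F G, (∀ i, X.U (x i)) → X.Kd x → ∑ i, X.v (x i) ≤ 0 →
    X.D ≤ ∑ i, X.w (x i) ∨
      (∑ i, X.v (x i) = 0 ∧ ∃ g, X.Cr g x ∧ X.D ≤ ∑ i, X.w (x i) + X.z g)
  kap : ∀ A, X.U A → X.κ (X.P A) ≠ 0
  kap3 : ∀ g, ∑ p, X.κs g p = 3
  kapg : ∀ g q, ∑ p, (if X.P (.inr (g, p)) = q then X.κs g p else 0) = X.κ q
  crit : ∀ g, ∑ p, (X.κs g p : ℤ) * X.v (.inr (g, p)) = 0
  cOk : ∀ p ∈ X.c, (∀ i, X.U (fn p.2 i)) ∧ X.Kd (fn p.2) ∧ ∑ i, X.v (fn p.2 i) < 0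
  useF : ∀ f, (X.c.map fun p => p.1 * occ (fn p.2) (.inl f)).sum
    + (if X.d (X.P (.inl f)) = .inl f then X.r (X.P (.inl f)) else 0) = X.E * X.m f
  useG : ∀ g p, X.κs g p ≠ 0 → (X.c.map fun q => q.1 * occ (fn q.2) (.inr (g, p))).sum
    + (if X.d (X.P (.inr (g, p))) = .inr (g, p) then X.r (X.P (.inr (g, p))) else 0) = X.rs g p
  hL : (X.c.map Prod.fst).sum + ∑ g, X.Ls g = X.L
  hQ : ∑ f, X.w (.inl f) * X.m f + ∑ g, ∑ p, X.w (.inr (g, p)) * X.Ns g p + ∑ g, X.z g * X.Qs g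
    < X.D * (X.Q + 1)
  hN : ∀ p, ∑ f, (if X.P (.inl f) = p then X.m f else 0)
    + ∑ g, ∑ q, (if X.P (.inr (g, q)) = p then X.Ns g q else 0) = X.N p
  hd : ∀ p, X.κ p ≠ 0 → X.U (X.d p) ∧ X.P (X.d p) = p

end Vale.Agent.P302.Nest
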