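import Vale.Agent.P302.NestTop

/-!
Boolean checks for the two dual conditions.
-/

namespace Vale.Agent.P302.Nest

open Finset

variable {F G : ℕ}

/-- all classes -/
def allCls (F G : ℕ) : List (Cls F G) :=
  (List.finRange F).map .inl ++ (List.finRange G).flatMap fun g =>
    (List.finRange 3).map fun p => .inr (g, p)

theorem mem_allCls (A : Cls F G) : A ∈ allCls F G := by
  rcases A with f | ⟨g, p⟩ <;> simp [allCls]

/-- `1` if `A = B`, else `0` -/
def isEq {α : Type} [DecidableEq α] (A B : α) : ℕ := if A = B then 1 else 0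

theorem occ_eq {α : Type} [DecidableEq α] (x : Fin 3 → α) (A : α) :
    occ x A = isEq (x 0) A + isEq (x 1) A + isEq (x 2) A := by
  unfold occ isEq
  rw [Finset.card_filter, Fin.sum_univ_three]

/-- the class is used -/
def usedB (κs : Fin G → Fin 3 → ℕ) : Cls F G → Bool
  | .inl _ => true
  | .inr (g, p) => !(κs g p == 0)

theorem usedB_of (X : Lev F G) {A : Cls F G} (h : X.U A) : usedB X.κs A = true := by
  rcases A with f | ⟨g, p⟩
  · rfl
  · simpa [usedB, Lev.U] using h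

/-- check of one triple -/
def triB (κ : Fin 3 → ℕ) (P : Cls F G → Fin 3) (v : Cls F G → ℤ) (w : Cls F G → ℕ) (D : ℕ)
    (κs : Fin G → Fin 3 → ℕ) (z : Fin G → ℕ) (a b c : Cls F G) : Bool :=
  decide (0 < v a + v b + v c) || decide (D ≤ w a + w b + w c) ||
  !(decide (∀ p, isEq (P a) p + isEq (P b) p + isEq (P c) p = κ p)) ||
  (decide (v a + v b + v c = 0) && decide (∃ g, (∀ p, isEq a (.inr (g, p)) + isEq b (.inr (g, p))
    + isEq c (.inr (g, p)) = κs g p) ∧ D ≤ w a + w b + w c + z g))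

/-- check of the dual condition -/
def dualB (κ : Fin 3 → ℕ) (P : Cls F G → Fin 3) (v : Cls F G → ℤ) (w : Cls F G → ℕ) (D : ℕ)
    (κs : Fin G → Fin 3 → ℕ) (z : Fin G → ℕ) : Bool :=
  let l := (allCls F G).filter (usedB κs)
  l.all fun a => l.all fun b => l.all fun c => triB κ P v w D κs z a b c

theorem dual_of (X : Lev F G)
    (h : dualB X.κ X.P X.v X.w X.D X.κs X.z = true) :
    ∀ x : Fin 3 → Cls F G, (∀ i, X.U (x i)) → X.Kd x → ∑ i, X.v (x i) ≤ 0 →
      X.D ≤ ∑ i, X.w (x i) ∨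
        (∑ i, X.v (x i) = 0 ∧ ∃ g, X.Cr g x ∧ X.D ≤ ∑ i, X.w (x i) + X.z g) := by
  intro x hu hk hv
  simp only [dualB, List.all_eq_true] at h
  have h1 := h (x 0) (List.mem_filter.2 ⟨mem_allCls _, usedB_of X (hu 0)⟩)
    (x 1) (List.mem_filter.2 ⟨mem_allCls _, usedB_of X (hu 1)⟩)
    (x 2) (List.mem_filter.2 ⟨mem_allCls _, usedB_of X (hu 2)⟩)
  rw [Fin.sum_univ_three] at hv ⊢
  rw [Fin.sum_univ_three]
  simp only [triB, Bool.or_eq_true, Bool.and_eq_true, Bool.not_eq_true', decide_eq_true_eq,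
    decide_eq_false_iff_not] at h1
  rcases h1 with ((h1 | h1) | h1) | h1
  · omega
  · exact Or.inl h1
  · exact absurd (fun p => by
      have := hk p
      rw [Finset.card_filter, Fin.sum_univ_three] at this
      exact this) h1
  · obtain ⟨h2, g, h3, h4⟩ := h1
    exact Or.inr ⟨h2, g, fun p => by rw [occ_eq]; exact h3 p, h4⟩

instance (X : Lev F G) (x : Fin 3 → Cls F G) : Decidable (X.Kd x) :=
  inferInstanceAs (Decidable (∀ p, (univ.filter fun i => X.P (x i) = p).card = X.κ p))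

/-- check of all other conditions -/
def Lev.arithB (X : Lev F G) : Bool :=
  decide (∀ A, X.U A → X.κ (X.P A) ≠ 0) && decide (∀ g, ∑ p, X.κs g p = 3) &&
  decide (∀ g q, ∑ p, (if X.P (.inr (g, p)) = q then X.κs g p else 0) = X.κ q) &&
  decide (∀ g, ∑ p, (X.κs g p : ℤ) * X.v (.inr (g, p)) = 0) &&
  decide (∀ p ∈ X.c, (∀ i, X.U (fn p.2 i)) ∧ X.Kd (fn p.2) ∧ ∑ i, X.v (fn p.2 i) < 0) &&
  decide (∀ f, (X.c.map fun p => p.1 * occ (fn p.2) (.inl f)).sum
    + (if X.d (X.P (.inl f)) = .inl f then X.r (X.P (.inl f)) else 0) = X.E * X.m f) &&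
  decide (∀ g p, X.κs g p ≠ 0 → (X.c.map fun q => q.1 * occ (fn q.2) (.inr (g, p))).sum
    + (if X.d (X.P (.inr (g, p))) = .inr (g, p) then X.r (X.P (.inr (g, p))) else 0)
      = X.rs g p) &&
  decide ((X.c.map Prod.fst).sum + ∑ g, X.Ls g = X.L) &&
  decide (∑ f, X.w (.inl f) * X.m f + ∑ g, ∑ p, X.w (.inr (g, p)) * X.Ns g p
    + ∑ g, X.z g * X.Qs g < X.D * (X.Q + 1)) &&
  decide (∀ p, ∑ f, (if X.P (.inl f) = p then X.m f else 0)
    + ∑ g, ∑ q, (if X.P (.inr (g, q)) = p then X.Ns g q else 0) = X.N p) &&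
  decide (∀ p, X.κ p ≠ 0 → X.U (X.d p) ∧ X.P (X.d p) = p)

theorem Lev.ok_of (X : Lev F G) (h : dualB X.κ X.P X.v X.w X.D X.κs X.z = true)
    (h' : X.arithB = true) : X.Ok := by
  simp only [Lev.arithB, Bool.and_eq_true, decide_eq_true_eq] at h'
  obtain ⟨⟨⟨⟨⟨⟨⟨⟨⟨⟨h1, h2⟩, h3⟩, h4⟩, h5⟩, h6⟩, h7⟩, h8⟩, h9⟩, h10⟩, h11⟩ := h'
  exact ⟨dual_of X h, h1, h2, h3, h4, h5, h6, h7, h8, h9, h10, h11⟩

/-! ### the top level -/

theorem sum_allCls (f : Cls F G → ℕ) : ∑ A, f A = ((allCls F G).map f).sum := by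
  unfold allCls
  rw [Fintype.sum_sum_type, Fintype.sum_prod_type, List.map_append, List.sum_append,
    sum_flatMap_fin, List.map_map, Fin.sum_univ_def]
  congr 1

/-- enumeration of all multiplicity vectors -/
def enumB {α : Type} (S w : α → ℕ) (leaf : ℕ → ℕ → List ℕ → Bool) :
    List α → ℕ → ℕ → List ℕ → Bool
  | [], rem, wt, acc => leaf rem wt acc
  | A :: l, rem, wt, acc => (List.range (rem / S A + 1)).all fun j =>
      enumB S w leaf l (rem - j * S A) (wt + j * w A) (j :: acc)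

theorem enumB_spec {α : Type} {S w : α → ℕ} (hS : ∀ A, 1 ≤ S A) {leaf : ℕ → ℕ → List ℕ → Bool}
    (k : α → ℕ) : ∀ (l : List α) (rem wt : ℕ) (acc : List ℕ),
    enumB S w leaf l rem wt acc = true → (l.map fun A => k A * S A).sum ≤ rem →
    leaf (rem - (l.map fun A => k A * S A).sum) (wt + (l.map fun A => k A * w A).sum)
      ((l.map k).reverse ++ acc) = true
  | [], rem, wt, acc, h, _ => by simpa [enumB] using h
  | A :: l, rem, wt, acc, h, hr => by
      simp only [enumB, List.all_eq_true, List.mem_range] at h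
      rw [List.map_cons, List.sum_cons] at hr
      have h1 : k A < rem / S A + 1 := by
        rw [Nat.lt_succ_iff, Nat.le_div_iff_mul_le (hS A)]
        omega
      have h2 := enumB_spec hS k l _ _ _ (h (k A) h1) (by omega)
      simp only [List.map_cons, List.sum_cons, List.reverse_cons, List.append_assoc,
        List.singleton_append]
      rw [← Nat.sub_sub, ← Nat.add_assoc]
      exact h2

/-- check of a leaf -/
def leafB (D : ℕ) (z : Fin G → ℕ) (chs : Fin G → List ℕ) (rem wt : ℕ) (acc : List ℕ) : Bool :=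
  decide (wt ≤ D) || (decide (rem = 0) && decide (∃ g, acc = chs g ∧ wt ≤ D + z g))

/-- check of the dual condition of the top level -/
def topB (S w : Cls F G → ℕ) (C D : ℕ) (z : Fin G → ℕ) (chi : Fin G → Cls F G → ℕ) : Bool :=
  enumB S w (leafB D z fun g => ((allCls F G).map (chi g)).reverse) (allCls F G) C 0 []

theorem topdual_of (X : Top F G) (hS : ∀ A, 1 ≤ X.S A)
    (h : topB X.S X.w X.C X.D X.z X.chi = true) :
    ∀ k : Cls F G → ℕ, ∑ A, k A * X.S A ≤ X.C → ∑ A, k A * X.w A ≤ X.D ∨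
      (∑ A, k A * X.S A = X.C ∧ ∃ g, (∀ A, k A = X.chi g A) ∧ ∑ A, k A * X.w A ≤ X.D + X.z g) := by
  intro k hk
  rw [sum_allCls] at hk
  rw [sum_allCls (fun A => k A * X.w A), sum_allCls (fun A => k A * X.S A)]
  have h1 := enumB_spec hS k _ _ _ _ h hk
  simp only [leafB, Bool.or_eq_true, Bool.and_eq_true, decide_eq_true_eq, List.append_nil,
    Nat.zero_add] at h1
  rcases h1 with h1 | ⟨h1, g, h2, h3⟩
  · exact Or.inl h1
  · refine Or.inr ⟨by omega, g, fun A => ?_, h3⟩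
    have h4 := List.reverse_injective h2
    exact List.map_inj_left.1 h4 A (mem_allCls A)

instance (X : Top F G) : DecidablePred X.U
  | .inl _ => inferInstanceAs (Decidable True)
  | .inr (g, p) => inferInstanceAs (Decidable (X.κs g p ≠ 0))

/-- check of all other conditions -/
def Top.arithB (X : Top F G) : Bool :=
  decide (∀ A, 1 ≤ X.S A) && decide (∀ A, X.U A → X.S A < X.C) &&
  decide (∀ g, ∑ p, X.κs g p = 3) && decide (∀ g, ∑ p, X.κs g p * X.S (.inr (g, p)) = X.C) &&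
  decide (∀ p ∈ X.c, (∀ A ∈ p.2, X.U A) ∧ (p.2.map X.S).sum < X.C) &&
  decide (∀ f, X.E * X.m f ≤ (X.c.map fun p => p.1 * cn (.inl f) p.2).sum) &&
  decide (∀ g p, X.κs g p ≠ 0 → X.rs g p ≤ (X.c.map fun q => q.1 * cn (.inr (g, p)) q.2).sum) &&
  decide (X.D * X.K + ∑ g, X.z g * X.Qs g
    < ∑ f, X.w (.inl f) * X.m f + ∑ g, ∑ p, X.w (.inr (g, p)) * X.Ns g p) &&
  decide (0 < X.E)

theorem Top.ok_of (X : Top F G) (h : topB X.S X.w X.C X.D X.z X.chi = true)
    (h' : X.arithB = true) : X.Ok := by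
  simp only [Top.arithB, Bool.and_eq_true, decide_eq_true_eq] at h'
  obtain ⟨⟨⟨⟨⟨⟨⟨⟨h1, h2⟩, h3⟩, h4⟩, h5⟩, h6⟩, h7⟩, h8⟩, h9⟩ := h'
  exact ⟨topdual_of X h1 h, h1, h2, h3, h4, h5, h6, h7, h8, h9⟩

end Vale.Agent.P302.Nest
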