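import Vale.Agent.P302.NestChk

/-!
A faster check of the dual condition of a level.
-/

namespace Vale.Agent.P302.Nest

open Finset

variable {F G : ℕ}

/-- all unordered pairs -/
def all2 {α : Type} (g : α → α → Bool) : List α → Bool
  | [] => true
  | b :: t => (b :: t).all (g b) && all2 g t

/-- all unordered triples -/
def all3 {α : Type} (f : α → α → α → Bool) : List α → Bool
  | [] => true
  | a :: t => all2 (f a) (a :: t) && all3 f t

theorem all2_spec {α : Type} {g : α → α → Bool} : ∀ {l : List α}, all2 g l = true →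
    ∀ b ∈ l, ∀ c ∈ l, g b c = true ∨ g c b = true
  | [], _, b, hb, _, _ => by cases hb
  | a :: t, h, b, hb, c, hc => by
      rw [all2, Bool.and_eq_true, List.all_eq_true] at h
      rcases List.mem_cons.1 hb with rfl | hb'
      · exact Or.inl (h.1 c hc)
      · rcases List.mem_cons.1 hc with rfl | hc'
        · exact Or.inr (h.1 b hb)
        · exact all2_spec h.2 b hb' c hc'

theorem all3_spec {α : Type} {f : α → α → α → Bool} (hf1 : ∀ a b c, f a b c = f b a c)
    (hf2 : ∀ a b c, f a b c = f a c b) : ∀ {l : List α}, all3 f l = true →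
    ∀ a ∈ l, ∀ b ∈ l, ∀ c ∈ l, f a b c = true
  | [], _, a, ha, _, _, _, _ => by cases ha
  | x :: t, h, a, ha, b, hb, c, hc => by
      rw [all3, Bool.and_eq_true] at h
      have key : ∀ b ∈ x :: t, ∀ c ∈ x :: t, f x b c = true := by
        intro b hb c hc
        rcases all2_spec h.1 b hb c hc with h1 | h1
        · exact h1
        · rw [hf2]
          exact h1
      rcases List.mem_cons.1 ha with rfl | ha'
      · exact key b hb c hc
      · rcases List.mem_cons.1 hb with rfl | hb'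
        · rw [hf1]
          exact key a ha c hc
        · rcases List.mem_cons.1 hc with rfl | hc'
          · rw [hf2, hf1]
            exact key a ha b hb
          · exact all3_spec hf1 hf2 h.2 a ha' b hb' c hc'

/-- check of one triple (deviations shifted by `B`) -/
def triN (κ : Fin 3 → ℕ) (P : Cls F G → Fin 3) (vn : Cls F G → ℕ) (B : ℕ) (w : Cls F G → ℕ)
    (D : ℕ) (κs : Fin G → Fin 3 → ℕ) (z : Fin G → ℕ) (a b c : Cls F G) : Bool :=
  Nat.ble (B + 1) (vn a + vn b + vn c) || Nat.ble D (w a + w b + w c) ||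
  !(decide (∀ p, isEq (P a) p + isEq (P b) p + isEq (P c) p = κ p)) ||
  (Nat.beq (vn a + vn b + vn c) B && decide (∃ g, (∀ p, isEq a (.inr (g, p)) +
    isEq b (.inr (g, p)) + isEq c (.inr (g, p)) = κs g p) ∧ D ≤ w a + w b + w c + z g))

theorem triN_swap1 (κ : Fin 3 → ℕ) (P : Cls F G → Fin 3) (vn : Cls F G → ℕ) (B : ℕ)
    (w : Cls F G → ℕ) (D : ℕ) (κs : Fin G → Fin 3 → ℕ) (z : Fin G → ℕ) (a b c : Cls F G) :
    triN κ P vn B w D κs z a b c = triN κ P vn B w D κs z b a c := by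
  unfold triN
  rw [Nat.add_comm (vn a) (vn b), Nat.add_comm (w a) (w b)]
  congr 3
  · congr 1
    simp only [Nat.add_comm (isEq (P a) _) (isEq (P b) _)]
  · simp only [Nat.add_comm (isEq a _) (isEq b _)]

theorem triN_swap2 (κ : Fin 3 → ℕ) (P : Cls F G → Fin 3) (vn : Cls F G → ℕ) (B : ℕ)
    (w : Cls F G → ℕ) (D : ℕ) (κs : Fin G → Fin 3 → ℕ) (z : Fin G → ℕ) (a b c : Cls F G) :
    triN κ P vn B w D κs z a b c = triN κ P vn B w D κs z a c b := by
  unfold triN
  rw [Nat.add_right_comm (vn a) (vn b), Nat.add_right_comm (w a) (w b)]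
  congr 3
  · congr 1
    simp only [Nat.add_right_comm (isEq (P a) _) (isEq (P b) _)]
  · simp only [Nat.add_right_comm (isEq a _) (isEq b _)]

/-- check of the dual condition -/
def dualN (κ : Fin 3 → ℕ) (P : Cls F G → Fin 3) (vn : Cls F G → ℕ) (B : ℕ) (w : Cls F G → ℕ)
    (D : ℕ) (κs : Fin G → Fin 3 → ℕ) (z : Fin G → ℕ) : Bool :=
  all3 (triN κ P vn B w D κs z) ((allCls F G).filter (usedB κs))

theorem dualN_of (X : Lev F G) {vn : Cls F G → ℕ} {B : ℕ} (hv : ∀ A, 3 * X.v A = 3 * vn A - B)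
    (h : dualN X.κ X.P vn B X.w X.D X.κs X.z = true) :
    ∀ x : Fin 3 → Cls F G, (∀ i, X.U (x i)) → X.Kd x → ∑ i, X.v (x i) ≤ 0 →
      X.D ≤ ∑ i, X.w (x i) ∨
        (∑ i, X.v (x i) = 0 ∧ ∃ g, X.Cr g x ∧ X.D ≤ ∑ i, X.w (x i) + X.z g) := by
  intro x hu hk hx
  have h1 := all3_spec (triN_swap1 _ _ _ _ _ _ _ _) (triN_swap2 _ _ _ _ _ _ _ _) h
    (x 0) (List.mem_filter.2 ⟨mem_allCls _, usedB_of X (hu 0)⟩)
    (x 1) (List.mem_filter.2 ⟨mem_allCls _, usedB_of X (hu 1)⟩)
    (x 2) (List.mem_filter.2 ⟨mem_allCls _, usedB_of X (hu 2)⟩)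
  rw [Fin.sum_univ_three] at hx ⊢
  rw [Fin.sum_univ_three]
  have e0 := hv (x 0)
  have e1 := hv (x 1)
  have e2 := hv (x 2)
  simp only [triN, Bool.or_eq_true, Bool.and_eq_true, Bool.not_eq_true', decide_eq_true_eq,
    decide_eq_false_iff_not, Nat.ble_eq, Nat.beq_eq] at h1
  rcases h1 with ((h1 | h1) | h1) | h1
  · omega
  · exact Or.inl h1
  · exact absurd (fun p => by
      have := hk p
      rw [Finset.card_filter, Fin.sum_univ_three] at this
      exact this) h1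
  · obtain ⟨h2, g, h3, h4⟩ := h1
    exact Or.inr ⟨by omega, g, fun p => by rw [occ_eq]; exact h3 p, h4⟩

theorem Lev.ok_ofN (X : Lev F G) {vn : Cls F G → ℕ} {B : ℕ} (hv : ∀ A, 3 * X.v A = 3 * vn A - B)
    (h : dualN X.κ X.P vn B X.w X.D X.κs X.z = true) (h' : X.arithB = true) : X.Ok := by
  simp only [Lev.arithB, Bool.and_eq_true, decide_eq_true_eq] at h'
  obtain ⟨⟨⟨⟨⟨⟨⟨⟨⟨⟨h1, h2⟩, h3⟩, h4⟩, h5⟩, h6⟩, h7⟩, h8⟩, h9⟩, h10⟩, h11⟩ := h'
  exact ⟨dualN_of X hv h, h1, h2, h3, h4, h5, h6, h7, h8, h9, h10, h11⟩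

end Vale.Agent.P302.Nest
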