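import Vale.Agent.P302.Nest

/-!
Composition of systems.
-/

namespace Vale.Agent.P302.Nest

open Finset

section occ

variable {T : Type} [Fintype T] [DecidableEq T]

theorem sum_occ (f : T → ℕ) (x : Fin 3 → T) : ∑ t, f t * occ x t = ∑ i, f (x i) := by
  unfold occ
  simp only [Finset.card_filter, Finset.mul_sum]
  rw [Finset.sum_comm]
  refine Finset.sum_congr rfl fun i _ => ?_
  simp

theorem sum_list_occ (f : T → ℕ) (l : List (Fin 3 → T)) :
    (l.map fun x => ∑ i, f (x i)).sum = ∑ t, f t * (l.map fun x => occ x t).sum := by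
  induction l with
  | nil => simp
  | cons x l ih =>
      simp only [List.map_cons, List.sum_cons, ih, mul_add, Finset.sum_add_distrib, sum_occ]

end occ

variable {F G : ℕ}

/-- the item types of the composed system -/
abbrev TT (F : ℕ) (S : Fin G → Sys) : Type := Fin F ⊕ (Σ g, (S g).T)

/-- the class of a type -/
def cls {F : ℕ} (S : Fin G → Sys) : TT F S → Cls F G
  | .inl f => .inl f
  | .inr ⟨g, t⟩ => .inr (g, (S g).part t)

/-- the representative of a class -/
def rep {F : ℕ} (S : Fin G → Sys) : Cls F G → TT F S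
  | .inl f => .inl f
  | .inr (g, p) => .inr ⟨g, (S g).d p⟩

/-- the fine deviation -/
def fine {F : ℕ} (S : Fin G → Sys) : TT F S → ℤ
  | .inl _ => 0
  | .inr ⟨g, t⟩ => (S g).a t

/-- bound for all fine deviations -/
def bd (F : ℕ) (S : Fin G → Sys) : ℤ := ∑ t : TT F S, |fine S t|

/-- the composed system -/
abbrev Lev.sys (X : Lev F G) (S : Fin G → Sys) : Sys where
  T := TT F S
  part t := X.P (cls S t)
  a t := (3 * bd F S + 1) * X.v (cls S t) + fine S t
  n := Sum.elim X.m fun t => (S t.1).n t.2
  d p := rep S (X.d p)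

theorem bd_nonneg (S : Fin G → Sys) : 0 ≤ bd F S := Finset.sum_nonneg fun _ _ => abs_nonneg _

theorem fine_le (S : Fin G → Sys) (t : TT F S) : |fine S t| ≤ bd F S :=
  Finset.single_le_sum (f := fun t : TT F S => |fine S t|) (fun _ _ => abs_nonneg _)
    (Finset.mem_univ t)

theorem fine_sum_le (S : Fin G → Sys) (x : Fin 3 → TT F S) :
    |∑ i, fine S (x i)| ≤ 3 * bd F S := by
  refine (Finset.abs_sum_le_sum_abs _ _).trans ?_
  refine (Finset.sum_le_sum fun i _ => fine_le S (x i)).trans ?_
  simp

open Classical in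
/-- the triple of the subsystem `g` inside a triple of the composed system -/
noncomputable def ext (κs : Fin G → Fin 3 → ℕ) (S : Fin G → Sys) (g : Fin G)
    (x : Fin 3 → TT F S) : Option (Fin 3 → (S g).T) :=
  if h : ∃ y : Fin 3 → (S g).T, (∀ i, x i = .inr ⟨g, y i⟩) ∧ (S g).Good (κs g) y
  then some h.choose else none

theorem ext_spec {κs : Fin G → Fin 3 → ℕ} {S : Fin G → Sys} {g : Fin G} {x : Fin 3 → TT F S}
    {y : Fin 3 → (S g).T} (h : ext κs S g x = some y) :
    (∀ i, x i = .inr ⟨g, y i⟩) ∧ (S g).Good (κs g) y := by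
  unfold ext at h
  split_ifs at h with h1
  rw [Option.some.injEq] at h
  rw [← h]
  exact h1.choose_spec

theorem ext_isSome {κs : Fin G → Fin 3 → ℕ} {S : Fin G → Sys} {g : Fin G} {x : Fin 3 → TT F S}
    {y : Fin 3 → (S g).T} (h1 : ∀ i, x i = .inr ⟨g, y i⟩) (h2 : (S g).Good (κs g) y) :
    (ext κs S g x).isSome = true := by
  unfold ext
  rw [dif_pos ⟨y, h1, h2⟩]
  rfl

theorem occ_inr (S : Fin G → Sys) (g : Fin G) (y : Fin 3 → (S g).T) (x : Fin 3 → TT F S)
    (h : ∀ i, x i = .inr ⟨g, y i⟩) (t : (S g).T) : occ x (.inr ⟨g, t⟩) = occ y t := by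
  unfold occ
  congr 1
  ext i
  simp [h i]

theorem filterMap_occ (κs : Fin G → Fin 3 → ℕ) (S : Fin G → Sys) (g : Fin G) (t : (S g).T) :
    ∀ l : List (Fin 3 → TT F S), ((l.filterMap (ext κs S g)).map fun y => occ y t).sum
      ≤ (l.map fun x => occ x (.inr ⟨g, t⟩)).sum
  | [] => by simp
  | x :: l => by
      have ih := filterMap_occ κs S g t l
      rcases h : ext κs S g x with _ | y
      · rw [List.filterMap_cons_none h, List.map_cons, List.sum_cons]
        omega
      · rw [List.filterMap_cons_some h, List.map_cons, List.sum_cons, List.map_cons, List.sum_cons,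
          occ_inr S g y x (ext_spec h).1]
        omega

theorem filterMap_length (κs : Fin G → Fin 3 → ℕ) (S : Fin G → Sys) (g : Fin G) :
    ∀ l : List (Fin 3 → TT F S), (l.filterMap (ext κs S g)).length
      = (l.map fun x => if (ext κs S g x).isSome then 1 else 0).sum
  | [] => by simp
  | x :: l => by
      have ih := filterMap_length κs S g l
      rcases h : ext κs S g x with _ | y
      · rw [List.filterMap_cons_none h, List.map_cons, List.sum_cons, h, ih]
        simp
      · rw [List.filterMap_cons_some h, List.map_cons, List.sum_cons, h, List.length_cons, ih]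
        simp
        omega

/-- the number of critical triples of subsystem `g` is at most `Q g` -/
theorem crit_le {κs : Fin G → Fin 3 → ℕ} {S : Fin G → Sys} {Q E L : ℕ} {N r : Fin 3 → ℕ}
    {g : Fin G} (h : (S g).Ok (κs g) Q E L N r) (l : List (Fin 3 → TT F S))
    (hl : ∀ t, (l.map fun x => occ x (.inr ⟨g, t⟩)).sum ≤ (S g).n t) :
    (l.map fun x => if (ext κs S g x).isSome then 1 else 0).sum ≤ Q := by
  rw [← filterMap_length]
  refine h.int _ ?_ fun t => (filterMap_occ κs S g t l).trans (hl t)
  intro y hy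
  obtain ⟨x, _, hx⟩ := List.mem_filterMap.1 hy
  exact (ext_spec hx).2

/-- all three slots of a critical triple belong to the subsystem -/
theorem cr_all {X : Lev F G} (h3 : ∀ g, ∑ p, X.κs g p = 3) {g : Fin G} {x : Fin 3 → Cls F G}
    (h : X.Cr g x) (i : Fin 3) : ∃ p, x i = .inr (g, p) := by
  by_contra hc
  push Not at hc
  have h1 : ∑ p, occ x (.inr (g, p)) = 3 :=
    (Finset.sum_congr rfl fun p _ => h p).trans (h3 g)
  have h2 : ∑ p, occ x (.inr (g, p)) ≤ ((univ : Finset (Fin 3)).erase i).card := by
    unfold occ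
    rw [← Finset.card_biUnion]
    · refine Finset.card_le_card ?_
      intro j hj
      simp only [Finset.mem_biUnion, Finset.mem_filter, Finset.mem_univ, true_and] at hj
      obtain ⟨p, hp⟩ := hj
      refine Finset.mem_erase.2 ⟨?_, Finset.mem_univ _⟩
      rintro rfl
      exact hc p hp
    · intro p _ q _ hpq
      refine Finset.disjoint_filter.2 ?_
      intro j _ h1 h2
      rw [h1] at h2
      simp only [Sum.inr.injEq, Prod.mk.injEq, true_and] at h2
      exact hpq h2
  rw [Finset.card_erase_of_mem (Finset.mem_univ _)] at h2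
  simp at h2
  omega

variable (X : Lev F G) (S : Fin G → Sys)

/-- all hypotheses on the subsystems -/
def Lev.Sub : Prop :=
  ∀ g, (S g).Ok (X.κs g) (X.Qs g) X.E (X.Ls g) (X.Ns g) (X.rs g)

variable {X S}

theorem used_cls (hS : X.Sub S) (t : TT F S) : X.U (cls S t) := by
  rcases t with f | ⟨g, t⟩
  · trivial
  · exact (hS g).part_mem t

theorem coarse (x : Fin 3 → TT F S) :
    ∑ i, (X.sys S).a (x i)
      = (3 * bd F S + 1) * ∑ i, X.v (cls S (x i)) + ∑ i, fine S (x i) := by
  rw [Finset.mul_sum, ← Finset.sum_add_distrib]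

/-- the key inequality for a single triple -/
theorem key (hX : X.Ok) (hS : X.Sub S) (x : Fin 3 → TT F S) (hx : (X.sys S).Good X.κ x) :
    X.D ≤ ∑ i, X.w (cls S (x i))
      + ∑ g, X.z g * (if (ext X.κs S g x).isSome then 1 else 0) := by
  obtain ⟨h1, h2⟩ := hx
  rw [coarse] at h2
  have h3 := abs_le.1 (fine_sum_le S x)
  have h4 := bd_nonneg (F := F) S
  have h5 : ∑ i, X.v (cls S (x i)) ≤ 0 := by
    by_contra hc
    nlinarith [h3.1]
  rcases hX.dual (fun i => cls S (x i)) (fun i => used_cls hS (x i)) h1 h5 with h6 | ⟨h6, g, h7, h8⟩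
  · omega
  · have h9 : ∀ i, ∃ t : (S g).T, x i = .inr ⟨g, t⟩ := by
      intro i
      obtain ⟨p, hp⟩ := cr_all hX.kap3 h7 i
      rcases hxi : x i with f | ⟨g', t⟩
      · rw [hxi] at hp
        simp [cls] at hp
      · rw [hxi] at hp
        simp only [cls, Sum.inr.injEq, Prod.mk.injEq] at hp
        obtain ⟨rfl, _⟩ := hp
        exact ⟨t, rfl⟩
    choose y hy using h9
    have h10 : (S g).Good (X.κs g) y := by
      refine ⟨fun p => ?_, ?_⟩
      · rw [← h7 p]
        unfold occ
        congr 1
        ext i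
        simp only [Finset.mem_filter, Finset.mem_univ, true_and]
        rw [hy i]
        simp [cls]
      · rw [h6] at h2
        have : ∑ i, (S g).a (y i) = ∑ i, fine S (x i) :=
          Finset.sum_congr rfl fun i _ => by rw [hy i]; rfl
        rw [this]
        linarith
    have h11 : (ext X.κs S g x).isSome = true := ext_isSome hy h10
    have h12 : X.z g ≤ ∑ g, X.z g * (if (ext X.κs S g x).isSome then 1 else 0) := by
      refine le_trans (le_of_eq ?_) (Finset.single_le_sum
        (f := fun g => X.z g * (if (ext X.κs S g x).isSome then 1 else 0))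
        (fun _ _ => Nat.zero_le _) (Finset.mem_univ g))
      simp [h11]
    omega

theorem sum_sigma_w (hS : X.Sub S) : ∑ t : TT F S, X.w (cls S t) * (X.sys S).n t
    = ∑ f, X.w (.inl f) * X.m f + ∑ g, ∑ p, X.w (.inr (g, p)) * X.Ns g p := by
  rw [Fintype.sum_sum_type, Fintype.sum_sigma]
  congr 1
  refine Finset.sum_congr rfl fun g _ => ?_
  rw [← Finset.sum_fiberwise (s := (univ : Finset (S g).T)) (g := (S g).part)]
  refine Finset.sum_congr rfl fun p _ => ?_
  rw [← (hS g).hN p, Finset.mul_sum]
  refine Finset.sum_congr rfl fun t ht => ?_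
  rw [← (Finset.mem_filter.1 ht).2]
  rfl

theorem comp_int (hX : X.Ok) (hS : X.Sub S) (l : List (Fin 3 → TT F S))
    (hl : ∀ x ∈ l, (X.sys S).Good X.κ x)
    (hn : ∀ t, (l.map fun x => occ x t).sum ≤ (X.sys S).n t) : l.length ≤ X.Q := by
  have h1 : X.D * l.length ≤ (l.map fun x => ∑ i, X.w (cls S (x i))
      + ∑ g, X.z g * (if (ext X.κs S g x).isSome then 1 else 0)).sum := by
    have := List.card_nsmul_le_sum (l.map fun x => ∑ i, X.w (cls S (x i))
      + ∑ g, X.z g * (if (ext X.κs S g x).isSome then 1 else 0)) X.D (by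
        intro y hy
        obtain ⟨x, hx, rfl⟩ := List.mem_map.1 hy
        exact key hX hS x (hl x hx))
    rw [List.length_map, smul_eq_mul, mul_comm] at this
    exact this
  rw [List.sum_map_add, sum_list_occ (fun t => X.w (cls S t))] at h1
  have h2 : ∑ t, X.w (cls S t) * (l.map fun x => occ x t).sum
      ≤ ∑ f, X.w (.inl f) * X.m f + ∑ g, ∑ p, X.w (.inr (g, p)) * X.Ns g p := by
    rw [← sum_sigma_w hS]
    exact Finset.sum_le_sum fun t _ => Nat.mul_le_mul_left _ (hn t)
  have h3 : (l.map fun x => ∑ g, X.z g * (if (ext X.κs S g x).isSome then 1 else 0)).sum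
      ≤ ∑ g, X.z g * X.Qs g := by
    have h4 : (l.map fun x => ∑ g, X.z g * (if (ext X.κs S g x).isSome then 1 else 0)).sum
        = ∑ g, X.z g * (l.map fun x => if (ext X.κs S g x).isSome then 1 else 0).sum := by
      clear h1 h2 hl hn
      induction l with
      | nil => simp
      | cons x l ih =>
          simp only [List.map_cons, List.sum_cons, ih, mul_add, Finset.sum_add_distrib]
    rw [h4]
    exact Finset.sum_le_sum fun g _ => Nat.mul_le_mul_left _
      (crit_le (hS g) l fun t => hn (.inr ⟨g, t⟩))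
  have h5 := hX.hQ
  have h6 : X.D * l.length < X.D * (X.Q + 1) := by omega
  have h7 := lt_of_mul_lt_mul_left h6 (Nat.zero_le _)
  omega

/-! ### the fractional side -/

/-- the fractional family of the composed system -/
def compC (X : Lev F G) (S : Fin G → Sys) (c : ∀ g, List (ℕ × (Fin 3 → (S g).T))) :
    List (ℕ × (Fin 3 → TT F S)) :=
  (X.c.map fun p => (p.1, fun i => rep S (fn p.2 i)))
    ++ (List.finRange G).flatMap fun g => (c g).map fun p => (p.1, fun i => .inr ⟨g, p.2 i⟩)

theorem good_strict (hX : X.Ok) (hS : X.Sub S) {p : ℕ × (Cls F G × Cls F G × Cls F G)}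
    (hp : p ∈ X.c) : (X.sys S).Good X.κ (fun i => rep S (fn p.2 i)) := by
  obtain ⟨h1, h2, h3⟩ := hX.cOk p hp
  have h4 : ∀ i, cls S (rep S (fn p.2 i)) = fn p.2 i := by
    intro i
    have h5 := h1 i
    rcases hfi : fn p.2 i with f | ⟨g, q⟩
    · rfl
    · rw [hfi] at h5
      simp only [rep, cls, Sum.inr.injEq, Prod.mk.injEq, true_and]
      exact (hS g).hd q h5
  refine ⟨fun q => ?_, ?_⟩
  · rw [← h2 q]
    congr 1
    ext i
    simp only [Finset.mem_filter, Finset.mem_univ, true_and]
    rw [h4 i]
  · rw [coarse]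
    have h5 := abs_le.1 (fine_sum_le S fun i => rep S (fn p.2 i))
    have h6 := bd_nonneg (F := F) S
    simp only [h4]
    nlinarith [h5.2]

theorem good_crit (hX : X.Ok) {g : Fin G} {y : Fin 3 → (S g).T} (hy : (S g).Good (X.κs g) y) :
    (X.sys S).Good X.κ (fun i => .inr ⟨g, y i⟩) := by
  obtain ⟨h1, h2⟩ := hy
  have h3 : ∀ f : Fin 3 → ℤ, ∑ i, f ((S g).part (y i)) = ∑ p, (X.κs g p : ℤ) * f p := by
    intro f
    rw [← Finset.sum_fiberwise (s := (univ : Finset (Fin 3))) (g := fun i => (S g).part (y i))]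
    refine Finset.sum_congr rfl fun p _ => ?_
    rw [← h1 p, Finset.card_eq_sum_ones, Nat.cast_sum, Finset.sum_mul]
    refine Finset.sum_congr rfl fun i hi => ?_
    rw [(Finset.mem_filter.1 hi).2]
    simp
  refine ⟨fun q => ?_, ?_⟩
  · rw [← hX.kapg g q, Finset.card_filter]
    have h4 := h3 fun p => if X.P (.inr (g, p)) = q then 1 else 0
    have h5 : (∑ i : Fin 3, (if (X.sys S).part (Sum.inr ⟨g, y i⟩) = q then 1 else 0) : ℤ)
        = ∑ p, (X.κs g p : ℤ) * (if X.P (.inr (g, p)) = q then 1 else 0) := h4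
    have h6 : ((∑ i : Fin 3, (if (X.sys S).part (Sum.inr ⟨g, y i⟩) = q then 1 else 0) : ℕ) : ℤ)
        = ((∑ p, (if X.P (.inr (g, p)) = q then X.κs g p else 0) : ℕ) : ℤ) := by
      push_cast
      rw [h5]
      refine Finset.sum_congr rfl fun p _ => ?_
      split_ifs <;> simp
    exact_mod_cast h6
  · rw [coarse]
    have h4 : ∑ i, X.v (cls S (Sum.inr ⟨g, y i⟩ : TT F S)) = 0 := by
      rw [← hX.crit g]
      exact h3 fun p => X.v (.inr (g, p))
    rw [h4, mul_zero, zero_add]
    exact h2

theorem occ_rep_inl (S : Fin G → Sys) (x : Fin 3 → Cls F G) (f : Fin F) :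
    occ (fun i => rep S (x i)) (.inl f) = occ x (.inl f) := by
  unfold occ
  congr 1
  ext i
  simp only [Finset.mem_filter, Finset.mem_univ, true_and]
  rcases x i with f' | ⟨g, q⟩ <;> simp [rep]

theorem occ_rep_inr (hS : X.Sub S) (x : Fin 3 → Cls F G) (hx : ∀ i, X.U (x i)) (g : Fin G)
    (t : (S g).T) : occ (fun i => rep S (x i)) (.inr ⟨g, t⟩)
      = if (S g).d ((S g).part t) = t then occ x (.inr (g, (S g).part t)) else 0 := by
  have h1 : ∀ i, (rep S (x i) = (.inr ⟨g, t⟩ : TT F S)) ↔
      (S g).d ((S g).part t) = t ∧ x i = .inr (g, (S g).part t) := by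
    intro i
    have h2 := hx i
    rcases hxi : x i with f' | ⟨g', q⟩
    · simp [rep]
    · rw [hxi] at h2
      simp only [rep, Sum.inr.injEq, Sigma.mk.injEq, Prod.mk.injEq]
      constructor
      · rintro ⟨rfl, h3⟩
        have h3 := eq_of_heq h3
        have h4 : (S g').part t = q := by rw [← h3]; exact (hS g').hd q h2
        rw [h4]
        exact ⟨h3, rfl, rfl⟩
      · rintro ⟨h3, rfl, rfl⟩
        exact ⟨rfl, heq_of_eq h3⟩
  unfold occ
  simp only [h1]
  split_ifs with h
  · congr 1
    ext i
    simp [h]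
  · simp [h]

theorem comp_use (hX : X.Ok) (hS : X.Sub S) (c : ∀ g, List (ℕ × (Fin 3 → (S g).T)))
    (hc : ∀ g t, ((c g).map fun p => p.1 * occ p.2 t).sum
      + (if (S g).d ((S g).part t) = t then X.rs g ((S g).part t) else 0) = X.E * (S g).n t)
    (t : TT F S) : ((compC X S c).map fun p => p.1 * occ p.2 t).sum
      + (if (X.sys S).d ((X.sys S).part t) = t then X.r ((X.sys S).part t) else 0)
      = X.E * (X.sys S).n t := by
  unfold compC
  rw [List.map_append, List.sum_append, List.map_map, List.map_flatMap]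
  rcases t with f | ⟨g, t⟩
  · have h1 : ((List.finRange G).flatMap fun g => ((c g).map fun p =>
        (p.1, fun i => (.inr ⟨g, p.2 i⟩ : TT F S))).map fun p => p.1 * occ p.2 (.inl f)).sum
        = 0 := by
      refine List.sum_eq_zero ?_
      intro y hy
      obtain ⟨g, _, hy⟩ := List.mem_flatMap.1 hy
      rw [List.map_map] at hy
      obtain ⟨p, _, rfl⟩ := List.mem_map.1 hy
      simp [occ]
    rw [h1, add_zero]
    have h2 : ((fun p : ℕ × (Fin 3 → TT F S) => p.1 * occ p.2 (.inl f)) ∘
        fun p : ℕ × (Cls F G × Cls F G × Cls F G) => (p.1, fun i => rep S (fn p.2 i)))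
        = fun p => p.1 * occ (fn p.2) (.inl f) := by
      funext p
      simp only [Function.comp, occ_rep_inl]
    rw [h2]
    have h3 : ((X.sys S).d ((X.sys S).part (.inl f)) = (.inl f : TT F S)) ↔
        X.d (X.P (.inl f)) = .inl f := by
      change (rep S (X.d (X.P (.inl f))) = _) ↔ _
      rcases X.d (X.P (.inl f)) with f' | ⟨g', q⟩ <;> simp [rep]
    have h4 := hX.useF f
    simp only [h3]
    exact h4
  · have h1 : ((List.finRange G).flatMap fun g' => ((c g').map fun p =>
        (p.1, fun i => (.inr ⟨g', p.2 i⟩ : TT F S))).map fun p => p.1 * occ p.2 (.inr ⟨g, t⟩)).sum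
        = ((c g).map fun p => p.1 * occ p.2 t).sum := by
      have h2 : ∀ g', (((c g').map fun p => (p.1, fun i => (.inr ⟨g', p.2 i⟩ : TT F S))).map
          fun p => p.1 * occ p.2 (.inr ⟨g, t⟩)).sum
          = if g' = g then ((c g).map fun p => p.1 * occ p.2 t).sum else 0 := by
        intro g'
        rw [List.map_map]
        split_ifs with h
        · subst h
          congr 1
          refine List.map_congr_left fun p _ => ?_
          simp only [Function.comp]
          congr 1
          unfold occ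
          congr 1
          ext i
          simp
        · refine List.sum_eq_zero ?_
          intro y hy
          obtain ⟨p, _, rfl⟩ := List.mem_map.1 hy
          simp [occ, h]
      rw [List.flatMap, List.sum_flatten, List.map_map]
      have h3 : (List.sum ∘ fun g' => ((c g').map fun p =>
          (p.1, fun i => (.inr ⟨g', p.2 i⟩ : TT F S))).map fun p => p.1 * occ p.2 (.inr ⟨g, t⟩))
          = fun g' => if g' = g then ((c g).map fun p => p.1 * occ p.2 t).sum else 0 := by
        funext g'
        exact h2 g'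
      rw [h3, ← List.ofFn_id G, List.map_ofFn, List.sum_ofFn]
      simp
    rw [h1]
    have h2 : (X.c.map ((fun p : ℕ × (Fin 3 → TT F S) => p.1 * occ p.2 (.inr ⟨g, t⟩)) ∘
        fun p : ℕ × (Cls F G × Cls F G × Cls F G) => (p.1, fun i => rep S (fn p.2 i)))).sum
        = if (S g).d ((S g).part t) = t then
          (X.c.map fun p => p.1 * occ (fn p.2) (.inr (g, (S g).part t))).sum else 0 := by
      have h3 : ∀ p ∈ X.c, ((fun p : ℕ × (Fin 3 → TT F S) => p.1 * occ p.2 (.inr ⟨g, t⟩)) ∘
          fun p : ℕ × (Cls F G × Cls F G × Cls F G) => (p.1, fun i => rep S (fn p.2 i))) p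
          = if (S g).d ((S g).part t) = t then p.1 * occ (fn p.2) (.inr (g, (S g).part t))
            else 0 := by
        intro p hp
        simp only [Function.comp, occ_rep_inr hS (fn p.2) (hX.cOk p hp).1 g t]
        split_ifs <;> simp
      rw [List.map_congr_left h3]
      split_ifs
      · rfl
      · simp
    rw [h2]
    have h3 : (rep S (X.d (X.P (.inr (g, (S g).part t)))) = (.inr ⟨g, t⟩ : TT F S)) ↔
        (S g).d ((S g).part t) = t ∧
          X.d (X.P (.inr (g, (S g).part t))) = .inr (g, (S g).part t) := by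
      have h4 : X.U (X.d (X.P (.inr (g, (S g).part t)))) := by
        refine (hX.hd _ ?_).1
        exact hX.kap _ ((hS g).part_mem t)
      rcases hd : X.d (X.P (.inr (g, (S g).part t))) with f' | ⟨g', q⟩
      · simp [rep]
      · rw [hd] at h4
        simp only [rep, Sum.inr.injEq, Sigma.mk.injEq, Prod.mk.injEq]
        constructor
        · rintro ⟨rfl, h5⟩
          have h5 := eq_of_heq h5
          have h6 : (S g').part t = q := by rw [← h5]; exact (hS g').hd q h4
          rw [h6]
          exact ⟨h5, rfl, rfl⟩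
        · rintro ⟨h5, rfl, rfl⟩
          exact ⟨rfl, heq_of_eq h5⟩
    have h4 := hX.useG g ((S g).part t) ((hS g).part_mem t)
    have h5 := hc g t
    have h7 : (X.sys S).n (.inr ⟨g, t⟩) = (S g).n t := rfl
    rw [h7, ← h5]
    have h9 : cls S (Sum.inr ⟨g, t⟩ : TT F S) = .inr (g, (S g).part t) := rfl
    simp only [h9]
    simp only [h3]
    by_cases h8 : (S g).d ((S g).part t) = t
    · have h10 : ((S g).d ((S g).part t) = t) = True := eq_true h8
      simp only [h10, true_and, if_true]
      simp only [h10, if_true] at h5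
      omega
    · have h10 : ((S g).d ((S g).part t) = t) = False := eq_false h8
      simp only [h10, false_and, if_false]
      simp only [h10, if_false] at h5
      omega

theorem comp_N (hS : X.Sub S) (p : Fin 3) :
    ∑ t ∈ univ.filter (fun t => (X.sys S).part t = p), (X.sys S).n t
      = ∑ f, (if X.P (.inl f) = p then X.m f else 0)
        + ∑ g, ∑ q, (if X.P (.inr (g, q)) = p then X.Ns g q else 0) := by
  rw [Finset.sum_filter]
  change ∑ t : TT F S, _ = _
  rw [Fintype.sum_sum_type, Fintype.sum_sigma]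
  congr 1
  refine Finset.sum_congr rfl fun g _ => ?_
  rw [← Finset.sum_fiberwise (s := (univ : Finset (S g).T)) (g := (S g).part)]
  refine Finset.sum_congr rfl fun q _ => ?_
  rw [← (hS g).hN q]
  by_cases h : X.P (.inr (g, q)) = p
  · rw [if_pos h]
    refine Finset.sum_congr rfl fun t ht => ?_
    rw [if_pos]
    · rfl
    · change X.P (.inr (g, (S g).part t)) = p
      rw [(Finset.mem_filter.1 ht).2, h]
  · rw [if_neg h]
    refine Finset.sum_eq_zero fun t ht => ?_
    rw [if_neg]
    change ¬ X.P (.inr (g, (S g).part t)) = p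
    rw [(Finset.mem_filter.1 ht).2]
    exact h

/-- **Composition of systems.** -/
theorem Lev.Ok.comp {X : Lev F G} (hX : X.Ok)
    (h : ∀ g, HasSys (X.κs g) (X.Qs g) X.E (X.Ls g) (X.Ns g) (X.rs g)) :
    HasSys X.κ X.Q X.E X.L X.N X.r := by
  choose S hS using h
  have hS : X.Sub S := hS
  choose c hc1 hc2 hc3 using fun g => (hS g).lp
  refine ⟨X.sys S, ?_, ?_, ?_, ?_, compC X S c, ?_, ?_, ?_⟩
  · intro t
    exact hX.kap _ (used_cls hS t)
  · intro p hp
    obtain ⟨h1, h2⟩ := hX.hd p hp
    change X.P (cls S (rep S (X.d p))) = p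
    have h3 : cls S (rep S (X.d p)) = X.d p := by
      rcases hd : X.d p with f | ⟨g, q⟩
      · rfl
      · rw [hd] at h1
        simp only [rep, cls, Sum.inr.injEq, Prod.mk.injEq, true_and]
        exact (hS g).hd q h1
    rw [h3, h2]
  · intro p
    rw [comp_N hS p, hX.hN p]
  · intro l hl hn
    exact comp_int hX hS l hl hn
  · intro p hp
    rcases List.mem_append.1 hp with hp | hp
    · obtain ⟨q, hq, rfl⟩ := List.mem_map.1 hp
      exact good_strict hX hS hq
    · obtain ⟨g, _, hp⟩ := List.mem_flatMap.1 hp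
      obtain ⟨q, hq, rfl⟩ := List.mem_map.1 hp
      exact good_crit hX (hc1 g q hq)
  · unfold compC
    rw [List.map_append, List.sum_append, List.map_map, List.map_flatMap, ← hX.hL]
    congr 1
    rw [List.flatMap, List.sum_flatten, List.map_map]
    have h3 : (List.sum ∘ fun g => ((c g).map fun p =>
          (p.1, fun i => (.inr ⟨g, p.2 i⟩ : TT F S))).map Prod.fst) = X.Ls := by
      funext g
      simp only [Function.comp, List.map_map]
      rw [← hc2 g]
      rfl
    rw [h3, ← List.ofFn_id G, List.map_ofFn, List.sum_ofFn]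
    simp
  · exact fun t => comp_use hX hS c hc3 t

end Vale.Agent.P302.Nest
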