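import Vale.Agent.P302.NestComp

/-!
From systems to bin packing instances.
-/

namespace Vale.Agent.P302.Nest

open Finset

/-! ### lists of typed items -/

/-- number of occurrences in a list -/
def cn {α : Type} [DecidableEq α] (a : α) : List α → ℕ
  | [] => 0
  | b :: l => (if b = a then 1 else 0) + cn a l

section typed

variable {T : Type} [Fintype T] [DecidableEq T]

/-- all items, sorted by type -/
noncomputable def allItems (n : T → ℕ) : List T :=
  (univ : Finset T).toList.flatMap fun t => List.replicate (n t) t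

theorem count_flatMap_replicate (n : T → ℕ) (t : T) : ∀ l : List T, l.Nodup →
    (l.flatMap fun t => List.replicate (n t) t).count t = if t ∈ l then n t else 0
  | [], _ => by simp
  | u :: l, h => by
      rw [List.nodup_cons] at h
      rw [List.flatMap_cons, List.count_append, count_flatMap_replicate n t l h.2,
        List.count_replicate]
      by_cases hu : u = t
      · subst hu
        simp [h.1]
      · have : t ≠ u := fun e => hu e.symm
        simp [hu, this]

theorem count_eq_cn (t : T) : ∀ l : List T, l.count t = cn t l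
  | [] => rfl
  | u :: l => by
      rw [List.count_cons, count_eq_cn t l, cn]
      by_cases h : u = t <;> simp [h, Nat.add_comm]

theorem cn_ofFn (x : Fin 3 → T) (t : T) : cn t (List.ofFn x) = occ x t := by
  unfold occ
  rw [Finset.card_filter, Fin.sum_univ_three]
  simp only [List.ofFn_succ, List.ofFn_zero, cn]
  simp only [Fin.isValue, Fin.succ_zero_eq_one, Fin.succ_one_eq_two]
  omega

theorem count_allItems (n : T → ℕ) (t : T) : (allItems n).count t = n t := by
  unfold allItems
  rw [count_flatMap_replicate n t _ (Finset.nodup_toList _)]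
  simp

theorem count_map_eq (s : T → ℕ) (x : ℕ) : ∀ l : List T,
    (l.map s).count x = ∑ t, if s t = x then l.count t else 0
  | [] => by simp
  | u :: l => by
      rw [List.map_cons, List.count_cons, count_map_eq s x l]
      have h1 : ∀ t, (if s t = x then (u :: l).count t else 0)
          = (if s t = x then l.count t else 0) + (if t = u then (if s u = x then 1 else 0) else 0) := by
        intro t
        rw [List.count_cons]
        by_cases hu : t = u
        · subst hu
          by_cases hx : s t = x <;> simp [hx]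
        · have : u ≠ t := fun e => hu e.symm
          simp [hu, this]
      rw [Finset.sum_congr rfl fun t _ => h1 t, Finset.sum_add_distrib]
      simp

theorem sum_mul_count (s : T → ℕ) (x : ℕ) : ∀ c : List (ℕ × List T),
    ((c.map fun p => (p.1, p.2.map s)).map fun p => p.1 * p.2.count x).sum
      = ∑ t, if s t = x then (c.map fun p => p.1 * p.2.count t).sum else 0
  | [] => by simp
  | p :: c => by
      rw [List.map_cons, List.map_cons, List.sum_cons, sum_mul_count s x c]
      simp only [count_map_eq s x p.2, Finset.mul_sum]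
      rw [← Finset.sum_add_distrib]
      refine Finset.sum_congr rfl fun t _ => ?_
      rw [List.map_cons, List.sum_cons]
      split_ifs <;> simp

theorem certN_of_typed {C E : ℕ} (n s : T → ℕ) (c : List (ℕ × List T))
    (h1 : ∀ p ∈ c, (p.2.map s).sum ≤ C)
    (h2 : ∀ t, E * n t ≤ (c.map fun p => p.1 * cn t p.2).sum) :
    IsCertN C E ((allItems n).map s) (c.map fun p => (p.1, p.2.map s)) := by
  refine ⟨?_, ?_⟩
  · intro p hp
    obtain ⟨q, hq, rfl⟩ := List.mem_map.1 hp
    exact h1 q hq
  · intro x _
    rw [sum_mul_count, count_map_eq, Finset.mul_sum]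
    refine Finset.sum_le_sum fun t _ => ?_
    split_ifs
    · rw [count_allItems]
      simp only [count_eq_cn]
      exact h2 t
    · simp

/-- the number of items of type `t` in bin `b` -/
def cnt {k : ℕ} (l : List T) (f : Fin l.length → Fin k) (b : Fin k) (t : T) : ℕ :=
  (univ.filter fun i => f i = b ∧ l.get i = t).card

theorem card_get_eq' (t : T) : ∀ l : List T,
    (univ.filter fun i : Fin l.length => l.get i = t).card = l.count t
  | [] => by simp
  | u :: l => by
      have ih := card_get_eq' t l
      rw [Finset.card_filter] at ih ⊢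
      have e : ∑ i : Fin (u :: l).length, (if (u :: l).get i = t then 1 else 0)
          = (if u = t then 1 else 0) + ∑ i : Fin l.length, (if l.get i = t then 1 else 0) :=
        Fin.sum_univ_succ (n := l.length) (fun i => if (u :: l).get i = t then 1 else 0)
      rw [e, ih, List.count_cons]
      by_cases h : u = t <;> simp [h, Nat.add_comm]

theorem sum_cnt {k : ℕ} (l : List T) (f : Fin l.length → Fin k) (t : T) :
    ∑ b, cnt l f b t = l.count t := by
  rw [← card_get_eq' t l]
  unfold cnt
  simp only [Finset.card_filter]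
  rw [Finset.sum_comm]
  refine Finset.sum_congr rfl fun i _ => ?_
  by_cases h : l.get i = t
  · rw [if_pos h, Finset.sum_eq_single (f i)]
    · rw [if_pos ⟨rfl, h⟩]
    · intro b _ hb
      rw [if_neg]
      rintro ⟨h1, _⟩
      exact hb h1.symm
    · intro h1
      exact absurd (Finset.mem_univ _) h1
  · rw [if_neg h]
    refine Finset.sum_eq_zero fun b _ => ?_
    rw [if_neg]
    rintro ⟨_, h2⟩
    exact h h2

theorem sum_cnt_all {k : ℕ} (n : T → ℕ) (l : List T) (hl : l = allItems n)
    (f : Fin l.length → Fin k) (t : T) : ∑ b, cnt l f b t = n t := by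
  rw [sum_cnt, hl, count_allItems]

theorem cnt_sum {k : ℕ} (l : List T) (f : Fin l.length → Fin k) (b : Fin k) (h : T → ℕ) :
    ∑ t, cnt l f b t * h t = ∑ i ∈ univ.filter (fun i => f i = b), h (l.get i) := by
  unfold cnt
  simp only [Finset.card_filter, Finset.sum_mul]
  rw [Finset.sum_comm, Finset.sum_filter]
  refine Finset.sum_congr rfl fun i _ => ?_
  by_cases hb : f i = b <;> simp [hb]

theorem natPacks_map {C k : ℕ} (l : List T) (s : T → ℕ) (h : NatPacks C k (l.map s)) :
    ∃ f : Fin l.length → Fin k,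
      ∀ b, ∑ i ∈ univ.filter (fun i => f i = b), s (l.get i) ≤ C := by
  obtain ⟨f, hf⟩ := h
  have e : (l.map s).length = l.length := List.length_map _
  refine ⟨fun i => f (Fin.cast e.symm i), fun b => ?_⟩
  refine le_trans (le_of_eq ?_) (hf b)
  rw [Finset.sum_filter, Finset.sum_filter]
  refine Fintype.sum_equiv (finCongr e.symm) _ _ fun i => ?_
  simp

end typed

/-- The data of the top level. -/
structure Top (F G : ℕ) where
  S : Cls F G → ℕ
  C : ℕ
  w : Cls F G → ℕ
  D : ℕ
  m : Fin F → ℕ
  κs : Fin G → Fin 3 → ℕ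
  Qs : Fin G → ℕ
  Ls : Fin G → ℕ
  Ns : Fin G → Fin 3 → ℕ
  rs : Fin G → Fin 3 → ℕ
  z : Fin G → ℕ
  E : ℕ
  c : List (ℕ × List (Cls F G))
  K : ℕ

variable {F G : ℕ}

/-- the class is used -/
def Top.U (X : Top F G) : Cls F G → Prop
  | .inl _ => True
  | .inr (g, p) => X.κs g p ≠ 0

/-- the critical pattern of subsystem `g` -/
def Top.chi (X : Top F G) (g : Fin G) : Cls F G → ℕ
  | .inl _ => 0
  | .inr (g', p) => if g' = g then X.κs g p else 0

structure Top.Ok (X : Top F G) : Prop where
  dual : ∀ k : Cls F G → ℕ, ∑ A, k A * X.S A ≤ X.C → ∑ A, k A * X.w A ≤ X.D ∨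
    (∑ A, k A * X.S A = X.C ∧ ∃ g, (∀ A, k A = X.chi g A) ∧ ∑ A, k A * X.w A ≤ X.D + X.z g)
  pos : ∀ A, 1 ≤ X.S A
  lt : ∀ A, X.U A → X.S A < X.C
  kap3 : ∀ g, ∑ p, X.κs g p = 3
  crit : ∀ g, ∑ p, X.κs g p * X.S (.inr (g, p)) = X.C
  cOk : ∀ p ∈ X.c, (∀ A ∈ p.2, X.U A) ∧ (p.2.map X.S).sum < X.C
  useF : ∀ f, X.E * X.m f ≤ (X.c.map fun p => p.1 * cn (.inl f) p.2).sum
  useG : ∀ g p, X.κs g p ≠ 0 → X.rs g p ≤ (X.c.map fun q => q.1 * cn (.inr (g, p)) q.2).sum
  hK : X.D * X.K + ∑ g, X.z g * X.Qs g
    < ∑ f, X.w (.inl f) * X.m f + ∑ g, ∑ p, X.w (.inr (g, p)) * X.Ns g p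
  hE : 0 < X.E

/-- all hypotheses on the subsystems -/
def Top.Sub (X : Top F G) (S : Fin G → Sys) : Prop :=
  ∀ g, (S g).Ok (X.κs g) (X.Qs g) X.E (X.Ls g) (X.Ns g) (X.rs g)

/-- multiplicities -/
def Top.n (X : Top F G) (S : Fin G → Sys) : TT F S → ℕ :=
  Sum.elim X.m fun t => (S t.1).n t.2

/-- scaling factor -/
def Top.M (X : Top F G) (S : Fin G → Sys) : ℤ := (X.C + 1) * bd F S + 1

/-- sizes -/
def Top.s (X : Top F G) (S : Fin G → Sys) (t : TT F S) : ℕ :=
  (X.M S * X.S (cls S t) + fine S t).toNat

section top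

variable {X : Top F G} {S : Fin G → Sys}

theorem Top.M_pos : 0 < X.M S := by
  have := bd_nonneg (F := F) S
  unfold Top.M
  positivity

theorem Top.s_eq (hX : X.Ok) (t : TT F S) :
    (X.s S t : ℤ) = X.M S * X.S (cls S t) + fine S t := by
  unfold Top.s
  rw [Int.toNat_of_nonneg]
  have h1 := (abs_le.1 (fine_le S t)).1
  have h2 := bd_nonneg (F := F) S
  have h3 : (1 : ℤ) ≤ X.S (cls S t) := by exact_mod_cast hX.pos _
  have h4 : bd F S ≤ X.M S := by
    unfold Top.M
    nlinarith
  nlinarith [X.M_pos (S := S)]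

theorem Top.s_pos (hX : X.Ok) (t : TT F S) : 0 < X.s S t := by
  have h1 := (abs_le.1 (fine_le S t)).1
  have h2 := bd_nonneg (F := F) S
  have h3 : (1 : ℤ) ≤ X.S (cls S t) := by exact_mod_cast hX.pos _
  have h4 : bd F S + 1 ≤ X.M S := by
    unfold Top.M
    nlinarith
  have h5 := Top.s_eq (S := S) hX t
  have : (0 : ℤ) < X.s S t := by nlinarith
  exact_mod_cast this

theorem used_cls' (hS : X.Sub S) (t : TT F S) : X.U (cls S t) := by
  rcases t with f | ⟨g, t⟩
  · trivial
  · exact (hS g).part_mem t

theorem Top.s_le (hX : X.Ok) (hS : X.Sub S) (t : TT F S) : (X.s S t : ℤ) ≤ X.M S * X.C := by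
  have h1 := (abs_le.1 (fine_le S t)).2
  have h2 := bd_nonneg (F := F) S
  have h3 : (X.S (cls S t) : ℤ) + 1 ≤ X.C := by exact_mod_cast hX.lt _ (used_cls' hS t)
  have h4 : bd F S ≤ X.M S := by
    unfold Top.M
    nlinarith
  rw [Top.s_eq hX]
  nlinarith [X.M_pos (S := S)]

/-- coarse consequences of the size bound -/
theorem coarse_bin (hX : X.Ok) {ι : Type} (J : Finset ι) (τ : ι → TT F S)
    (h : ∑ i ∈ J, (X.s S (τ i) : ℤ) ≤ X.M S * X.C) :
    ∑ i ∈ J, X.S (cls S (τ i)) ≤ X.C ∧
      (∑ i ∈ J, X.S (cls S (τ i)) = X.C → ∑ i ∈ J, fine S (τ i) ≤ 0) := by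
  simp only [Top.s_eq hX] at h
  rw [Finset.sum_add_distrib, ← Finset.mul_sum] at h
  set Y : ℤ := ∑ i ∈ J, (X.S (cls S (τ i)) : ℤ) with hY
  have h1 : -(bd F S * Y) ≤ ∑ i ∈ J, fine S (τ i) := by
    rw [hY, Finset.mul_sum, ← Finset.sum_neg_distrib]
    refine Finset.sum_le_sum fun i _ => ?_
    have h1 := (abs_le.1 (fine_le S (τ i))).1
    have h3 : (1 : ℤ) ≤ X.S (cls S (τ i)) := by exact_mod_cast hX.pos _
    nlinarith [bd_nonneg (F := F) S]
  have hY0 : Y ≤ X.C := by
    by_contra hc
    have h2 : (X.C : ℤ) + 1 ≤ Y := by omega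
    have h3 := bd_nonneg (F := F) S
    have h4 : (0 : ℤ) ≤ X.C := Int.natCast_nonneg _
    have h5 : 0 ≤ (Y - (X.C + 1)) * (X.C * bd F S + 1) :=
      mul_nonneg (by linarith) (by positivity)
    unfold Top.M at h
    nlinarith
  have h4 : ((∑ i ∈ J, X.S (cls S (τ i)) : ℕ) : ℤ) = Y := by
    rw [hY]
    push_cast
    rfl
  refine ⟨by exact_mod_cast h4 ▸ hY0, fun h5 => ?_⟩
  have h6 : Y = X.C := by rw [← h4, h5]
  rw [h6] at h
  linarith

/-- the triple of items of a bin with three items -/
noncomputable def tri {k : ℕ} (l : List (TT F S)) (f : Fin l.length → Fin k) (b : Fin k) :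
    Option (Fin 3 → TT F S) :=
  if h : (univ.filter fun i => f i = b).card = 3 then
    some fun j => l.get ((Finset.equivFinOfCardEq h).symm j)
  else none

theorem tri_sum {α : Type} [AddCommMonoid α] {k : ℕ} (l : List (TT F S))
    (f : Fin l.length → Fin k) (b : Fin k) {x : Fin 3 → TT F S} (hx : tri l f b = some x)
    (h : TT F S → α) : ∑ j, h (x j) = ∑ i ∈ univ.filter (fun i => f i = b), h (l.get i) := by
  unfold tri at hx
  split_ifs at hx with hc
  rw [Option.some.injEq] at hx
  subst hx
  rw [← Finset.sum_coe_sort (univ.filter fun i => f i = b) (fun i => h (l.get i))]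
  exact Fintype.sum_equiv (Finset.equivFinOfCardEq hc).symm _ _ fun _ => rfl

theorem tri_occ {k : ℕ} (l : List (TT F S)) (f : Fin l.length → Fin k) (b : Fin k)
    {x : Fin 3 → TT F S} (hx : tri l f b = some x) (t : TT F S) : occ x t = cnt l f b t := by
  have h1 := tri_sum l f b hx (fun u => if u = t then 1 else 0)
  unfold occ cnt
  rw [Finset.card_filter, h1, Finset.card_filter, Finset.sum_filter]
  refine Finset.sum_congr rfl fun i _ => ?_
  by_cases h2 : f i = b <;> simp [h2]

theorem tri_list_occ {k : ℕ} (l : List (TT F S)) (f : Fin l.length → Fin k) (t : TT F S) :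
    ∀ bs : List (Fin k), ((bs.filterMap (tri l f)).map fun x => occ x t).sum
      ≤ (bs.map fun b => cnt l f b t).sum
  | [] => by simp
  | b :: bs => by
      have ih := tri_list_occ l f t bs
      rcases h : tri l f b with _ | x
      · rw [List.filterMap_cons_none h, List.map_cons, List.sum_cons]
        omega
      · rw [List.filterMap_cons_some h, List.map_cons, List.sum_cons, List.map_cons,
          List.sum_cons, tri_occ l f b h]
        omega

/-- the indicator of a critical bin -/
noncomputable def isCr (X : Top F G) (S : Fin G → Sys) {k : ℕ} (l : List (TT F S))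
    (f : Fin l.length → Fin k) (g : Fin G) (b : Fin k) : ℕ :=
  match tri l f b with
  | none => 0
  | some x => if (ext X.κs S g x).isSome then 1 else 0

theorem isCr_list {k : ℕ} (l : List (TT F S)) (f : Fin l.length → Fin k) (g : Fin G) :
    ∀ bs : List (Fin k), (bs.map fun b => isCr X S l f g b).sum
      = ((bs.filterMap (tri l f)).map fun x => if (ext X.κs S g x).isSome then 1 else 0).sum
  | [] => by simp
  | b :: bs => by
      have ih := isCr_list l f g bs
      rcases h : tri l f b with _ | x
      · rw [List.filterMap_cons_none h, List.map_cons, List.sum_cons, ih]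
        simp [isCr, h]
      · rw [List.filterMap_cons_some h, List.map_cons, List.sum_cons, List.map_cons,
          List.sum_cons, ih]
        simp [isCr, h]

theorem isCr_sum (hS : X.Sub S) {k : ℕ} (l : List (TT F S))
    (f : Fin l.length → Fin k) (hl : ∀ t, ∑ b, cnt l f b t = X.n S t) (g : Fin G) :
    ∑ b, isCr X S l f g b ≤ X.Qs g := by
  have h1 : ∑ b, isCr X S l f g b = ((List.finRange k).map fun b => isCr X S l f g b).sum := by
    rw [← List.ofFn_eq_map, List.sum_ofFn]
  rw [h1, isCr_list]
  refine crit_le (hS g) _ fun t => ?_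
  refine (tri_list_occ l f _ _).trans ?_
  have h2 : ((List.finRange k).map fun b => cnt l f b (.inr ⟨g, t⟩)).sum
      = ∑ b, cnt l f b (.inr ⟨g, t⟩) := by
    rw [← List.ofFn_eq_map, List.sum_ofFn]
  rw [h2, hl]
  rfl

/-- the key inequality for a bin -/
theorem bin_key (hX : X.Ok) (hS : X.Sub S) {k : ℕ} (l : List (TT F S))
    (f : Fin l.length → Fin k) (b : Fin k)
    (hb : ∑ i ∈ univ.filter (fun i => f i = b), (X.s S (l.get i) : ℤ) ≤ X.M S * X.C) :
    ∑ i ∈ univ.filter (fun i => f i = b), X.w (cls S (l.get i))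
      ≤ X.D + ∑ g, X.z g * isCr X S l f g b := by
  set J := univ.filter (fun i => f i = b) with hJ
  obtain ⟨h1, h2⟩ := coarse_bin hX J l.get hb
  -- class counts
  obtain ⟨kk, hkk⟩ : ∃ kk : Cls F G → ℕ,
      ∀ A, kk A = (J.filter fun i => cls S (l.get i) = A).card := ⟨_, fun _ => rfl⟩
  have h3 : ∀ h : Cls F G → ℕ, ∑ A, kk A * h A = ∑ i ∈ J, h (cls S (l.get i)) := by
    intro h
    rw [← Finset.sum_fiberwise (s := J) (g := fun i => cls S (l.get i))]
    refine Finset.sum_congr rfl fun A _ => ?_
    rw [hkk, Finset.card_eq_sum_ones, Finset.sum_mul]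
    refine Finset.sum_congr rfl fun i hi => ?_
    rw [(Finset.mem_filter.1 hi).2, one_mul]
  rcases hX.dual kk (by rw [h3]; exact h1) with h4 | ⟨h4, g, h5, h6⟩
  · rw [h3] at h4
    omega
  · rw [h3] at h4 h6
    have h7 : J.card = 3 := by
      have h8 := h3 fun _ => 1
      simp only [mul_one] at h8
      rw [Finset.card_eq_sum_ones, ← h8, Fintype.sum_sum_type, Fintype.sum_prod_type]
      simp only [h5, Top.chi]
      rw [Finset.sum_eq_single g]
      · simp [hX.kap3]
      · intro g' _ hg'
        simp [hg']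
      · intro hg
        exact absurd (Finset.mem_univ _) hg
    have h8 : ∀ i ∈ J, ∃ p, cls S (l.get i) = .inr (g, p) := by
      intro i hi
      have h9 : 0 < kk (cls S (l.get i)) := by
        rw [hkk]
        exact Finset.card_pos.2 ⟨i, Finset.mem_filter.2 ⟨hi, rfl⟩⟩
      rw [h5] at h9
      rcases hc : cls S (l.get i) with f' | ⟨g', p⟩
      · rw [hc] at h9
        simp [Top.chi] at h9
      · rw [hc] at h9
        simp only [Top.chi] at h9
        split_ifs at h9 with hg
        · exact ⟨p, by rw [hg]⟩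
        · omega
    obtain ⟨x, hx⟩ : ∃ x, tri l f b = some x := by
      unfold tri
      rw [dif_pos h7]
      exact ⟨_, rfl⟩
    have h9 : ∀ j, ∃ t : (S g).T, x j = .inr ⟨g, t⟩ := by
      intro j
      have h10 : ∃ i ∈ J, x j = l.get i := by
        unfold tri at hx
        rw [dif_pos h7, Option.some.injEq] at hx
        subst hx
        exact ⟨_, ((Finset.equivFinOfCardEq h7).symm j).2, rfl⟩
      obtain ⟨i, hi, hi'⟩ := h10
      obtain ⟨p, hp⟩ := h8 i hi
      rw [← hi'] at hp
      rcases hxj : x j with f' | ⟨g', t⟩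
      · rw [hxj] at hp
        simp [cls] at hp
      · rw [hxj] at hp
        simp only [cls, Sum.inr.injEq, Prod.mk.injEq] at hp
        obtain ⟨rfl, _⟩ := hp
        exact ⟨t, rfl⟩
    choose y hy using h9
    have h10 : (S g).Good (X.κs g) y := by
      refine ⟨fun p => ?_, ?_⟩
      · have h11 := tri_sum l f b hx (fun t => if cls S t = .inr (g, p) then 1 else 0)
        have h12 : kk (.inr (g, p)) = X.κs g p := by
          rw [h5]
          simp [Top.chi]
        rw [← h12, hkk, Finset.card_filter, Finset.card_filter, ← h11]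
        refine Finset.sum_congr rfl fun j _ => ?_
        rw [hy j]
        simp [cls]
      · have h11 := tri_sum l f b hx (fine S)
        have h12 := h2 h4
        rw [← h11] at h12
        refine le_trans (le_of_eq ?_) h12
        refine Finset.sum_congr rfl fun j _ => ?_
        rw [hy j]
        rfl
    have h11 : isCr X S l f g b = 1 := by
      unfold isCr
      rw [hx]
      simp [ext_isSome hy h10]
    have h12 : X.z g ≤ ∑ g, X.z g * isCr X S l f g b := by
      refine le_trans (le_of_eq ?_) (Finset.single_le_sum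
        (f := fun g => X.z g * isCr X S l f g b)
        (fun _ _ => Nat.zero_le _) (Finset.mem_univ g))
      simp [h11]
    omega

theorem sum_n_w (hS : X.Sub S) : ∑ t : TT F S, X.n S t * X.w (cls S t)
    = ∑ f, X.w (.inl f) * X.m f + ∑ g, ∑ p, X.w (.inr (g, p)) * X.Ns g p := by
  rw [Fintype.sum_sum_type, Fintype.sum_sigma]
  congr 1
  · refine Finset.sum_congr rfl fun f _ => ?_
    rw [mul_comm]
    rfl
  refine Finset.sum_congr rfl fun g _ => ?_
  rw [← Finset.sum_fiberwise (s := (univ : Finset (S g).T)) (g := (S g).part)]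
  refine Finset.sum_congr rfl fun p _ => ?_
  rw [← (hS g).hN p, Finset.mul_sum]
  refine Finset.sum_congr rfl fun t ht => ?_
  rw [← (Finset.mem_filter.1 ht).2, mul_comm]
  rfl

/-- the lower bound for the number of bins -/
theorem top_lower (hX : X.Ok) (hS : X.Sub S) {C' k : ℕ} (hC' : (C' : ℤ) = X.M S * X.C)
    (h : NatPacks C' k ((allItems (X.n S)).map (X.s S))) : X.K < k := by
  obtain ⟨l, hl⟩ : ∃ l, l = allItems (X.n S) := ⟨_, rfl⟩
  rw [← hl] at h
  obtain ⟨f, hf⟩ := natPacks_map _ _ h
  have h1 : ∑ b, ∑ i ∈ univ.filter (fun i => f i = b), X.w (cls S (l.get i))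
      ≤ ∑ b : Fin k, (X.D + ∑ g, X.z g * isCr X S l f g b) := by
    refine Finset.sum_le_sum fun b _ => bin_key hX hS l f b ?_
    rw [← hC']
    exact_mod_cast hf b
  have h2 : ∑ b, ∑ i ∈ univ.filter (fun i => f i = b), X.w (cls S (l.get i))
      = ∑ t : TT F S, X.n S t * X.w (cls S t) := by
    simp only [← cnt_sum l f _ (fun t => X.w (cls S t))]
    rw [Finset.sum_comm]
    refine Finset.sum_congr rfl fun t _ => ?_
    rw [← Finset.sum_mul, sum_cnt_all _ l hl]
  rw [h2, sum_n_w hS, Finset.sum_add_distrib] at h1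
  have h3 : ∑ b, ∑ g, X.z g * isCr X S l f g b ≤ ∑ g, X.z g * X.Qs g := by
    rw [Finset.sum_comm]
    refine Finset.sum_le_sum fun g _ => ?_
    rw [← Finset.mul_sum]
    exact Nat.mul_le_mul_left _ (isCr_sum hS l f (sum_cnt_all _ l hl f) g)
  have h4 := hX.hK
  simp only [Finset.sum_const, Finset.card_univ, Fintype.card_fin, smul_eq_mul] at h1
  have h5 : X.D * X.K < X.D * k := by
    rw [mul_comm X.D k]
    omega
  exact lt_of_mul_lt_mul_left h5 (Nat.zero_le _)

/-- the typed fractional solution -/
def topC (X : Top F G) (S : Fin G → Sys) (c : ∀ g, List (ℕ × (Fin 3 → (S g).T))) :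
    List (ℕ × List (TT F S)) :=
  (X.c.map fun p => (p.1, p.2.map (rep S)))
    ++ (List.finRange G).flatMap fun g =>
      (c g).map fun p => (p.1, List.ofFn fun i => (.inr ⟨g, p.2 i⟩ : TT F S))

theorem cn_rep_inl (S : Fin G → Sys) (f : Fin F) : ∀ l : List (Cls F G),
    cn (.inl f : TT F S) (l.map (rep S)) = cn (.inl f) l
  | [] => rfl
  | A :: l => by
      rw [List.map_cons, cn, cn, cn_rep_inl S f l]
      rcases A with f' | ⟨g, q⟩ <;> simp [rep]

theorem cn_rep_inr (hS : X.Sub S) (g : Fin G) (t : (S g).T) : ∀ l : List (Cls F G),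
    (∀ A ∈ l, X.U A) → cn (.inr ⟨g, t⟩ : TT F S) (l.map (rep S))
      = if (S g).d ((S g).part t) = t then cn (.inr (g, (S g).part t)) l else 0
  | [], _ => by simp [cn]
  | A :: l, h => by
      rw [List.map_cons, cn, cn, cn_rep_inr hS g t l fun B hB => h B (List.mem_cons_of_mem _ hB)]
      have h2 := h A List.mem_cons_self
      have h1 : (rep S A = (.inr ⟨g, t⟩ : TT F S)) ↔
          (S g).d ((S g).part t) = t ∧ A = .inr (g, (S g).part t) := by
        rcases A with f' | ⟨g', q⟩
        · simp [rep]
        · simp only [rep, Sum.inr.injEq, Sigma.mk.injEq, Prod.mk.injEq]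
          constructor
          · rintro ⟨rfl, h3⟩
            have h3 := eq_of_heq h3
            have h4 : (S g').part t = q := by rw [← h3]; exact (hS g').hd q h2
            rw [h4]
            exact ⟨h3, rfl, rfl⟩
          · rintro ⟨h3, rfl, rfl⟩
            exact ⟨rfl, heq_of_eq h3⟩
      simp only [h1]
      by_cases h3 : (S g).d ((S g).part t) = t
      · have h4 : ((S g).d ((S g).part t) = t) = True := eq_true h3
        simp only [h4, true_and, if_true]
      · have h4 : ((S g).d ((S g).part t) = t) = False := eq_false h3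
        simp only [h4, false_and, if_false]

theorem sum_flatMap_fin {α : Type} (G : ℕ) (h : Fin G → List α) (k : α → ℕ) :
    (((List.finRange G).flatMap h).map k).sum = ∑ g, ((h g).map k).sum := by
  rw [List.map_flatMap, List.flatMap, List.sum_flatten, List.map_map, ← List.ofFn_id G,
    List.map_ofFn, List.sum_ofFn]
  rfl

theorem top_use (hX : X.Ok) (hS : X.Sub S) (c : ∀ g, List (ℕ × (Fin 3 → (S g).T)))
    (hc : ∀ g t, ((c g).map fun p => p.1 * occ p.2 t).sum
      + (if (S g).d ((S g).part t) = t then X.rs g ((S g).part t) else 0) = X.E * (S g).n t)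
    (t : TT F S) : X.E * X.n S t ≤ ((topC X S c).map fun p => p.1 * cn t p.2).sum := by
  unfold topC
  rw [List.map_append, List.sum_append, List.map_map, sum_flatMap_fin]
  rcases t with f | ⟨g, t⟩
  · refine le_trans ?_ (Nat.le_add_right _ _)
    refine (hX.useF f).trans (le_of_eq ?_)
    congr 1
    refine List.map_congr_left fun p _ => ?_
    simp only [Function.comp, cn_rep_inl]
  · have h1 : (X.c.map ((fun p : ℕ × List (TT F S) => p.1 * cn (.inr ⟨g, t⟩) p.2) ∘
        fun p : ℕ × List (Cls F G) => (p.1, p.2.map (rep S)))).sum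
        = if (S g).d ((S g).part t) = t then
          (X.c.map fun p => p.1 * cn (.inr (g, (S g).part t)) p.2).sum else 0 := by
      have h3 : ∀ p ∈ X.c, ((fun p : ℕ × List (TT F S) => p.1 * cn (.inr ⟨g, t⟩) p.2) ∘
          fun p : ℕ × List (Cls F G) => (p.1, p.2.map (rep S))) p
          = if (S g).d ((S g).part t) = t then p.1 * cn (.inr (g, (S g).part t)) p.2 else 0 := by
        intro p hp
        simp only [Function.comp, cn_rep_inr hS g t p.2 (hX.cOk p hp).1]
        split_ifs <;> simp
      rw [List.map_congr_left h3]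
      split_ifs
      · rfl
      · simp
    have h2 : ((c g).map fun p => p.1 * occ p.2 t).sum
        ≤ ∑ g', (((c g').map fun p => (p.1, List.ofFn fun i => (.inr ⟨g', p.2 i⟩ : TT F S))).map
          fun p => p.1 * cn (.inr ⟨g, t⟩) p.2).sum := by
      refine le_trans (le_of_eq ?_) (Finset.single_le_sum (f := fun g' => (((c g').map fun p =>
        (p.1, List.ofFn fun i => (.inr ⟨g', p.2 i⟩ : TT F S))).map
          fun p => p.1 * cn (.inr ⟨g, t⟩) p.2).sum) (fun _ _ => Nat.zero_le _)
          (Finset.mem_univ g))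
      simp only [List.map_map]
      congr 1
      refine List.map_congr_left fun p _ => ?_
      simp only [Function.comp, cn_ofFn]
      rw [occ_inr S g p.2 _ (fun _ => rfl)]
    rw [h1]
    refine le_trans ?_ (Nat.add_le_add_left h2 _)
    have h5 := hc g t
    have h7 : X.n S (.inr ⟨g, t⟩) = (S g).n t := rfl
    rw [h7, ← h5]
    by_cases h8 : (S g).d ((S g).part t) = t
    · rw [if_pos h8, if_pos h8]
      have h4 := hX.useG g ((S g).part t) ((hS g).part_mem t)
      omega
    · rw [if_neg h8, if_neg h8]
      omega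

theorem s_sum_cast (l : List (TT F S)) (hX : X.Ok) : (((l.map (X.s S)).sum : ℕ) : ℤ)
    = X.M S * ((l.map fun t => X.S (cls S t)).sum : ℕ) + (l.map (fine S)).sum := by
  induction l with
  | nil => simp
  | cons t l ih =>
      rw [List.map_cons, List.sum_cons, List.map_cons, List.sum_cons, List.map_cons,
        List.sum_cons, Nat.cast_add, Nat.cast_add, ih, Top.s_eq hX]
      ring

theorem fine_list_le (l : List (TT F S)) : (l.map (fine S)).sum ≤ bd F S * l.length := by
  induction l with
  | nil => simp
  | cons t l ih =>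
      rw [List.map_cons, List.sum_cons, List.length_cons]
      have := (abs_le.1 (fine_le S t)).2
      push_cast
      linarith

theorem len_le_sum (hX : X.Ok) (l : List (TT F S)) :
    l.length ≤ (l.map fun t => X.S (cls S t)).sum := by
  induction l with
  | nil => simp
  | cons t l ih =>
      rw [List.map_cons, List.sum_cons, List.length_cons]
      have := hX.pos (cls S t)
      omega

theorem top_feas (hX : X.Ok) (hS : X.Sub S) (c : ∀ g, List (ℕ × (Fin 3 → (S g).T)))
    (hc : ∀ g, ∀ p ∈ c g, (S g).Good (X.κs g) p.2) {C' : ℕ} (hC' : (C' : ℤ) = X.M S * X.C) :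
    ∀ p ∈ topC X S c, (p.2.map (X.s S)).sum ≤ C' := by
  intro p hp
  have hgoal : (((p.2.map (X.s S)).sum : ℕ) : ℤ) ≤ X.M S * X.C := by
    rw [s_sum_cast _ hX]
    rcases List.mem_append.1 hp with hp | hp
    · obtain ⟨q, hq, rfl⟩ := List.mem_map.1 hp
      obtain ⟨h1, h2⟩ := hX.cOk q hq
      have h3 : ((q.2.map (rep S)).map fun t => X.S (cls S t)) = q.2.map X.S := by
        rw [List.map_map]
        refine List.map_congr_left fun A hA => ?_
        have h4 := h1 A hA
        simp only [Function.comp]
        congr 1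
        rcases A with f | ⟨g, p⟩
        · rfl
        · simp only [rep, cls, Sum.inr.injEq, Prod.mk.injEq, true_and]
          exact (hS g).hd p h4
      have h5 := fine_list_le (q.2.map (rep S))
      have h6 := len_le_sum hX (q.2.map (rep S))
      simp only [h3] at h6 ⊢
      have h7 : ((q.2.map X.S).sum : ℤ) + 1 ≤ X.C := by exact_mod_cast h2
      have h8 : ((q.2.map (rep S)).length : ℤ) ≤ (q.2.map X.S).sum := by exact_mod_cast h6
      have h9 := bd_nonneg (F := F) S
      have h10 : bd F S * ((q.2.map (rep S)).length : ℤ) ≤ bd F S * X.C := by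
        refine mul_le_mul_of_nonneg_left ?_ h9
        linarith
      have h11 : bd F S * X.C ≤ X.M S := by
        unfold Top.M
        nlinarith
      have h12 : X.M S * ((q.2.map X.S).sum : ℤ) + X.M S ≤ X.M S * X.C := by
        have := X.M_pos (S := S)
        nlinarith
      linarith
    · obtain ⟨g, _, hp⟩ := List.mem_flatMap.1 hp
      obtain ⟨q, hq, rfl⟩ := List.mem_map.1 hp
      obtain ⟨h1, h2⟩ := hc g q hq
      have h3 : ((List.ofFn fun i => (.inr ⟨g, q.2 i⟩ : TT F S)).map fun t => X.S (cls S t)).sum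
          = X.C := by
        rw [List.map_ofFn, List.sum_ofFn, ← hX.crit g,
          ← Finset.sum_fiberwise (s := (univ : Finset (Fin 3))) (g := fun i => (S g).part (q.2 i))]
        refine Finset.sum_congr rfl fun p _ => ?_
        rw [← h1 p, Finset.card_eq_sum_ones, Finset.sum_mul]
        refine Finset.sum_congr rfl fun i hi => ?_
        rw [one_mul, ← (Finset.mem_filter.1 hi).2]
        rfl
      have h4 : ((List.ofFn fun i => (.inr ⟨g, q.2 i⟩ : TT F S)).map (fine S)).sum ≤ 0 := by
        rw [List.map_ofFn, List.sum_ofFn]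
        exact h2
      simp only [h3]
      linarith
  rw [← hC'] at hgoal
  exact_mod_cast hgoal

/-- **From the top level to bin packing instances.** -/
theorem Top.Ok.good {X : Top F G} (hX : X.Ok)
    (h : ∀ g, HasSys (X.κs g) (X.Qs g) X.E (X.Ls g) (X.Ns g) (X.rs g)) :
    ∃ C m, 0 < C ∧ X.K < m ∧ Good C m ((((X.c.map Prod.fst).sum + ∑ g, X.Ls g : ℕ) : ℚ) / X.E) := by
  choose S hS using h
  have hS : X.Sub S := hS
  choose c hc1 hc2 hc3 using fun g => (hS g).lp
  have hM := X.M_pos (S := S)
  obtain ⟨C', hC'⟩ : ∃ C' : ℕ, (C' : ℤ) = X.M S * X.C :=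
    ⟨(X.M S * X.C).toNat, Int.toNat_of_nonneg (by positivity)⟩
  obtain ⟨items, hitems⟩ : ∃ l, l = (allItems (X.n S)).map (X.s S) := ⟨_, rfl⟩
  have hcert := (certN_of_typed (C := C') (E := X.E) (X.n S) (X.s S) (topC X S c)
    (top_feas hX hS c hc1 hC') (top_use hX hS c hc3)).toCert hX.hE
  have hpos : ∀ x ∈ items, 0 < x ∧ x ≤ C' := by
    intro x hx
    rw [hitems] at hx
    obtain ⟨t, _, rfl⟩ := List.mem_map.1 hx
    refine ⟨Top.s_pos hX t, ?_⟩
    have := Top.s_le hX hS t
    rw [← hC'] at this
    exact_mod_cast this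
  have hex : ∃ k, NatPacks C' k items := by
    refine ⟨items.length, id, fun b => ?_⟩
    have : (univ.filter fun i : Fin items.length => id i = b) = {b} := by
      ext i
      simp
    rw [this, Finset.sum_singleton]
    exact (hpos _ (List.get_mem _ _)).2
  classical
  have hK := top_lower hX hS hC' (k := Nat.find hex) (by rw [← hitems]; exact Nat.find_spec hex)
  have hC0 : 0 < C' := by
    have h1 : 0 < X.C := by
      rcases Nat.eq_zero_or_pos X.C with h0 | h0
      · exfalso
        rcases Nat.eq_zero_or_pos (Nat.find hex) with h2 | h2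
        · omega
        · have h3 : items ≠ [] := by
            rintro h4
            have : NatPacks C' 0 items := by
              rw [h4]
              exact ⟨fun i => absurd i.2 (by simp), fun b => absurd b.2 (by simp)⟩
            exact absurd (Nat.find_min' hex this) (by omega)
          obtain ⟨x, hx⟩ := List.exists_mem_of_ne_nil _ h3
          have := hpos x hx
          have h5 : (C' : ℤ) = 0 := by rw [hC', h0]; simp
          omega
      · exact h0
    have : (0 : ℤ) < C' := by rw [hC']; positivity
    exact_mod_cast this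
  refine ⟨C', Nat.find hex, hC0, hK, items, _, hpos, Nat.find_spec hex, ?_, hitems ▸ hcert, ?_⟩
  · intro k hk hp
    exact absurd (Nat.find_min' hex hp) (by omega)
  · rw [toCert_val]
    congr 2
    rw [List.map_map]
    unfold topC
    rw [List.map_append, List.sum_append, List.map_map, sum_flatMap_fin]
    congr 1
    refine Finset.sum_congr rfl fun g _ => ?_
    rw [← hc2 g, List.map_map]
    rfl

end top

end Vale.Agent.P302.Nest
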