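import Vale.Agent.P302.Defs

/-!
Adding an item of size one raises `OPT` by exactly one and the LP value by at most one
(for arbitrary instances).
-/

namespace Vale.Agent.P302.Pad

open Finset

variable {n : ℕ} {a : Fin n → ℚ}

theorem packs_self (ha : IsInstance a) : Packs a n := by
  refine ⟨id, fun b => ?_⟩
  have : (Finset.univ.filter fun i : Fin n => id i = b) = {b} := by
    ext i; simp
  rw [this, Finset.sum_singleton]
  exact (ha b).2

theorem isInstance_cons (ha : IsInstance a) : IsInstance (Fin.cons 1 a : Fin (n + 1) → ℚ) := by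
  intro i
  refine Fin.cases ?_ (fun j => ?_) i
  · simp
  · simpa using ha j

theorem packs_cons {k : ℕ} (h : Packs a k) :
    Packs (Fin.cons 1 a : Fin (n + 1) → ℚ) (k + 1) := by
  obtain ⟨f, hf⟩ := h
  refine ⟨Fin.cons (Fin.last k) (fun i => Fin.castSucc (f i)), fun b => ?_⟩
  rw [Finset.sum_filter, Fin.sum_univ_succ]
  simp only [Fin.cons_zero, Fin.cons_succ]
  induction b using Fin.lastCases with
  | last =>
    rw [if_pos rfl]
    simp
  | cast b =>
    rw [if_neg (Fin.castSucc_lt_last b).ne']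
    have h2 := hf b
    rw [Finset.sum_filter] at h2
    simp only [Fin.castSucc_inj]
    rw [zero_add]
    exact h2

theorem packs_of_cons {k : ℕ} (ha : IsInstance a)
    (h : Packs (Fin.cons 1 a : Fin (n + 1) → ℚ) (k + 1)) : Packs a k := by
  obtain ⟨f, hf⟩ := h
  set b0 : Fin (k + 1) := f 0 with hb0
  have hne : ∀ i : Fin n, f (Fin.succ i) ≠ b0 := by
    intro i hi
    have h1 := hf b0
    rw [Finset.sum_filter, Fin.sum_univ_succ] at h1
    simp only [Fin.cons_zero, Fin.cons_succ] at h1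
    rw [if_pos hb0.symm] at h1
    have h2 : a i ≤ ∑ j : Fin n, (if f (Fin.succ j) = b0 then a j else 0) := by
      have h3 : (if f (Fin.succ i) = b0 then a i else 0)
          ≤ ∑ j : Fin n, (if f (Fin.succ j) = b0 then a j else 0) :=
        Finset.single_le_sum (f := fun j : Fin n => if f (Fin.succ j) = b0 then a j else 0)
          (fun j _ => by
            split_ifs
            · exact (ha j).1.le
            · exact le_rfl) (Finset.mem_univ i)
      rwa [if_pos hi] at h3
    have h4 := (ha i).1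
    linarith
  have hex : ∀ i : Fin n, ∃ y : Fin k, b0.succAbove y = f (Fin.succ i) :=
    fun i => Fin.exists_succAbove_eq (hne i)
  choose g hg using hex
  refine ⟨g, fun b => ?_⟩
  have h1 := hf (b0.succAbove b)
  rw [Finset.sum_filter, Fin.sum_univ_succ] at h1
  simp only [Fin.cons_zero, Fin.cons_succ] at h1
  rw [if_neg (Fin.succAbove_ne b0 b).symm, zero_add] at h1
  rw [Finset.sum_filter]
  refine le_trans (le_of_eq ?_) h1
  refine Finset.sum_congr rfl fun i _ => ?_
  rw [← hg i]
  simp only [Fin.succAbove_right_inj]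

theorem not_packs_cons_zero : ¬ Packs (Fin.cons 1 a : Fin (n + 1) → ℚ) 0 := by
  rintro ⟨f, _⟩
  exact (f 0).elim0

theorem opt_cons (ha : IsInstance a) :
    OPT (Fin.cons 1 a : Fin (n + 1) → ℚ) = OPT a + 1 := by
  have hne : {k | Packs a k}.Nonempty := ⟨n, packs_self ha⟩
  have hmem : Packs a (OPT a) := Nat.sInf_mem hne
  refine le_antisymm (Nat.sInf_le (packs_cons hmem)) ?_
  refine le_csInf ⟨OPT a + 1, packs_cons hmem⟩ ?_
  intro k hk
  cases k with
  | zero => exact absurd hk not_packs_cons_zero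
  | succ k => exact Nat.succ_le_succ (Nat.sInf_le (packs_of_cons ha hk))

/-- extension of a configuration by zero -/
def ext0 (a : Fin n → ℚ) (c : sizes a → ℕ) (q : ℚ) : ℕ := if h : q ∈ sizes a then c ⟨q, h⟩ else 0

theorem sizes_cons : sizes (Fin.cons 1 a : Fin (n + 1) → ℚ) = insert 1 (sizes a) := by
  ext q
  simp only [sizes, Finset.mem_image, Finset.mem_univ, true_and, Finset.mem_insert]
  constructor
  · rintro ⟨i, rfl⟩
    refine Fin.cases ?_ (fun j => ?_) i
    · left; simp
    · right; exact ⟨j, by simp⟩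
  · rintro (rfl | ⟨j, rfl⟩)
    · exact ⟨0, by simp⟩
    · exact ⟨j.succ, by simp⟩

theorem mult_cons (σ : ℚ) :
    mult (Fin.cons 1 a : Fin (n + 1) → ℚ) σ = (if σ = 1 then 1 else 0) + mult a σ := by
  unfold mult
  rw [Finset.card_filter, Finset.card_filter, Fin.sum_univ_succ]
  simp only [Fin.cons_zero, Fin.cons_succ]
  congr 1
  by_cases h : σ = 1
  · simp [h]
  · rw [if_neg h, if_neg (fun h' => h h'.symm)]

theorem mult_eq_zero {σ : ℚ} (h : σ ∉ sizes a) : mult a σ = 0 := by
  unfold mult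
  rw [Finset.card_eq_zero, Finset.filter_eq_empty_iff]
  intro i _ hi
  exact h (Finset.mem_image.2 ⟨i, Finset.mem_univ i, hi⟩)

/-- the embedding of configurations -/
def emb (a : Fin n → ℚ) :
    (sizes a → ℕ) ↪ (sizes (Fin.cons 1 a : Fin (n + 1) → ℚ) → ℕ) where
  toFun c := fun σ => ext0 a c σ
  inj' := by
    intro c d hcd
    funext σ
    have hσ : (σ : ℚ) ∈ sizes (Fin.cons 1 a : Fin (n + 1) → ℚ) := by
      rw [sizes_cons]
      exact Finset.mem_insert_of_mem σ.2
    have := congrFun hcd ⟨σ, hσ⟩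
    simpa [ext0] using this

theorem sum_ext0 (c : sizes a → ℕ) (s : Finset ℚ) (hs : sizes a ⊆ s) :
    ∑ q ∈ s, q * (ext0 a c q : ℚ) = ∑ σ : sizes a, (σ : ℚ) * (c σ : ℚ) := by
  rw [← Finset.sum_subset hs]
  · rw [← Finset.sum_coe_sort (sizes a)]
    refine Finset.sum_congr rfl fun σ _ => ?_
    simp [ext0]
  · intro q _ hq
    simp [ext0, hq]

theorem isConfig_emb {c : sizes a → ℕ} (hc : IsConfig a c) :
    IsConfig (Fin.cons 1 a : Fin (n + 1) → ℚ) (emb a c) := by
  unfold IsConfig at *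
  have h1 : ∑ σ : sizes (Fin.cons 1 a : Fin (n + 1) → ℚ), (σ : ℚ) * ((emb a c) σ : ℚ)
      = ∑ q ∈ sizes (Fin.cons 1 a : Fin (n + 1) → ℚ), q * (ext0 a c q : ℚ) :=
    Finset.sum_coe_sort (sizes (Fin.cons 1 a : Fin (n + 1) → ℚ))
      (fun q => q * (ext0 a c q : ℚ))
  rw [h1, sum_ext0]
  · exact hc
  · rw [sizes_cons]
    exact Finset.subset_insert _ _

/-- the configuration with one item of size one -/
def oneConf (a : Fin n → ℚ) : sizes (Fin.cons 1 a : Fin (n + 1) → ℚ) → ℕ :=
  fun σ => if (σ : ℚ) = 1 then 1 else 0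

theorem isConfig_oneConf : IsConfig (Fin.cons 1 a : Fin (n + 1) → ℚ) (oneConf a) := by
  unfold IsConfig
  have h1 : ∑ σ : sizes (Fin.cons 1 a : Fin (n + 1) → ℚ), (σ : ℚ) * ((oneConf a) σ : ℚ)
      = ∑ q ∈ sizes (Fin.cons 1 a : Fin (n + 1) → ℚ), q * ((if q = 1 then 1 else 0 : ℕ) : ℚ) :=
    Finset.sum_coe_sort (sizes (Fin.cons 1 a : Fin (n + 1) → ℚ))
      (fun q => q * ((if q = 1 then 1 else 0 : ℕ) : ℚ))
  rw [h1]
  have h2 : ∀ q ∈ sizes (Fin.cons 1 a : Fin (n + 1) → ℚ),
      q * ((if q = 1 then 1 else 0 : ℕ) : ℚ) = if q = 1 then 1 else 0 := by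
    intro q _
    split_ifs with h
    · simp [h]
    · simp
  rw [Finset.sum_congr rfl h2, Finset.sum_ite_eq']
  split_ifs <;> norm_num

theorem isFractional_cons {z : (sizes a → ℕ) →₀ ℝ} (hz : IsFractional a z) :
    IsFractional (Fin.cons 1 a : Fin (n + 1) → ℚ)
      (Finsupp.embDomain (emb a) z + Finsupp.single (oneConf a) 1) := by
  obtain ⟨h1, h2, h3⟩ := hz
  have hnn : ∀ c, 0 ≤ (Finsupp.embDomain (emb a) z) c := by
    intro c
    by_cases hc : c ∈ Set.range (emb a)
    · obtain ⟨d, rfl⟩ := hc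
      rw [Finsupp.embDomain_apply_self]
      exact h1 d
    · rw [Finsupp.embDomain_of_notMem_range _ _ _ hc]
  have hnn2 : ∀ c, 0 ≤ (Finsupp.single (oneConf a) (1 : ℝ)) c := by
    intro c
    rw [Finsupp.single_apply]
    split_ifs <;> norm_num
  refine ⟨?_, ?_, ?_⟩
  · intro c
    exact add_nonneg (hnn c) (hnn2 c)
  · intro c hc
    by_cases h : (Finsupp.embDomain (emb a) z) c = 0
    · have h4 : (Finsupp.single (oneConf a) (1 : ℝ)) c ≠ 0 := by
        intro h5
        apply hc
        rw [Finsupp.add_apply, h, h5, add_zero]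
      have h6 : oneConf a = c := by
        by_contra h7
        exact h4 (Finsupp.single_eq_of_ne' h7)
      rw [← h6]
      exact isConfig_oneConf
    · have h8 : c ∈ Set.range (emb a) := by
        by_contra h9
        exact h (Finsupp.embDomain_of_notMem_range _ _ _ h9)
      obtain ⟨d, rfl⟩ := h8
      rw [Finsupp.embDomain_apply_self] at h
      exact isConfig_emb (h2 d h)
  · intro σ
    rw [Finsupp.sum_add_index' (fun c => by simp) (fun c x y => by ring)]
    rw [Finsupp.sum_embDomain, Finsupp.sum_single_index (by simp), mult_cons]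
    have h4 : (mult a (σ : ℚ) : ℝ) ≤ z.sum (fun c x => (((emb a) c) σ : ℝ) * x) := by
      by_cases hσ : (σ : ℚ) ∈ sizes a
      · refine (h3 ⟨σ, hσ⟩).trans (le_of_eq ?_)
        refine Finsupp.sum_congr fun c _ => ?_
        have : (emb a) c σ = c ⟨σ, hσ⟩ := by
          change ext0 a c σ = _
          simp [ext0, hσ]
        rw [this]
      · rw [mult_eq_zero hσ]
        simp only [Nat.cast_zero]
        refine Finsupp.sum_nonneg fun c _ => ?_
        exact mul_nonneg (Nat.cast_nonneg _) (h1 c)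
    have h5 : ((if (σ : ℚ) = 1 then 1 else 0 : ℕ) : ℝ) = ((oneConf a) σ : ℝ) * 1 := by
      simp [oneConf]
    push_cast at h4 h5 ⊢
    linarith

theorem lp_set_bdd {m : ℕ} (b : Fin m → ℚ) :
    BddBelow {v : ℝ | ∃ z, IsFractional b z ∧ v = z.sum (fun _ x => x)} := by
  refine ⟨0, ?_⟩
  rintro v ⟨z, hz, rfl⟩
  exact Finsupp.sum_nonneg fun c _ => hz.1 c

/-- the configuration with one item of size `σ` -/
def unitConf {m : ℕ} (b : Fin m → ℚ) (σ : sizes b) : sizes b → ℕ := fun τ => if τ = σ then 1 else 0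

theorem isConfig_unitConf (ha : IsInstance a) (σ : sizes a) : IsConfig a (unitConf a σ) := by
  unfold IsConfig unitConf
  have h2 : ∀ τ ∈ (Finset.univ : Finset (sizes a)),
      (τ : ℚ) * ((if τ = σ then 1 else 0 : ℕ) : ℚ) = if τ = σ then (σ : ℚ) else 0 := by
    intro τ _
    split_ifs with h
    · simp [h]
    · simp
  rw [Finset.sum_congr rfl h2, Finset.sum_ite_eq', if_pos (Finset.mem_univ _)]
  obtain ⟨i, _, hi⟩ := Finset.mem_image.1 σ.2
  rw [← hi]
  exact (ha i).2

theorem lp_set_nonempty (ha : IsInstance a) :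
    {v : ℝ | ∃ z, IsFractional a z ∧ v = z.sum (fun _ x => x)}.Nonempty := by
  refine ⟨_, ∑ σ : sizes a, Finsupp.single (unitConf a σ) (mult a (σ : ℚ) : ℝ), ⟨?_, ?_, ?_⟩, rfl⟩
  · intro c
    rw [Finsupp.finsetSum_apply]
    refine Finset.sum_nonneg fun σ _ => ?_
    rw [Finsupp.single_apply]
    split_ifs
    · exact Nat.cast_nonneg _
    · exact le_rfl
  · intro c hc
    rw [Finsupp.finsetSum_apply] at hc
    obtain ⟨σ, _, hσ⟩ := Finset.exists_ne_zero_of_sum_ne_zero hc
    have h6 : unitConf a σ = c := by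
      by_contra h7
      exact hσ (Finsupp.single_eq_of_ne' h7)
    rw [← h6]
    exact isConfig_unitConf ha σ
  · intro σ
    rw [← Finsupp.sum_finsetSum_index (fun c => by simp) (fun c x y => by ring)]
    refine le_trans ?_ (Finset.single_le_sum
      (f := fun τ : sizes a => (Finsupp.single (unitConf a τ) (mult a (τ : ℚ) : ℝ)).sum
        (fun c x => (c σ : ℝ) * x)) (fun τ _ => ?_) (Finset.mem_univ σ))
    · rw [Finsupp.sum_single_index (by simp)]
      simp [unitConf]
    · rw [Finsupp.sum_single_index (by simp)]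
      positivity

theorem lp_cons_le (ha : IsInstance a) :
    LP (Fin.cons 1 a : Fin (n + 1) → ℚ) ≤ LP a + 1 := by
  have h : LP (Fin.cons 1 a : Fin (n + 1) → ℚ) - 1 ≤ LP a := by
    refine le_csInf (lp_set_nonempty ha) ?_
    rintro v ⟨z, hz, rfl⟩
    have h1 : LP (Fin.cons 1 a : Fin (n + 1) → ℚ) ≤
        (Finsupp.embDomain (emb a) z + Finsupp.single (oneConf a) 1).sum (fun _ x => x) :=
      csInf_le (lp_set_bdd _) ⟨_, isFractional_cons hz, rfl⟩
    rw [Finsupp.sum_add_index' (fun c => rfl) (fun c x y => rfl), Finsupp.sum_embDomain,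
      Finsupp.sum_single_index rfl] at h1
    linarith
  linarith

theorem pad (ha : IsInstance a) (j : ℕ) : ∃ (n' : ℕ) (a' : Fin n' → ℚ),
    IsInstance a' ∧ OPT a' = OPT a + j ∧ LP a' ≤ LP a + j := by
  induction j with
  | zero => exact ⟨n, a, ha, by simp, by simp⟩
  | succ j ih =>
    obtain ⟨n', a', h1, h2, h3⟩ := ih
    refine ⟨n' + 1, Fin.cons 1 a', isInstance_cons h1, ?_, ?_⟩
    · rw [opt_cons h1, h2, add_assoc]
    · have := lp_cons_le h1
      push_cast
      linarith

end Vale.Agent.P302.Pad
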