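import Mathlib

/-!
Star systems.  A star system with `m` edges has parts `A`, `B i`, `C i` (`i : Fin m`).  Its item
types are distributed over the parts; every item type has an integer deviation.  A triple of item
types is *good* if it is of the form (type in `A`, type in `B i`, type in `C i`) and its deviations
add up to at most `0`.  Every part has a distinguished (*zero*) item type.
-/

namespace Vale.Agent.P302.Star

open Finset

/-- the parts of a star system with `m` edges -/
inductive Pt (m : ℕ) : Type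
  | A : Pt m
  | B : Fin m → Pt m
  | C : Fin m → Pt m
  deriving DecidableEq

/-- star systems with `m` edges -/
structure Sys (m : ℕ) where
  T : Type
  [fT : Fintype T]
  [dT : DecidableEq T]
  part : T → Pt m
  dev : T → ℤ
  n : T → ℕ
  zero : Pt m → T
  part_zero : ∀ p, part (zero p) = p

attribute [instance] Sys.fT Sys.dT

/-- good triples -/
def Sys.Good {m : ℕ} (S : Sys m) (τ : S.T × S.T × S.T) : Prop :=
  ∃ i, S.part τ.1 = Pt.A ∧ S.part τ.2.1 = Pt.B i ∧ S.part τ.2.2 = Pt.C i ∧
    S.dev τ.1 + S.dev τ.2.1 + S.dev τ.2.2 ≤ 0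

/-- `t` is not one of the zero types -/
def Sys.Nz {m : ℕ} (S : Sys m) (t : S.T) : Prop := ∀ p, t ≠ S.zero p

/-- how often the family `x` of triples uses the item type `t` -/
def usage {T R : Type} [Fintype T] [DecidableEq T] [AddCommMonoid R] (x : T × T × T → R) (t : T) :
    R :=
  ∑ τ, ((if τ.1 = t then x τ else 0) + (if τ.2.1 = t then x τ else 0)
    + (if τ.2.2 = t then x τ else 0))

/-- at most `Q` good triples can be formed from `n t` items of every nonzero type `t` and any
number of items of the zero types -/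
def Sys.IntLe {m : ℕ} (S : Sys m) (Q : ℕ) : Prop :=
  ∀ x : S.T × S.T × S.T → ℕ, (∀ τ, x τ ≠ 0 → S.Good τ) → (∀ t, S.Nz t → usage x t ≤ S.n t) →
    ∑ τ, x τ ≤ Q

/-- fractional families of good triples which use the items of nonzero type completely -/
structure Sys.IsFrac {m : ℕ} (S : Sys m) (y : S.T × S.T × S.T → ℝ) : Prop where
  nonneg : ∀ τ, 0 ≤ y τ
  good : ∀ τ, y τ ≠ 0 → S.Good τ
  use : ∀ t, S.Nz t → usage y t = S.n t

/-- there is a star system with `m` edges and gap at least `v` -/
def Has (m : ℕ) (v : ℝ) : Prop :=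
  ∃ (S : Sys m) (Q : ℕ) (y : S.T × S.T × S.T → ℝ), S.IntLe Q ∧ S.IsFrac y ∧ v ≤ ∑ τ, y τ - Q

theorem Has.mono {m : ℕ} {v w : ℝ} (h : Has m v) (hw : w ≤ v) : Has m w := by
  obtain ⟨S, Q, y, h1, h2, h3⟩ := h
  exact ⟨S, Q, y, h1, h2, hw.trans h3⟩

end Vale.Agent.P302.Star
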