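import Vale.Agent.P302.StarStep

/-!
Iterating the recursion: the gap of star systems is unbounded.
-/

namespace Vale.Agent.P302.Star

theorem Has.linear (n : ℕ) : ∀ m : ℕ, Has m ((n / 2 : ℝ) * m) := by
  induction n with
  | zero =>
    intro m
    simpa using Has.base m
  | succ n ih =>
    intro m
    induction m with
    | zero => simpa using Has.base 0
    | succ m ihm =>
      obtain ⟨D, hD⟩ := exists_nat_ge (2 * ((((n + 1 : ℕ) : ℝ) / 2) * m + 1))
      have h0 : (0 : ℝ) ≤ (((n + 1 : ℕ) : ℝ) / 2) * m := by positivity
      have hDpos : (0 : ℝ) < D := by linarith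
      have hD1 : 1 ≤ D := by exact_mod_cast hDpos
      refine (Has.step hD1 ihm (ih D)).mono ?_
      rw [le_div_iff₀ hDpos]
      push_cast at hD h0 ⊢
      nlinarith

/-- there are star systems with one edge and arbitrarily large gap -/
theorem Has.unbounded (K : ℝ) : Has 1 K := by
  obtain ⟨n, hn⟩ := exists_nat_ge (2 * K)
  refine (Has.linear n 1).mono ?_
  push_cast
  linarith

end Vale.Agent.P302.Star
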