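import Vale.Agent.P302.Pad
import Vale.Agent.P302.StarLimit

/-!
From a top-level construction for star systems to bin packing instances with arbitrarily large
gap for every sufficiently large value of `OPT`.
-/

namespace Vale.Agent.P302.Star

/-- the modified integer round-up conjecture -/
theorem not_mirup_of_gap
    (h : ∃ (n : ℕ) (a : Fin n → ℚ), IsInstance a ∧ (2 : ℝ) ≤ (OPT a : ℝ) - LP a) :
    ¬ ∀ (n : ℕ) (a : Fin n → ℚ), IsInstance a → (OPT a : ℤ) ≤ ⌈LP a⌉ + 1 := by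
  obtain ⟨n, a, ha, hgap⟩ := h
  intro H
  have h1 := H n a ha
  have h2 : ⌈LP a⌉ ≤ (OPT a : ℤ) - 2 := by
    rw [Int.ceil_le]
    push_cast
    linarith
  omega

theorem gap_of_top
    (top : ∀ v : ℝ, Has 1 v → ∃ (n : ℕ) (a : Fin n → ℚ),
      IsInstance a ∧ v / 8 ≤ (OPT a : ℝ) - LP a) (K : ℕ) :
    ∃ m₀ : ℕ, ∀ m : ℕ, m₀ ≤ m → ∃ (n : ℕ) (a : Fin n → ℚ),
      IsInstance a ∧ OPT a = m ∧ (K : ℝ) ≤ (OPT a : ℝ) - LP a := by
  obtain ⟨n, a, ha, hgap⟩ := top (8 * K) (Has.unbounded _)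
  refine ⟨OPT a, fun m hm => ?_⟩
  obtain ⟨j, rfl⟩ : ∃ j, m = OPT a + j := ⟨m - OPT a, by omega⟩
  obtain ⟨n', a', h1, h2, h3⟩ := Pad.pad ha j
  refine ⟨n', a', h1, h2, ?_⟩
  rw [h2]
  push_cast
  linarith

end Vale.Agent.P302.Star
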