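import Vale.Agent.P302.Defs

/-!
Bin packing instances given by item types with multiplicities.
-/

namespace Vale.Agent.P302.Star

open Finset

variable {T : Type} [Fintype T]

/-- the instance with `N t` items of size `s t` for every type `t` -/
noncomputable def tin (N : T → ℕ) (s : T → ℚ) : Fin (Fintype.card (Σ t, Fin (N t))) → ℚ :=
  fun i => s ((Fintype.equivFin (Σ t, Fin (N t))).symm i).1

theorem tin_instance {N : T → ℕ} {s : T → ℚ} (hs : ∀ t, 0 < s t ∧ s t ≤ 1) :
    IsInstance (tin N s) := fun _ => hs _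

theorem packs_typed {N : T → ℕ} {s : T → ℚ} {k : ℕ} (h : Packs (tin N s) k) :
    ∃ f : (Σ t, Fin (N t)) → Fin k, ∀ b, ∑ x ∈ univ.filter (fun x => f x = b), s x.1 ≤ 1 := by
  obtain ⟨f, hf⟩ := h
  refine ⟨fun x => f (Fintype.equivFin _ x), fun b => le_trans (le_of_eq ?_) (hf b)⟩
  rw [Finset.sum_filter, Finset.sum_filter]
  refine Fintype.sum_equiv (Fintype.equivFin _) _ _ fun x => ?_
  simp [tin]

theorem packs_exists {n : ℕ} {a : Fin n → ℚ} (ha : IsInstance a) : Packs a n := by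
  refine ⟨id, fun b => ?_⟩
  have : univ.filter (fun i : Fin n => id i = b) = {b} := by
    ext i
    simp
  rw [this, Finset.sum_singleton]
  exact (ha b).2

theorem packs_OPT {n : ℕ} {a : Fin n → ℚ} (ha : IsInstance a) : Packs a (OPT a) :=
  Nat.sInf_mem (s := {k | Packs a k}) ⟨n, packs_exists ha⟩

theorem mult_typed (N : T → ℕ) (s : T → ℚ) (σ : ℚ) :
    mult (tin N s) σ = ∑ t, if s t = σ then N t else 0 := by
  unfold mult
  rw [Finset.card_filter]
  have e : ∑ i, (if tin N s i = σ then 1 else 0)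
      = ∑ x : (Σ t, Fin (N t)), if s x.1 = σ then 1 else 0 := by
    symm
    refine Fintype.sum_equiv (Fintype.equivFin _) _ _ fun x => ?_
    simp [tin]
  rw [e, Fintype.sum_sigma]
  refine Finset.sum_congr rfl fun t _ => ?_
  by_cases h : s t = σ <;> simp [h]

/-- the configuration of a pattern -/
def tcfg {n : ℕ} (a : Fin n → ℚ) (s : T → ℚ) (P : T → ℕ) : sizes a → ℕ :=
  fun σ => ∑ t, if s t = (σ : ℚ) then P t else 0

theorem tcfg_config {n : ℕ} (a : Fin n → ℚ) {s : T → ℚ} (hs : ∀ t, 0 ≤ s t) {P : T → ℕ}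
    (hP : ∑ t, (P t : ℚ) * s t ≤ 1) : IsConfig a (tcfg a s P) := by
  unfold IsConfig tcfg
  refine le_trans ?_ hP
  push_cast
  simp only [Finset.mul_sum]
  rw [Finset.sum_comm]
  refine Finset.sum_le_sum fun t _ => ?_
  by_cases ht : s t ∈ sizes a
  · rw [Finset.sum_eq_single (⟨s t, ht⟩ : sizes a)]
    · simp [mul_comm]
    · intro σ _ hσ
      rw [if_neg, mul_zero]
      intro h
      exact hσ (Subtype.ext h.symm)
    · intro h
      exact absurd (Finset.mem_univ _) h
  · rw [Finset.sum_eq_zero]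
    · exact mul_nonneg (Nat.cast_nonneg _) (hs t)
    · intro σ _
      rw [if_neg, mul_zero]
      intro h
      exact ht (h ▸ σ.2)

theorem lp_typed {N : T → ℕ} {s : T → ℚ} (hs : ∀ t, 0 ≤ s t) {ι : Type} [Fintype ι]
    (c : ι → ℝ) (P : ι → T → ℕ) (hc : ∀ i, 0 ≤ c i)
    (hP : ∀ i, c i ≠ 0 → ∑ t, (P i t : ℚ) * s t ≤ 1)
    (hN : ∀ t, (N t : ℝ) ≤ ∑ i, c i * (P i t : ℝ)) : LP (tin N s) ≤ ∑ i, c i := by
  classical
  set a := tin N s with ha
  set z : (sizes a → ℕ) →₀ ℝ := ∑ i, Finsupp.single (tcfg a s (P i)) (c i) with hz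
  have hsum : ∀ g : (sizes a → ℕ) → ℝ, z.sum (fun d x => g d * x)
      = ∑ i, g (tcfg a s (P i)) * c i := by
    intro g
    rw [hz, ← Finsupp.sum_finsetSum_index (by simp) (by intros; ring)]
    refine Finset.sum_congr rfl fun i _ => ?_
    rw [Finsupp.sum_single_index (by simp)]
  unfold LP
  refine csInf_le ⟨0, ?_⟩ ⟨z, ⟨?_, ?_, ?_⟩, ?_⟩
  · rintro v ⟨z, hz, rfl⟩
    exact Finsupp.sum_nonneg fun c _ => hz.1 c
  · intro d
    rw [hz, Finsupp.finsetSum_apply]
    refine Finset.sum_nonneg fun i _ => ?_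
    rw [Finsupp.single_apply]
    split_ifs
    · exact hc i
    · exact le_rfl
  · intro d hd
    rw [hz, Finsupp.finsetSum_apply] at hd
    obtain ⟨i, _, hi⟩ := Finset.exists_ne_zero_of_sum_ne_zero hd
    rw [Finsupp.single_apply] at hi
    split_ifs at hi with h
    · rw [← h]
      exact tcfg_config a hs (hP i hi)
    · exact absurd rfl hi
  · intro σ
    have h1 := hsum (fun d => (d σ : ℝ))
    rw [h1, show mult a (σ : ℚ) = ∑ t, if s t = (σ : ℚ) then N t else 0 from mult_typed N s _]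
    unfold tcfg
    push_cast
    have h2 : ∀ t, ((if s t = (σ : ℚ) then (N t : ℝ) else 0))
        ≤ ∑ i, (if s t = (σ : ℚ) then (P i t : ℝ) else 0) * c i := by
      intro t
      split_ifs
      · refine (hN t).trans (le_of_eq ?_)
        exact Finset.sum_congr rfl fun i _ => mul_comm _ _
      · simp
    refine (Finset.sum_le_sum fun t _ => h2 t).trans (le_of_eq ?_)
    rw [Finset.sum_comm]
    refine Finset.sum_congr rfl fun i _ => ?_
    rw [Finset.sum_mul]
  · have h1 := hsum (fun _ => (1 : ℝ))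
    simp only [one_mul] at h1
    rw [h1]

end Vale.Agent.P302.Star
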