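import Mathlib

/-!
Bounds for the size of the star systems obtained by iterating the recursion (abstract form).
-/

namespace Vale.Agent.P302.StarRate

theorem limit (P : ℕ → ℝ → ℝ → Prop)
    (hmono : ∀ m v w L L', P m v L → w ≤ v → L ≤ L' → P m w L')
    (hbase : ∀ m, P m 0 0) (c : ℝ) (hc : 1 ≤ c) (a : ℕ)
    (hstep : ∀ (m d : ℕ) (v₁ L₁ v₂ L₂ : ℝ), P m v₁ L₁ → P (d + 1) v₂ L₂ →
      P (m + 1) ((d * (v₁ + 1) + v₂) / (d + 1)) (L₁ + c * (d + 1) ^ a * (L₂ + 1)))
    (N : ℕ) : P 1 (N / 2) ((2 * c) ^ N * (N + 2 : ℝ) ^ ((a + 1) * N ^ 2)) := by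
  set B : ℝ := N + 2 with hB
  have hB2 : 2 ≤ B := by
    rw [hB]
    have : (0 : ℝ) ≤ N := Nat.cast_nonneg N
    linarith
  set G : ℕ → ℝ → ℝ := fun n m => (2 * c) ^ n * B ^ ((a + 1) * n ^ 2) * m ^ ((a + 1) * n) with hG
  have hG1 : ∀ n (m : ℝ), 1 ≤ m → 1 ≤ G n m := by
    intro n m hm
    simp only [hG]
    have h1 : (1 : ℝ) ≤ (2 * c) ^ n := one_le_pow₀ (by linarith)
    have h2 : (1 : ℝ) ≤ B ^ ((a + 1) * n ^ 2) := one_le_pow₀ (by linarith)
    have h3 : (1 : ℝ) ≤ m ^ ((a + 1) * n) := one_le_pow₀ hm
    exact one_le_mul_of_one_le_of_one_le (one_le_mul_of_one_le_of_one_le h1 h2) h3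
  have hGmono : ∀ n (m m' : ℝ), 0 ≤ m → m ≤ m' → G n m ≤ G n m' := by
    intro n m m' h0 h
    simp only [hG]
    have : (0 : ℝ) ≤ (2 * c) ^ n * B ^ ((a + 1) * n ^ 2) := by positivity
    exact mul_le_mul_of_nonneg_left (pow_le_pow_left₀ h0 h _) this
  have hGstep : ∀ n (m : ℝ), 1 ≤ m → m * (c * (B * m) ^ a * (G n (B * m) + 1)) ≤ G (n + 1) m := by
    intro n m hm
    have hBm : 1 ≤ B * m := one_le_mul_of_one_le_of_one_le (by linarith) hm
    have h1 := hG1 n (B * m) hBm
    have h0 : 0 ≤ m * (c * (B * m) ^ a) := by positivity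
    calc m * (c * (B * m) ^ a * (G n (B * m) + 1))
        = m * (c * (B * m) ^ a) * (G n (B * m) + 1) := by ring
      _ ≤ m * (c * (B * m) ^ a) * (2 * G n (B * m)) :=
          mul_le_mul_of_nonneg_left (by linarith) h0
      _ = (2 * c) ^ (n + 1) * B ^ (a + (a + 1) * n ^ 2 + (a + 1) * n)
            * m ^ ((a + 1) * (n + 1)) := by
          simp only [hG]
          rw [mul_pow B m a, mul_pow B m ((a + 1) * n)]
          ring
      _ ≤ (2 * c) ^ (n + 1) * B ^ ((a + 1) * (n + 1) ^ 2) * m ^ ((a + 1) * (n + 1)) := by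
          refine mul_le_mul_of_nonneg_right (mul_le_mul_of_nonneg_left
            (pow_le_pow_right₀ (by linarith) ?_) (by positivity)) (by positivity)
          nlinarith [Nat.zero_le (a * n), Nat.zero_le n]
  have key : ∀ n, n ≤ N → ∀ m : ℕ, P m ((n / 2 : ℝ) * m) (if m = 0 then 0 else G n m) := by
    intro n
    induction n with
    | zero =>
      intro _ m
      refine hmono m 0 _ 0 _ (hbase m) (by simp) ?_
      split_ifs with h
      · exact le_rfl
      · have : (1 : ℝ) ≤ m := by exact_mod_cast Nat.one_le_iff_ne_zero.2 h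
        linarith [hG1 0 m this]
    | succ n ih =>
      intro hn
      have ih := ih (by omega)
      have inner : ∀ m : ℕ, P m ((((n + 1 : ℕ) : ℝ) / 2) * m)
          (m * (c * (B * m) ^ a * (G n (B * m) + 1))) := by
        intro m
        induction m with
        | zero => simpa using hbase 0
        | succ m ihm =>
          have h1 := hstep m ((n + 1) * m + 1) _ _ _ _ ihm (ih ((n + 1) * m + 1 + 1))
          rw [if_neg (by omega)] at h1
          have hD : ((((n + 1) * m + 1 : ℕ) : ℝ) + 1) = ((n : ℝ) + 1) * m + 2 := by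
            push_cast; ring
          have hm0 : (0 : ℝ) ≤ m := Nat.cast_nonneg m
          have hn0 : (0 : ℝ) ≤ n := Nat.cast_nonneg n
          have hnN : (n : ℝ) + 1 ≤ N := by exact_mod_cast hn
          have hDB : ((n : ℝ) + 1) * m + 2 ≤ B * (m + 1) := by
            rw [hB]
            nlinarith
          have hDpos : (0 : ℝ) < ((n : ℝ) + 1) * m + 2 := by positivity
          refine hmono _ _ _ _ _ h1 ?_ ?_
          · rw [hD, le_div_iff₀ hDpos]
            push_cast
            nlinarith
          · push_cast at h1 ⊢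
            have e1 : (((n : ℝ) + 1) * m + 1 + 1) = ((n : ℝ) + 1) * m + 2 := by ring
            rw [e1]
            have h2 : c * (((n : ℝ) + 1) * m + 2) ^ a * (G n (((n : ℝ) + 1) * m + 2) + 1)
                ≤ c * (B * (m + 1)) ^ a * (G n (B * (m + 1)) + 1) := by
              have h3 := hGmono n _ _ hDpos.le hDB
              have h4 := hG1 n (((n : ℝ) + 1) * m + 2) (by nlinarith)
              have h5 : (((n : ℝ) + 1) * m + 2) ^ a ≤ (B * (m + 1)) ^ a :=
                pow_le_pow_left₀ hDpos.le hDB _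
              have h6 : 0 ≤ (((n : ℝ) + 1) * m + 2) ^ a := by positivity
              refine mul_le_mul (mul_le_mul_of_nonneg_left h5 (by linarith)) (by linarith)
                (by linarith) (by positivity)
            have h7 : c * (B * m) ^ a * (G n (B * m) + 1)
                ≤ c * (B * (m + 1)) ^ a * (G n (B * (m + 1)) + 1) := by
              have hBm : B * (m : ℝ) ≤ B * (m + 1) := by nlinarith
              have hBm0 : 0 ≤ B * (m : ℝ) := by positivity
              have h3 := hGmono n _ _ hBm0 hBm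
              have h5 : (B * (m : ℝ)) ^ a ≤ (B * (m + 1)) ^ a := pow_le_pow_left₀ hBm0 hBm _
              have h8 : 0 ≤ G n (B * (m : ℝ)) := by
                simp only [hG]
                positivity
              refine mul_le_mul (mul_le_mul_of_nonneg_left h5 (by linarith)) (by linarith)
                (by linarith) (by positivity)
            have h9 := mul_le_mul_of_nonneg_left h7 hm0
            linarith
      intro m
      refine hmono _ _ _ _ _ (inner m) le_rfl ?_
      split_ifs with h
      · subst h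
        simp
      · exact hGstep n m (by exact_mod_cast Nat.one_le_iff_ne_zero.2 h)
  have h := key N le_rfl 1
  rw [if_neg one_ne_zero] at h
  simpa [hG] using h

end Vale.Agent.P302.StarRate
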