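import Vale.Agent.P302.Pad

/-!
From instances with gap `N / 16` and `OPT` at most `20 ((2c)^N (N+2)^((a+1) N^2) + 1)` to the rate
`sqrt (log OPT / log log OPT)` for every large value of `OPT`.
-/

namespace Vale.Agent.P302.StarRate

open Filter Real

/-- the choice of the number of generations -/
theorem exists_N (c : ℝ) (hc : 1 ≤ c) (a : ℕ) : ∃ δ : ℝ, 0 < δ ∧ ∃ m₀ : ℕ, ∀ m : ℕ, m₀ ≤ m →
    ∃ N : ℕ, δ * √(log m / log (log m)) ≤ (N : ℝ) / 16 ∧
      20 * ((2 * c) ^ N * (N + 2 : ℝ) ^ ((a + 1) * N ^ 2) + 1) ≤ m := by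
  set k : ℝ := (a : ℝ) + 1 with hk
  have ha0 : (0 : ℝ) ≤ a := Nat.cast_nonneg a
  have hk1 : 1 ≤ k := by rw [hk]; linarith
  set η : ℝ := 1 / (2 * k) with hη
  have hη0 : 0 < η := by positivity
  have hη1 : η ≤ 1 := by
    rw [hη, div_le_one (by positivity)]
    linarith
  have hηk : k * η ^ 2 ≤ 1 / 4 := by
    have : k * η ^ 2 = 1 / (4 * k) := by
      rw [hη]; field_simp; ring
    rw [this]
    exact one_div_le_one_div_of_le (by norm_num) (by linarith)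
  have hx : Tendsto (fun m : ℕ => log (m : ℝ)) atTop atTop :=
    tendsto_log_atTop.comp tendsto_natCast_atTop_atTop
  have hlog2c : 0 ≤ log (2 * c) := log_nonneg (by linarith)
  have E1 : ∀ᶠ x : ℝ in atTop, 4 * log (2 * c) + 8 / η ^ 2 + 2 ≤ √x :=
    tendsto_sqrt_atTop.eventually_ge_atTop _
  have E2 : ∀ᶠ x : ℝ in atTop, 4 * log 40 ≤ x := eventually_ge_atTop _
  have E4 : ∀ᶠ x : ℝ in atTop, 1 ≤ log x := tendsto_log_atTop.eventually_ge_atTop _
  have E0 : ∀ᶠ x : ℝ in atTop, 1 ≤ x := eventually_ge_atTop _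
  have E := hx.eventually (E1.and (E2.and (E4.and E0)))
  obtain ⟨m₀, hm₀⟩ := eventually_atTop.1 (E.and (eventually_ge_atTop 1))
  refine ⟨η / 32, by positivity, m₀, fun m hm => ?_⟩
  obtain ⟨⟨e1, e2, e4, e0⟩, hm1⟩ := hm₀ m hm
  set x : ℝ := log m with hxdef
  have hmpos : (0 : ℝ) < m := by exact_mod_cast hm1
  have hsq : √x * √x = x := mul_self_sqrt (by linarith)
  have h8 : 0 < 8 / η ^ 2 := by positivity
  have hs2 : 2 ≤ √x := by linarith
  -- log x ≤ 2 √x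
  have hlogx : log x ≤ 2 * √x := by
    have h1 : log (√x) ≤ √x - 1 := log_le_sub_one_of_pos (by linarith)
    rw [log_sqrt (by linarith)] at h1
    linarith
  have hlogpos : 0 < log x := by linarith
  set r : ℝ := √(x / log x) with hr
  have hr0 : 0 ≤ r := sqrt_nonneg _
  have hrsq : r ^ 2 = x / log x := sq_sqrt (by positivity)
  have hrx : r ≤ √x := sqrt_le_sqrt (div_le_self (by linarith) e4)
  have hrbig : 1 ≤ η / 2 * r := by
    have h1 : √x / 2 ≤ r ^ 2 := by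
      rw [hrsq, le_div_iff₀ hlogpos]
      nlinarith
    have h2 : 4 / η ^ 2 ≤ r ^ 2 := by
      have : 4 / η ^ 2 = 8 / η ^ 2 / 2 := by ring
      rw [this]
      linarith
    have h3 : 1 ≤ (η / 2 * r) ^ 2 := by
      have h4 : (η / 2 * r) ^ 2 = η ^ 2 / 4 * r ^ 2 := by ring
      rw [h4]
      have h5 := mul_le_mul_of_nonneg_left h2 (by positivity : 0 ≤ η ^ 2 / 4)
      have h6 : η ^ 2 / 4 * (4 / η ^ 2) = 1 := by field_simp
      linarith
    by_contra hcon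
    push Not at hcon
    have : (η / 2 * r) ^ 2 < 1 := by
      rw [sq_lt_one_iff₀ (by positivity)]
      exact hcon
    linarith
  refine ⟨⌊η * r⌋₊, ?_, ?_⟩
  · have h1 := Nat.lt_floor_add_one (η * r)
    linarith
  · set N : ℕ := ⌊η * r⌋₊ with hN
    have hNle : (N : ℝ) ≤ η * r := Nat.floor_le (by positivity)
    have hN0 : (0 : ℝ) ≤ N := Nat.cast_nonneg N
    have hNs : (N : ℝ) ≤ √x := by
      have : η * r ≤ 1 * r := mul_le_mul_of_nonneg_right hη1 hr0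
      linarith
    -- first factor
    have f1 : (2 * c) ^ N ≤ exp (x / 4) := by
      rw [← log_le_iff_le_exp (by positivity), log_pow]
      have : (N : ℝ) * log (2 * c) ≤ √x * (√x / 4) :=
        mul_le_mul hNs (by linarith) hlog2c (by linarith)
      linarith [hsq, show √x * (√x / 4) = (√x * √x) / 4 by ring]
    have f2 : (N + 2 : ℝ) ^ ((a + 1) * N ^ 2) ≤ exp (x / 4) := by
      rw [← log_le_iff_le_exp (by positivity), log_pow]
      push_cast
      have g1 : log (N + 2 : ℝ) ≤ log x := by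
        refine log_le_log (by linarith) ?_
        nlinarith
      have g2 : (N : ℝ) ^ 2 ≤ η ^ 2 * r ^ 2 := by
        rw [← mul_pow]
        exact pow_le_pow_left₀ hN0 hNle 2
      have g3 : ((a : ℝ) + 1) * (N : ℝ) ^ 2 ≤ k * (η ^ 2 * r ^ 2) :=
        mul_le_mul_of_nonneg_left g2 (by linarith)
      calc ((a : ℝ) + 1) * (N : ℝ) ^ 2 * log (N + 2 : ℝ)
          ≤ k * (η ^ 2 * r ^ 2) * log x :=
            mul_le_mul g3 g1 (log_nonneg (by linarith)) (by positivity)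
        _ = k * η ^ 2 * x := by
            rw [hrsq]; field_simp
        _ ≤ 1 / 4 * x := mul_le_mul_of_nonneg_right hηk (by linarith)
        _ = x / 4 := by ring
    have f3 : (40 : ℝ) ≤ exp (x / 4) := by
      rw [← log_le_iff_le_exp (by norm_num)]
      linarith
    have f4 : (1 : ℝ) ≤ (2 * c) ^ N * (N + 2 : ℝ) ^ ((a + 1) * N ^ 2) :=
      one_le_mul_of_one_le_of_one_le (one_le_pow₀ (by linarith)) (one_le_pow₀ (by linarith))
    have f5 : (2 * c) ^ N * (N + 2 : ℝ) ^ ((a + 1) * N ^ 2) ≤ exp (x / 4) * exp (x / 4) :=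
      mul_le_mul f1 f2 (by positivity) (by positivity)
    have f6 : (m : ℝ) = exp (x / 4) * (exp (x / 4) * exp (x / 4)) * exp (x / 4) := by
      rw [← exp_add, ← exp_add, ← exp_add]
      rw [show x / 4 + (x / 4 + x / 4) + x / 4 = x by ring, hxdef, exp_log hmpos]
    calc 20 * ((2 * c) ^ N * (N + 2 : ℝ) ^ ((a + 1) * N ^ 2) + 1)
        ≤ 40 * ((2 * c) ^ N * (N + 2 : ℝ) ^ ((a + 1) * N ^ 2)) := by linarith
      _ ≤ exp (x / 4) * (exp (x / 4) * exp (x / 4)) :=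
          mul_le_mul f3 f5 (by positivity) (by positivity)
      _ ≤ exp (x / 4) * (exp (x / 4) * exp (x / 4)) * exp (x / 4) := by
          refine le_mul_of_one_le_right (by positivity) (by linarith)
      _ = m := f6.symm

theorem rate_of_top (c : ℝ) (hc : 1 ≤ c) (a : ℕ)
    (top : ∀ N : ℕ, ∃ (n : ℕ) (b : Fin n → ℚ), IsInstance b ∧
      (N : ℝ) / 16 ≤ (OPT b : ℝ) - LP b ∧
      (OPT b : ℝ) ≤ 20 * ((2 * c) ^ N * (N + 2 : ℝ) ^ ((a + 1) * N ^ 2) + 1)) :
    ∃ δ : ℝ, 0 < δ ∧ ∃ m₀ : ℕ, ∀ m : ℕ, m₀ ≤ m → ∃ (n : ℕ) (b : Fin n → ℚ),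
      IsInstance b ∧ OPT b = m ∧ δ * √(log m / log (log m)) ≤ (OPT b : ℝ) - LP b := by
  obtain ⟨δ, hδ, m₀, h⟩ := exists_N c hc a
  refine ⟨δ, hδ, m₀, fun m hm => ?_⟩
  obtain ⟨N, hN1, hN2⟩ := h m hm
  obtain ⟨n, b, hb, hgap, hopt⟩ := top N
  have hle : OPT b ≤ m := by exact_mod_cast hopt.trans hN2
  obtain ⟨j, rfl⟩ : ∃ j, m = OPT b + j := ⟨m - OPT b, by omega⟩
  obtain ⟨n', b', h1, h2, h3⟩ := Pad.pad hb j
  refine ⟨n', b', h1, h2, ?_⟩
  rw [h2]
  push_cast at hN1 ⊢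
  linarith

end Vale.Agent.P302.StarRate
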