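import Vale.Agent.P302.StarTop

/-!
Quantitative version of the recursion for star systems: the total weight of the fractional
solution is bounded as well.
-/

namespace Vale.Agent.P302.Star

open Finset

/-- there is a star system with `m` edges and gap at least `v` and a fractional solution of total
weight at most `L` -/
def HasL (m : ℕ) (v L : ℝ) : Prop :=
  ∃ (S : Sys m) (Q : ℕ) (y : S.T × S.T × S.T → ℝ), S.IntLe Q ∧ S.IsFrac y ∧ v ≤ ∑ τ, y τ - Q ∧
    ∑ τ, y τ ≤ L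

theorem HasL.mono {m : ℕ} {v w L L' : ℝ} (h : HasL m v L) (hw : w ≤ v) (hL : L ≤ L') :
    HasL m w L' := by
  obtain ⟨S, Q, y, h1, h2, h3, h4⟩ := h
  exact ⟨S, Q, y, h1, h2, hw.trans h3, h4.trans hL⟩

/-- `exists_st` with a bound for the sums -/
theorem exists_stL (d : ℕ) (u g : ℕ → ℝ) (a B : ℝ) (ha : 0 ≤ a) (hu : ∀ j, 0 ≤ u j)
    (hg : ∀ j, 0 ≤ g j) (hsu : ∑ j ∈ range (d + 1), u j ≤ B)
    (hsg : ∑ j ∈ range (d + 1), g j ≤ B) :
    ∃ M N : ℕ, ∀ k : ℕ, k ≤ d → ∃ s t : ℕ → ℝ, (∀ j, j ≤ d → 0 ≤ s j) ∧ (∀ j, j < d → 0 ≤ t j) ∧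
      (a + ∑ j ∈ range (d + 1), s j = ((k + (d + 1) * M : ℕ) : ℝ)) ∧
      (∀ j, j < d → u (j + 1) + s (j + 1) + t j = N) ∧
      (∀ j, j < d → g j + s j + t j = N) ∧
      ∑ j ∈ range (d + 1), s j + ∑ j ∈ range d, t j ≤ (d + 1) * (7 * B + 6) := by
  set κ : ℕ → ℝ := fun j => ∑ l ∈ range j, (g l - u (l + 1)) with hκ
  set Ks : ℝ := ∑ j ∈ range (d + 1), κ j with hKs
  have hd : (0 : ℝ) < (d : ℝ) + 1 := by positivity
  have hB0 : 0 ≤ B := (Finset.sum_nonneg fun j _ => hu j).trans hsu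
  -- bounds for `κ`
  have hκb : ∀ j, j ≤ d → -B ≤ κ j ∧ κ j ≤ B := by
    intro j hj
    have h1 : ∑ l ∈ range j, g l ≤ B :=
      (Finset.sum_le_sum_of_subset_of_nonneg (Finset.range_subset_range.2 (by omega))
        fun i _ _ => hg i).trans hsg
    have h2 : ∑ l ∈ range j, u (l + 1) ≤ B := by
      have h3 := Finset.sum_range_succ' u j
      have h4 : ∑ l ∈ range (j + 1), u l ≤ B :=
        (Finset.sum_le_sum_of_subset_of_nonneg (Finset.range_subset_range.2 (by omega))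
          fun i _ _ => hu i).trans hsu
      have := hu 0
      linarith
    have h3 : 0 ≤ ∑ l ∈ range j, g l := Finset.sum_nonneg fun l _ => hg l
    have h4 : 0 ≤ ∑ l ∈ range j, u (l + 1) := Finset.sum_nonneg fun l _ => hu _
    have h5 : κ j = ∑ l ∈ range j, g l - ∑ l ∈ range j, u (l + 1) := Finset.sum_sub_distrib _ _
    rw [h5]
    constructor <;> linarith
  have hKb : -((d + 1) * B) ≤ Ks ∧ Ks ≤ (d + 1) * B := by
    constructor
    · have h1 : ∑ _j ∈ range (d + 1), (-B) ≤ Ks := Finset.sum_le_sum fun j hj =>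
        (hκb j (by have := Finset.mem_range.1 hj; omega)).1
      rw [Finset.sum_const, Finset.card_range, nsmul_eq_mul] at h1
      push_cast at h1
      linarith
    · have h1 : Ks ≤ ∑ _j ∈ range (d + 1), B := Finset.sum_le_sum fun j hj =>
        (hκb j (by have := Finset.mem_range.1 hj; omega)).2
      rw [Finset.sum_const, Finset.card_range, nsmul_eq_mul] at h1
      push_cast at h1
      linarith
  have hgb : ∀ j, j ≤ d → g j ≤ B := fun j hj =>
    (Finset.single_le_sum (f := g) (fun i _ => hg i) (Finset.mem_range.2 (by omega))).trans hsg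
  -- the choice of `M` and `N`
  set M : ℕ := ⌈a / (d + 1) + 2 * B⌉₊ with hMdef
  have hM1 : a / (d + 1) + 2 * B ≤ M := Nat.le_ceil _
  have ha' : 0 ≤ a / ((d : ℝ) + 1) := div_nonneg ha hd.le
  have hM2 : (M : ℝ) ≤ a / (d + 1) + 2 * B + 1 :=
    (Nat.ceil_lt_add_one (by positivity)).le
  set N : ℕ := ⌈5 * B + 2⌉₊ with hNdef
  have hN1 : 5 * B + 2 ≤ N := Nat.le_ceil _
  have hN2 : (N : ℝ) ≤ 5 * B + 3 := by
    have := (Nat.ceil_lt_add_one (a := 5 * B + 2) (by positivity)).le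
    rw [← hNdef] at this
    linarith
  refine ⟨M, N, fun k hk => ?_⟩
  have hk' : (k : ℝ) ≤ d := by exact_mod_cast hk
  have hk0 : (0 : ℝ) ≤ k := Nat.cast_nonneg k
  set σ : ℝ := (k - a - Ks) / (d + 1) with hσ
  have hσ1 : -(a / (d + 1)) - B ≤ σ := by
    rw [hσ, le_div_iff₀ hd]
    have e : (-(a / ((d : ℝ) + 1)) - B) * (d + 1) = -a - (d + 1) * B := by
      field_simp
    rw [e]
    linarith [hKb.2]
  have hσ2 : σ ≤ 1 - a / (d + 1) + B := by
    rw [hσ, div_le_iff₀ hd]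
    have e : (1 - a / ((d : ℝ) + 1) + B) * (d + 1) = (d + 1) - a + (d + 1) * B := by
      field_simp
    rw [e]
    linarith [hKb.1]
  have hs0 : ∀ j, j ≤ d → 0 ≤ σ + κ j + M := fun j hj => by
    have := (hκb j hj).1
    linarith
  have hs1 : ∀ j, j ≤ d → σ + κ j + M ≤ 4 * B + 2 := fun j hj => by
    have := (hκb j hj).2
    linarith
  refine ⟨fun j => σ + κ j + M, fun j => N - g j - (σ + κ j + M), hs0, ?_, ?_, ?_, ?_, ?_⟩
  · intro j hj
    have h1 := hs1 j hj.le
    have h2 := hgb j hj.le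
    simp only
    linarith
  · rw [Finset.sum_add_distrib, Finset.sum_add_distrib, Finset.sum_const, Finset.sum_const,
      Finset.card_range, ← hKs]
    simp only [nsmul_eq_mul]
    push_cast
    rw [hσ]
    field_simp
    ring
  · intro j hj
    have h1 : κ (j + 1) = κ j + (g j - u (j + 1)) := by
      rw [hκ]
      exact Finset.sum_range_succ _ _
    simp only [h1]
    ring
  · intro j hj
    simp only
    ring
  · have h1 : ∑ j ∈ range (d + 1), (σ + κ j + M) =
        ∑ j ∈ range d, (σ + κ j + M) + (σ + κ d + M) := Finset.sum_range_succ _ _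
    have h2 : ∑ j ∈ range d, ((N : ℝ) - g j - (σ + κ j + M)) ≤
        ∑ j ∈ range d, ((5 * B + 3) - (σ + κ j + M)) :=
      Finset.sum_le_sum fun j _ => by
        have := hg j
        linarith
    have h3 : ∑ j ∈ range d, ((5 * B + 3) - (σ + κ j + M)) =
        d * (5 * B + 3) - ∑ j ∈ range d, (σ + κ j + M) := by
      rw [Finset.sum_sub_distrib, Finset.sum_const, Finset.card_range, nsmul_eq_mul]
    have h4 := hs1 d le_rfl
    have hd0 : (0 : ℝ) ≤ d := Nat.cast_nonneg d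
    have h5 : 0 ≤ (d : ℝ) * B := mul_nonneg hd0 hB0
    rw [h1]
    nlinarith

theorem usage_nonneg {m : ℕ} {S : Sys m} {y : S.T × S.T × S.T → ℝ} (hy : S.IsFrac y) (t : S.T) :
    0 ≤ usage y t := by
  rw [usage_eq]
  exact Finset.sum_nonneg fun τ _ => mul_nonneg (hy.nonneg τ) (Nat.cast_nonneg _)

/-- the zero types of pairwise different parts of the same kind are used at most once by a
triple -/
theorem sum_usage_le {m : ℕ} {S : Sys m} {y : S.T × S.T × S.T → ℝ} (hy : S.IsFrac y) {ι : Type}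
    [Fintype ι] (p : ι → Pt m) (w : S.T → ℝ)
    (hw : ∀ τ, S.Good τ → w τ.1 + w τ.2.1 + w τ.2.2 ≤ 1)
    (hwp : ∀ t, ∑ i, (if t = S.zero (p i) then (1 : ℝ) else 0) ≤ w t) :
    ∑ i, usage y (S.zero (p i)) ≤ ∑ τ, y τ := by
  have h1 : ∑ i, usage y (S.zero (p i)) =
      ∑ t, usage y t * ∑ i, (if t = S.zero (p i) then (1 : ℝ) else 0) := by
    simp only [Finset.mul_sum, mul_ite, mul_one, mul_zero]
    rw [Finset.sum_comm]
    refine Finset.sum_congr rfl fun i _ => ?_
    rw [Finset.sum_ite_eq' Finset.univ (S.zero (p i)), if_pos (Finset.mem_univ _)]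
  have h2 : ∑ t, usage y t * ∑ i, (if t = S.zero (p i) then (1 : ℝ) else 0) ≤
      ∑ t, usage y t * w t :=
    Finset.sum_le_sum fun t _ => mul_le_mul_of_nonneg_left (hwp t) (usage_nonneg hy t)
  rw [h1]
  refine h2.trans ?_
  rw [sum_usage]
  refine Finset.sum_le_sum fun τ _ => ?_
  by_cases h0 : y τ = 0
  · rw [h0]; simp
  · have h3 := mul_le_mul_of_nonneg_left (hw τ (hy.good τ h0)) (hy.nonneg τ)
    linarith

open Classical in
theorem sum_usage_B {m : ℕ} {S : Sys m} {y : S.T × S.T × S.T → ℝ} (hy : S.IsFrac y) :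
    ∑ i : Fin m, usage y (S.zero (.B i)) ≤ ∑ τ, y τ := by
  refine sum_usage_le hy (fun i => .B i) (fun t => if ∃ i, S.part t = .B i then 1 else 0) ?_ ?_
  · rintro τ ⟨i, h1, h2, h3, _⟩
    simp [h1, h2, h3]
  · intro t
    by_cases h : ∃ i, S.part t = .B i
    · obtain ⟨i, hi⟩ := h
      rw [if_pos ⟨i, hi⟩]
      have h1 : ∀ j : Fin m, (if t = S.zero (.B j) then (1 : ℝ) else 0) ≤
          if j = i then 1 else 0 := by
        intro j
        by_cases hj : t = S.zero (.B j)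
        · have : S.part t = .B j := by rw [hj, S.part_zero]
          rw [hi] at this
          have hij : j = i := by simpa using this.symm
          rw [if_pos hij]
          split_ifs <;> norm_num
        · rw [if_neg hj]
          split_ifs <;> norm_num
      refine (Finset.sum_le_sum fun j _ => h1 j).trans ?_
      rw [Finset.sum_ite_eq' Finset.univ i, if_pos (Finset.mem_univ i)]
    · rw [if_neg h]
      refine le_of_eq (Finset.sum_eq_zero fun j _ => ?_)
      rw [if_neg]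
      intro hj
      exact h ⟨j, by rw [hj, S.part_zero]⟩

open Classical in
theorem sum_usage_C {m : ℕ} {S : Sys m} {y : S.T × S.T × S.T → ℝ} (hy : S.IsFrac y) :
    ∑ i : Fin m, usage y (S.zero (.C i)) ≤ ∑ τ, y τ := by
  refine sum_usage_le hy (fun i => .C i) (fun t => if ∃ i, S.part t = .C i then 1 else 0) ?_ ?_
  · rintro τ ⟨i, h1, h2, h3, _⟩
    simp [h1, h2, h3]
  · intro t
    by_cases h : ∃ i, S.part t = .C i
    · obtain ⟨i, hi⟩ := h
      rw [if_pos ⟨i, hi⟩]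
      have h1 : ∀ j : Fin m, (if t = S.zero (.C j) then (1 : ℝ) else 0) ≤
          if j = i then 1 else 0 := by
        intro j
        by_cases hj : t = S.zero (.C j)
        · have : S.part t = .C j := by rw [hj, S.part_zero]
          rw [hi] at this
          have hij : j = i := by simpa using this.symm
          rw [if_pos hij]
          split_ifs <;> norm_num
        · rw [if_neg hj]
          split_ifs <;> norm_num
      refine (Finset.sum_le_sum fun j _ => h1 j).trans ?_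
      rw [Finset.sum_ite_eq' Finset.univ i, if_pos (Finset.mem_univ i)]
    · rw [if_neg h]
      refine le_of_eq (Finset.sum_eq_zero fun j _ => ?_)
      rw [if_neg]
      intro hj
      exact h ⟨j, by rw [hj, S.part_zero]⟩

/-- the recursion -/
theorem HasL.step {m D : ℕ} {v₁ v₂ L₁ L₂ : ℝ} (hD : 1 ≤ D) (h1 : HasL m v₁ L₁)
    (h2 : HasL D v₂ L₂) :
    HasL (m + 1) (((D - 1) * (v₁ + 1) + v₂) / D) (L₁ + 8 * D * (L₂ + 1)) := by
  obtain ⟨d, rfl⟩ : ∃ d, D = d + 1 := ⟨D - 1, by omega⟩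
  obtain ⟨S₁, Q₁, y₁, hQ₁, hy₁, hv₁, hL₁⟩ := h1
  obtain ⟨S₂, Q₂, y₂, hQ₂, hy₂, hv₂, hL₂⟩ := h2
  have hu0 : ∀ (p : ∀ j : ℕ, j < d + 1 → Pt (d + 1)) (j : ℕ),
      0 ≤ (if h : j < d + 1 then usage y₂ (S₂.zero (p j h)) else (0 : ℝ)) := by
    intro p j
    split_ifs
    · exact usage_nonneg hy₂ _
    · exact le_rfl
  have hsB : ∑ j ∈ range (d + 1),
      (if h : j < d + 1 then usage y₂ (S₂.zero (.B ⟨j, h⟩)) else (0 : ℝ)) ≤ ∑ τ, y₂ τ := by
    refine le_trans (le_of_eq ?_) (sum_usage_B hy₂)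
    rw [← Fin.sum_univ_eq_sum_range (fun j => if h : j < d + 1 then
      usage y₂ (S₂.zero (.B ⟨j, h⟩)) else (0 : ℝ)) (d + 1)]
    refine Finset.sum_congr rfl fun j _ => ?_
    rw [dif_pos j.2]
  have hsC : ∑ j ∈ range (d + 1),
      (if h : j < d + 1 then usage y₂ (S₂.zero (.C ⟨j, h⟩)) else (0 : ℝ)) ≤ ∑ τ, y₂ τ := by
    refine le_trans (le_of_eq ?_) (sum_usage_C hy₂)
    rw [← Fin.sum_univ_eq_sum_range (fun j => if h : j < d + 1 then
      usage y₂ (S₂.zero (.C ⟨j, h⟩)) else (0 : ℝ)) (d + 1)]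
    refine Finset.sum_congr rfl fun j _ => ?_
    rw [dif_pos j.2]
  obtain ⟨M, N, hMN⟩ := exists_stL d
    (fun j => if h : j < d + 1 then usage y₂ (S₂.zero (.B ⟨j, h⟩)) else 0)
    (fun j => if h : j < d + 1 then usage y₂ (S₂.zero (.C ⟨j, h⟩)) else 0)
    (usage y₁ (S₁.zero .A)) (∑ τ, y₂ τ) (usage_nonneg hy₁ _)
    (fun j => hu0 (fun j h => .B ⟨j, h⟩) j) (fun j => hu0 (fun j h => .C ⟨j, h⟩) j) hsB hsC
  set X : ℕ := ∑ a, mulc S₁ S₂ 0 N a * wt S₁ S₂ a + (d + 1) * M + d * Q₁ + Q₂ with hX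
  have hX' : X % (d + 1) ≤ d := Nat.le_of_lt_succ (Nat.mod_lt _ (Nat.succ_pos d))
  obtain ⟨s, t, hs, ht, hA, hB, hC, hbound⟩ := hMN (d - X % (d + 1)) (by omega)
  set NA : ℕ := d - X % (d + 1) + (d + 1) * M with hNA
  set s' : Fin (d + 1) → ℝ := fun j => s j with hs'
  set t' : Fin d → ℝ := fun j => t j with ht'
  have hfrac : (comp S₁ S₂ NA N).IsFrac (push (cf y₁ y₂ s' t') (gf S₁ S₂)) := by
    refine frac_comp hy₁ hy₂ (fun j => hs j (by omega)) (fun j => ht j j.2) ?_ ?_ ?_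
    · rw [← hA, ← Fin.sum_univ_eq_sum_range]
    · intro j
      have h := hB j j.2
      rw [dif_pos (by omega)] at h
      exact h
    · intro j
      have h := hC j j.2
      rw [dif_pos (by omega)] at h
      exact h
  have hW : ∑ a, mulc S₁ S₂ NA N a * wt S₁ S₂ a + d * Q₁ + Q₂
      = (d + 1) * (X / (d + 1)) + d := by
    rw [sum_mulc_add]
    have h1 := Nat.div_add_mod X (d + 1)
    omega
  have h2 : ∑ τ, push (cf y₁ y₂ s' t') (gf S₁ S₂) τ
      = ∑ τ, y₁ τ + (∑ τ, y₂ τ + (∑ j, s' j + ∑ j, t' j)) := by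
    rw [sum_push, Fintype.sum_sum_type, Fintype.sum_sum_type, Fintype.sum_sum_type]
    rfl
  refine ⟨comp S₁ S₂ NA N, X / (d + 1), push (cf y₁ y₂ s' t') (gf S₁ S₂), ?_, hfrac, ?_, ?_⟩
  · refine int_comp hQ₁ hQ₂ ?_
    rw [hW]
    ring_nf
    omega
  · have h1 := sum_mulc_eq hfrac hy₁ hy₂
    have h3 : (((∑ a, mulc S₁ S₂ NA N a * wt S₁ S₂ a : ℕ) : ℝ) + d * Q₁ + Q₂)
        = (d + 1) * ((X / (d + 1) : ℕ) : ℝ) + d := by exact_mod_cast hW
    have h4 : ∑ τ, push (cf y₁ y₂ s' t') (gf S₁ S₂) τ - ((X / (d + 1) : ℕ) : ℝ)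
        = (d * ((∑ τ, y₁ τ - Q₁) + 1) + (∑ τ, y₂ τ - Q₂)) / (d + 1) := by
      rw [h1] at h3
      have hd : (0 : ℝ) < (d : ℝ) + 1 := by positivity
      rw [h2, eq_div_iff hd.ne']
      linarith
    refine le_trans ?_ (le_of_eq h4.symm)
    push_cast
    have hd : (0 : ℝ) < (d : ℝ) + 1 := by positivity
    refine div_le_div_of_nonneg_right ?_ hd.le
    have hd0 : (0 : ℝ) ≤ d := Nat.cast_nonneg d
    have := mul_le_mul_of_nonneg_left hv₁ hd0
    nlinarith
  · refine le_trans (le_of_eq h2) ?_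
    have e1 : ∑ j, s' j = ∑ j ∈ range (d + 1), s j := Fin.sum_univ_eq_sum_range s (d + 1)
    have e2 : ∑ j, t' j = ∑ j ∈ range d, t j := Fin.sum_univ_eq_sum_range t d
    rw [e1, e2]
    push_cast
    have hd0 : (0 : ℝ) ≤ d := Nat.cast_nonneg d
    have hy20 : 0 ≤ ∑ τ, y₂ τ := Finset.sum_nonneg fun τ _ => hy₂.nonneg τ
    have h5 : ((d : ℝ) + 1) * (∑ τ, y₂ τ) ≤ (d + 1) * L₂ :=
      mul_le_mul_of_nonneg_left hL₂ (by positivity)
    nlinarith

theorem HasL.base (m : ℕ) : HasL m 0 0 := by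
  refine ⟨triv m, 0, fun _ => 0, ?_, ⟨fun _ => le_rfl, fun _ h => absurd rfl h, ?_⟩, by simp,
    by simp⟩
  · intro x hx _
    refine le_of_eq (Finset.sum_eq_zero fun τ _ => ?_)
    by_contra h
    obtain ⟨i, _, _, _, hd⟩ := hx τ h
    simp [triv] at hd
  · intro t ht
    exact absurd rfl (ht t)

theorem HasL.linear (i : ℕ) : ∀ m : ℕ, 1 ≤ m →
    HasL m ((i / 2 : ℝ) * m) (9 ^ i * (m : ℝ) ^ (2 * i) * ((i : ℝ) + 3) ^ (i ^ 2) - 1) := by
  induction i with
  | zero =>
    intro m _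
    simpa using HasL.base m
  | succ i ih =>
    intro m hm
    have hm' : (1 : ℝ) ≤ m := by exact_mod_cast hm
    set D : ℕ := m * (i + 4) with hD
    have hD1 : 1 ≤ D := Nat.mul_pos hm (by omega)
    have hDR : (D : ℝ) = m * (i + 4) := by rw [hD]; push_cast; ring
    have hDpos : (0 : ℝ) < D := by exact_mod_cast hD1
    set B : ℝ := 9 ^ i * (D : ℝ) ^ (2 * i) * ((i : ℝ) + 3) ^ (i ^ 2) with hB
    have hB1 : 1 ≤ B := by
      have h1 : (1 : ℝ) ≤ 9 ^ i := one_le_pow₀ (by norm_num)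
      have h2 : (1 : ℝ) ≤ (D : ℝ) ^ (2 * i) := one_le_pow₀ (by exact_mod_cast hD1)
      have h3 : (1 : ℝ) ≤ ((i : ℝ) + 3) ^ (i ^ 2) := one_le_pow₀ (by
        have : (0 : ℝ) ≤ i := Nat.cast_nonneg i
        linarith)
      rw [hB]
      exact one_le_mul_of_one_le_of_one_le (one_le_mul_of_one_le_of_one_le h1 h2) h3
    -- the inner induction over the number of edges
    have hin : ∀ k : ℕ, k ≤ m → HasL k ((((i + 1 : ℕ) : ℝ) / 2) * k) (k * (8 * D * B)) := by
      intro k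
      induction k with
      | zero =>
        intro _
        simpa using HasL.base 0
      | succ k ihk =>
        intro hk
        have hk' : (k : ℝ) + 1 ≤ m := by exact_mod_cast hk
        have hk0 : (0 : ℝ) ≤ k := Nat.cast_nonneg k
        have hi0 : (0 : ℝ) ≤ i := Nat.cast_nonneg i
        refine (HasL.step hD1 (ihk (by omega)) (ih D hD1)).mono ?_ ?_
        · rw [le_div_iff₀ hDpos]
          push_cast
          have h1 : (i + 1) / 2 * k + 1 ≤ (D : ℝ) / 2 := by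
            rw [hDR]
            nlinarith
          nlinarith
        · push_cast
          rw [hB]
          linarith
    refine (hin m le_rfl).mono le_rfl ?_
    -- the bound
    have h1 : (m : ℝ) * (8 * D * B) ≤ 9 ^ (i + 1) * (m : ℝ) ^ (2 * (i + 1)) *
        ((i : ℝ) + 4) ^ ((i + 1) ^ 2) - 1 := by
      have h2 : B ≤ 9 ^ i * (D : ℝ) ^ (2 * i) * ((i : ℝ) + 4) ^ (i ^ 2) := by
        rw [hB]
        refine mul_le_mul_of_nonneg_left (pow_le_pow_left₀ (by positivity) (by linarith) _)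
          (by positivity)
      have h3 : (9 * (m : ℝ) * D) * (9 ^ i * (D : ℝ) ^ (2 * i) * ((i : ℝ) + 4) ^ (i ^ 2)) =
          9 ^ (i + 1) * (m : ℝ) ^ (2 * (i + 1)) * ((i : ℝ) + 4) ^ ((i + 1) ^ 2) := by
        rw [hDR, mul_pow]
        have e : (i + 1) ^ 2 = i ^ 2 + 2 * i + 1 := by ring
        rw [e, pow_succ, pow_add, pow_succ]
        ring
      have h4 : 1 ≤ (m : ℝ) * D * B := by
        have h5 : (1 : ℝ) ≤ D := by exact_mod_cast hD1
        exact one_le_mul_of_one_le_of_one_le (one_le_mul_of_one_le_of_one_le hm' h5) hB1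
      have h6 := mul_le_mul_of_nonneg_left h2 (show (0 : ℝ) ≤ 9 * (m : ℝ) * D by positivity)
      rw [h3] at h6
      nlinarith
    refine h1.trans (le_of_eq ?_)
    push_cast
    ring_nf

end Vale.Agent.P302.Star
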