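import Vale.Agent.P302.StarSizeTop

/-!
The gap `OPT - LP` can be at least `c * sqrt (log OPT / log log OPT)`.
-/

namespace Vale.Agent.P302.Star

open Filter

/-- an instance with gap at least `i / 16` and at most `7 * 9 ^ i * (i + 3) ^ (i ^ 2)` items -/
theorem gap_small (i : ℕ) : ∃ (n : ℕ) (a : Fin n → ℚ), IsInstance a ∧
    (i / 16 : ℝ) ≤ (OPT a : ℝ) - LP a ∧ (OPT a : ℝ) ≤ 7 * (9 ^ i * ((i : ℝ) + 3) ^ (i ^ 2)) := by
  obtain ⟨n, a, ha, hgap, hn⟩ := HasL.top (HasL.linear i 1 le_rfl)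
  refine ⟨n, a, ha, ?_, ?_⟩
  · refine le_trans (le_of_eq ?_) hgap
    push_cast
    ring
  · have h1 : OPT a ≤ n := Nat.sInf_le (packs_exists ha)
    have h2 : (OPT a : ℝ) ≤ n := by exact_mod_cast h1
    have h3 : (1 : ℝ) ≤ 9 ^ i * ((i : ℝ) + 3) ^ (i ^ 2) :=
      one_le_mul_of_one_le_of_one_le (one_le_pow₀ (by norm_num)) (one_le_pow₀ (by
        have : (0 : ℝ) ≤ i := Nat.cast_nonneg i
        linarith))
    simp only [Nat.cast_one, one_pow, mul_one] at hn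
    linarith

/-- padding -/
theorem gap_pad (i m : ℕ) (hm : 7 * (9 ^ i * ((i : ℝ) + 3) ^ (i ^ 2)) ≤ (m : ℝ)) :
    ∃ (n : ℕ) (a : Fin n → ℚ), IsInstance a ∧ OPT a = m ∧ (i / 16 : ℝ) ≤ (OPT a : ℝ) - LP a := by
  obtain ⟨n, a, ha, hgap, hn⟩ := gap_small i
  have h1 : OPT a ≤ m := by exact_mod_cast hn.trans hm
  obtain ⟨j, rfl⟩ : ∃ j, m = OPT a + j := ⟨m - OPT a, by omega⟩
  obtain ⟨n', a', h1, h2, h3⟩ := Pad.pad ha j
  refine ⟨n', a', h1, h2, ?_⟩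
  rw [h2]
  push_cast
  linarith

/-- the numbers -/
theorem numbers {m : ℝ} (hm0 : 0 < m) (h36 : 36 ≤ Real.log m) (h1 : 1 ≤ Real.log (Real.log m))
    {i : ℕ} (hi : (i : ℝ) ≤ (1 / 2) * Real.sqrt (Real.log m / Real.log (Real.log m))) :
    7 * (9 ^ i * ((i : ℝ) + 3) ^ (i ^ 2)) ≤ m := by
  set l : ℝ := Real.log m with hl
  set ll : ℝ := Real.log l with hll
  have hi0 : (0 : ℝ) ≤ i := Nat.cast_nonneg i
  have hl0 : 0 < l := by linarith
  have hll0 : 0 < ll := by linarith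
  set s : ℝ := Real.sqrt (l / ll) with hs
  have hs0 : 0 ≤ s := Real.sqrt_nonneg _
  have hs2 : s ^ 2 = l / ll := Real.sq_sqrt (by positivity)
  set r : ℝ := Real.sqrt l with hr
  have hr0 : 0 ≤ r := Real.sqrt_nonneg _
  have hr2 : r ^ 2 = l := Real.sq_sqrt hl0.le
  have hr6 : 6 ≤ r := by
    rw [hr, show (6 : ℝ) = Real.sqrt 36 by rw [show (36 : ℝ) = 6 ^ 2 by norm_num]; simp]
    exact Real.sqrt_le_sqrt h36
  have hsr : s ≤ r := Real.sqrt_le_sqrt (div_le_self hl0.le h1)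
  have hi2 : (i : ℝ) ^ 2 ≤ l / ll / 4 := by
    rw [← hs2]
    nlinarith
  have hi3 : (i : ℝ) + 3 ≤ l := by nlinarith
  have e1 : Real.log ((i : ℝ) + 3) ≤ ll := Real.log_le_log (by linarith) hi3
  have e2 : (i : ℝ) ^ 2 * Real.log ((i : ℝ) + 3) ≤ l / 4 := by
    have h2 : (i : ℝ) ^ 2 * Real.log ((i : ℝ) + 3) ≤ (i : ℝ) ^ 2 * ll :=
      mul_le_mul_of_nonneg_left e1 (sq_nonneg _)
    have h3 : (i : ℝ) ^ 2 * ll ≤ l / ll / 4 * ll := mul_le_mul_of_nonneg_right hi2 hll0.le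
    have h4 : l / ll / 4 * ll = l / 4 := by field_simp
    linarith
  have e3 : Real.log 9 ≤ 3 := by
    have h2 : Real.log 9 = 2 * Real.log 3 := by
      rw [show (9 : ℝ) = 3 ^ 2 by norm_num, Real.log_pow]; norm_num
    have h3 : Real.log 3 ≤ 3 / 2 := by
      rw [Real.log_le_iff_le_exp (by norm_num)]
      have h4 := Real.quadratic_le_exp_of_nonneg (show (0 : ℝ) ≤ 3 / 2 by norm_num)
      linarith
    linarith
  have e4 : (i : ℝ) * Real.log 9 ≤ l / 4 := by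
    have h2 : (i : ℝ) * Real.log 9 ≤ i * 3 := mul_le_mul_of_nonneg_left e3 hi0
    nlinarith
  have e5 : Real.log 7 ≤ 3 := (Real.log_le_log (by norm_num) (by norm_num)).trans e3
  have hpos : 0 < 7 * (9 ^ i * ((i : ℝ) + 3) ^ (i ^ 2)) := by positivity
  rw [← Real.log_le_log_iff hpos hm0, Real.log_mul (by norm_num) (by positivity),
    Real.log_mul (by positivity) (by positivity), Real.log_pow, Real.log_pow]
  push_cast
  linarith

theorem rate : ∃ m₀ : ℕ, ∀ m : ℕ, m₀ ≤ m → ∃ (n : ℕ) (a : Fin n → ℚ), IsInstance a ∧ OPT a = m ∧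
    (1 / 64 : ℝ) * Real.sqrt (Real.log m / Real.log (Real.log m)) ≤ (OPT a : ℝ) - LP a := by
  have t1 : Tendsto (fun m : ℕ => Real.log (m : ℝ)) atTop atTop :=
    Real.tendsto_log_atTop.comp tendsto_natCast_atTop_atTop
  have t2 : Tendsto (fun m : ℕ => Real.log (Real.log (m : ℝ))) atTop atTop :=
    Real.tendsto_log_atTop.comp t1
  have t3 : ∀ᶠ x : ℝ in atTop, Real.log x ≤ 1 / 16 * x := by
    have h := Real.isLittleO_log_id_atTop.bound (show (0 : ℝ) < 1 / 16 by norm_num)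
    filter_upwards [h, eventually_ge_atTop (1 : ℝ)] with x hx hx1
    have h1 : |Real.log x| ≤ 1 / 16 * |x| := by simpa [Real.norm_eq_abs] using hx
    rw [abs_of_nonneg (by linarith : (0 : ℝ) ≤ x)] at h1
    exact (le_abs_self _).trans h1
  have hev : ∀ᶠ m : ℕ in atTop, 0 < (m : ℝ) ∧ 36 ≤ Real.log (m : ℝ) ∧
      1 ≤ Real.log (Real.log (m : ℝ)) ∧ Real.log (Real.log (m : ℝ)) ≤ 1 / 16 * Real.log (m : ℝ) := by
    filter_upwards [eventually_gt_atTop 0, t1.eventually_ge_atTop 36, t2.eventually_ge_atTop 1,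
      t1.eventually t3] with m h0 h1 h2 h3
    exact ⟨by exact_mod_cast h0, h1, h2, h3⟩
  obtain ⟨m₀, hm₀⟩ := Filter.eventually_atTop.1 hev
  refine ⟨m₀, fun m hm => ?_⟩
  obtain ⟨h0, h36, h1, h16⟩ := hm₀ m hm
  set s : ℝ := Real.sqrt (Real.log m / Real.log (Real.log m)) with hs
  have hs4 : 4 ≤ s := by
    rw [hs, show (4 : ℝ) = Real.sqrt 16 by rw [show (16 : ℝ) = 4 ^ 2 by norm_num]; simp]
    refine Real.sqrt_le_sqrt ?_
    rw [le_div_iff₀ (by linarith)]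
    linarith
  set i : ℕ := ⌊(1 / 2) * s⌋₊ with hi
  have hi1 : (i : ℝ) ≤ (1 / 2) * s := Nat.floor_le (by positivity)
  have hi2 : (1 / 2) * s < i + 1 := Nat.lt_floor_add_one _
  obtain ⟨n, a, ha, hopt, hgap⟩ := gap_pad i m (numbers h0 h36 h1 hi1)
  refine ⟨n, a, ha, hopt, ?_⟩
  linarith

end Vale.Agent.P302.Star
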