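import Vale.Agent.P302.StarSize
import Vale.Agent.P302.Pad

/-!
From quantitative star systems to bin packing instances with a given number of bins.
-/

namespace Vale.Agent.P302.Star

open Finset

/-- **Top level**, with a bound for the number of items. -/
theorem HasL.top {v L : ℝ} (h : HasL 1 v L) :
    ∃ (n : ℕ) (a : Fin n → ℚ), IsInstance a ∧ v / 8 ≤ (OPT a : ℝ) - LP a ∧
      (n : ℝ) ≤ 3 * L + 7 := by
  classical
  obtain ⟨S, Q, y, hQ, hy, hv, hL⟩ := h
  have hu : ∀ t, 0 ≤ usage y t := by
    intro t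
    rw [usage_eq]
    exact Finset.sum_nonneg fun τ _ => mul_nonneg (hy.nonneg τ) (Nat.cast_nonneg _)
  set uA := usage y (S.zero .A) with huA
  set uB := usage y (S.zero (.B 0)) with huB
  set uC := usage y (S.zero (.C 0)) with huC
  have hA0 : 0 ≤ uA := hu _
  have hB0 : 0 ≤ uB := hu _
  have hC0 : 0 ≤ uC := hu _
  set NB : ℕ := ⌈uB⌉₊ with hNB
  set NC : ℕ := ⌈uC⌉₊ + 1 with hNC
  set NA : ℕ := ⌈uA⌉₊ + 1 with hNA
  have b1 : uB ≤ NB := Nat.le_ceil _
  have b2 : (NB : ℝ) < uB + 1 := Nat.ceil_lt_add_one hB0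
  have c1 : uC + 1 ≤ NC := by
    rw [hNC]
    push_cast
    linarith [Nat.le_ceil uC]
  have c2 : (NC : ℝ) < uC + 2 := by
    rw [hNC]
    push_cast
    linarith [Nat.ceil_lt_add_one hC0]
  have a1 : uA + 1 ≤ NA := by
    rw [hNA]
    push_cast
    linarith [Nat.le_ceil uA]
  set q : ℝ := (NB - uB) / 2 with hq
  set u : ℝ := (NC - uC - q) / 2 with hu'
  set x : ℝ := (NA - uA - u) / 2 with hx
  have q0 : 0 ≤ q := by rw [hq]; linarith
  have q1 : q ≤ 1 / 2 := by rw [hq]; linarith
  have u0 : 0 ≤ u := by rw [hu']; linarith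
  have u1 : u ≤ 1 := by rw [hu']; linarith
  have x0 : 0 ≤ x := by rw [hx]; linarith
  have a2 : (NA : ℝ) < uA + 2 := by
    rw [hNA]
    push_cast
    linarith [Nat.ceil_lt_add_one hA0]
  have x1 : x ≤ 1 := by rw [hx]; linarith
  set N : S.T → ℕ := tN S NA NB NC with hN
  set c : (S.T × S.T × S.T) ⊕ Fin 3 → ℝ := Sum.elim y ![x, q, u] with hc
  -- the fractional solution uses every item exactly
  have huse : ∀ t, (N t : ℝ) = ∑ i, c i * (tP S i t : ℝ) := by
    intro t
    have e : ∑ i, c i * (tP S i t : ℝ) = usage y t + (x * (if t = S.zero .A then 2 else 0)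
        + q * (occ3 t (S.zero (.B 0), S.zero (.B 0), S.zero (.C 0)) : ℝ)
        + u * (occ3 t (S.zero .A, S.zero (.C 0), S.zero (.C 0)) : ℝ)) := by
      rw [Fintype.sum_sum_type, usage_eq, Fin.sum_univ_three]
      simp [hc, tP]
    rw [e]
    by_cases ht : S.Nz t
    · have e1 : ∀ p, ¬ S.zero p = t := fun p h => ht p h.symm
      have e2 : ∀ p, ¬ t = S.zero p := ht
      simp only [occ3, e1, e2, if_false]
      rw [hy.use t ht]
      simp [hN, tN, ht]
    · have ht' := ht
      unfold Sys.Nz at ht'
      push Not at ht'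
      obtain ⟨p, rfl⟩ := ht'
      have i1 : ∀ p p', S.zero p = S.zero p' ↔ p = p' :=
        fun p p' => ⟨zero_inj S, fun h => by rw [h]⟩
      rcases pt_cases p with rfl | rfl | rfl
      · simp only [hN, tN, ht, if_false, occ3, i1]
        simp
        rw [← huA, hx]
        ring
      · simp only [hN, tN, ht, if_false, occ3, i1]
        simp
        rw [← huB, hq]
        ring
      · simp only [hN, tN, ht, if_false, occ3, i1]
        simp
        rw [← huC, hu']
        ring
  refine ⟨_, tin N (tsize S), tin_instance fun t => tsize_bounds t, ?_, ?_⟩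
  swap
  · rw [Fintype.card_sigma]
    simp only [Fintype.card_fin]
    push_cast
    simp only [huse]
    rw [Finset.sum_comm]
    have e : ∀ i, ∑ t, c i * (tP S i t : ℝ) = c i * ∑ t, (tP S i t : ℝ) * (1 : ℝ) := by
      intro i
      rw [Finset.mul_sum]
      exact Finset.sum_congr rfl fun t _ => by ring
    rw [Finset.sum_congr rfl fun i _ => e i]
    simp only [tP_sum (fun _ => (1 : ℝ))]
    rw [Fintype.sum_sum_type, Fin.sum_univ_three]
    simp only [Sum.elim_inl, Sum.elim_inr, hc, ← Finset.sum_mul]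
    simp
    linarith
  have hLP : LP (tin N (tsize S)) ≤ ∑ i, c i := by
    refine lp_typed (fun t => (tsize_bounds t).1.le) c (tP S) ?_ ?_ fun t => (huse t).le
    · rintro (τ | i)
      · exact hy.nonneg τ
      · fin_cases i
        · exact x0
        · exact q0
        · exact u0
    · rintro (τ | i) hi
      · rw [tP_sum]
        exact good_size (hy.good τ hi)
      · rw [tP_sum]
        fin_cases i
        · have h1 := tsz_bounds (S := S) (S.zero .A)
          have hM := tM_pos (S := S)
          have h5 : (0 : ℚ) < (300 * tM S : ℤ) := by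
            exact_mod_cast (by linarith : 0 < 300 * tM S)
          have h2 : tsize S (S.zero .A) ≤ 1 / 2 := by
            unfold tsize
            rw [div_le_iff₀ h5]
            have : (tsz S (S.zero .A) : ℚ) ≤ ((103 * tM S : ℤ) : ℚ) := by exact_mod_cast h1.2
            have hM' : (0 : ℚ) < (tM S : ℚ) := by exact_mod_cast hM
            push_cast at this ⊢
            linarith
          simp
          linarith
        · refine strict_size (S := S) ?_
          simp [S.part_zero, offs]
        · refine strict_size (S := S) ?_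
          simp [S.part_zero, offs]
  have hW := packs_weight hQ (N := N) (fun t ht => by simp [hN, tN, ht])
    (packs_OPT (tin_instance (N := N) fun t => tsize_bounds t))
  have hW2 : ((∑ t, N t * wtop (S.part t) : ℕ) : ℝ) = 8 * ∑ i, c i + ∑ τ, y τ := by
    push_cast
    simp only [huse, Finset.sum_mul]
    rw [Finset.sum_comm]
    have e : ∀ i, ∑ t, c i * (tP S i t : ℝ) * (wtop (S.part t) : ℝ)
        = c i * ∑ t, (tP S i t : ℝ) * (wtop (S.part t) : ℝ) := by
      intro i
      rw [Finset.mul_sum]
      exact Finset.sum_congr rfl fun t _ => by ring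
    rw [Finset.sum_congr rfl fun i _ => e i]
    simp only [tP_sum (fun t => (wtop (S.part t) : ℝ))]
    rw [Fintype.sum_sum_type, Fintype.sum_sum_type, Fin.sum_univ_three, Fin.sum_univ_three]
    have e1 : ∀ τ : S.T × S.T × S.T, c (.inl τ) * ((wtop (S.part τ.1) : ℝ)
        + (wtop (S.part τ.2.1) : ℝ) + (wtop (S.part τ.2.2) : ℝ)) = 9 * y τ := by
      intro τ
      by_cases h0 : y τ = 0
      · simp [hc, h0]
      · obtain ⟨i, h1, h2, h3, _⟩ := hy.good τ h0
        rw [h1, h2, h3]
        simp only [hc, Sum.elim_inl, wtop]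
        push_cast
        ring
    simp only [Sum.elim_inl, Sum.elim_inr]
    rw [Finset.sum_congr rfl fun τ _ => e1 τ]
    simp [hc, S.part_zero, wtop, ← Finset.mul_sum]
    ring
  have hW3 : (8 * ∑ i, c i + ∑ τ, y τ : ℝ) ≤ 8 * (OPT (tin N (tsize S)) : ℝ) + Q := by
    rw [← hW2]
    exact_mod_cast hW
  linarith


end Vale.Agent.P302.Star
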