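import Vale.Agent.P302.StarDefs

/-!
The recursion for star systems: from a system with `m` edges and gap `v₁` and a system with `d + 1`
edges and gap `v₂` one gets a system with `m + 1` edges and gap `(d * (v₁ + 1) + v₂) / (d + 1)`.
-/

namespace Vale.Agent.P302.Star

open Finset

section general

variable {T : Type} [Fintype T] [DecidableEq T]

/-- occurrences of `t` in a triple -/
def occ3 (t : T) (τ : T × T × T) : ℕ :=
  (if τ.1 = t then 1 else 0) + (if τ.2.1 = t then 1 else 0) + (if τ.2.2 = t then 1 else 0)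

theorem usage_eq {R : Type} [CommSemiring R] (x : T × T × T → R) (t : T) :
    usage x t = ∑ τ, x τ * (occ3 t τ : R) := by
  unfold usage occ3
  refine Finset.sum_congr rfl fun τ _ => ?_
  push_cast
  simp only [mul_add, mul_ite, mul_one, mul_zero]

theorem sum_occ3 {R : Type} [CommSemiring R] (w : T → R) (τ : T × T × T) :
    ∑ t, (occ3 t τ : R) * w t = w τ.1 + w τ.2.1 + w τ.2.2 := by
  unfold occ3
  push_cast
  simp only [add_mul, ite_mul, one_mul, zero_mul, Finset.sum_add_distrib, Finset.sum_ite_eq,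
    Finset.mem_univ, if_true]

theorem sum_usage {R : Type} [CommSemiring R] (x : T × T × T → R) (w : T → R) :
    ∑ t, usage x t * w t = ∑ τ, x τ * (w τ.1 + w τ.2.1 + w τ.2.2) := by
  simp only [usage_eq, Finset.sum_mul]
  rw [Finset.sum_comm]
  refine Finset.sum_congr rfl fun τ _ => ?_
  rw [← sum_occ3 w τ, Finset.mul_sum]
  refine Finset.sum_congr rfl fun t _ => ?_
  ring

/-- the family of triples with coefficient `c i` at `g i` -/
def push {ι R : Type} [Fintype ι] [AddCommMonoid R] (c : ι → R) (g : ι → T × T × T)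
    (τ : T × T × T) : R :=
  ∑ i, if g i = τ then c i else 0

theorem sum_push_mul {ι R : Type} [Fintype ι] [CommSemiring R] (c : ι → R) (g : ι → T × T × T)
    (f : T × T × T → R) : ∑ τ, push c g τ * f τ = ∑ i, c i * f (g i) := by
  unfold push
  simp only [Finset.sum_mul]
  rw [Finset.sum_comm]
  refine Finset.sum_congr rfl fun i _ => ?_
  simp only [ite_mul, zero_mul, Finset.sum_ite_eq, Finset.mem_univ, if_true]

theorem sum_push {ι R : Type} [Fintype ι] [CommSemiring R] (c : ι → R) (g : ι → T × T × T) :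
    ∑ τ, push c g τ = ∑ i, c i := by
  simpa using sum_push_mul c g (fun _ => 1)

theorem usage_push {ι R : Type} [Fintype ι] [CommSemiring R] (c : ι → R) (g : ι → T × T × T)
    (t : T) : usage (push c g) t = ∑ i, c i * (occ3 t (g i) : R) := by
  rw [usage_eq]
  exact sum_push_mul c g _

omit [Fintype T] in
theorem push_ne_zero {ι R : Type} [Fintype ι] [AddCommMonoid R] {c : ι → R} {g : ι → T × T × T}
    {τ : T × T × T} (h : push c g τ ≠ 0) : ∃ i, g i = τ ∧ c i ≠ 0 := by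
  unfold push at h
  obtain ⟨i, _, hi⟩ := Finset.exists_ne_zero_of_sum_ne_zero h
  by_cases hg : g i = τ
  · rw [if_pos hg] at hi
    exact ⟨i, hg, hi⟩
  · rw [if_neg hg] at hi
    exact absurd rfl hi

omit [Fintype T] in
theorem push_nonneg {ι : Type} [Fintype ι] {c : ι → ℝ} {g : ι → T × T × T}
    (h : ∀ i, 0 ≤ c i) (τ : T × T × T) : 0 ≤ push c g τ := by
  unfold push
  refine Finset.sum_nonneg fun i _ => ?_
  split_ifs
  · exact h i
  · exact le_rfl

end general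

/-! ### The numbers -/

theorem exists_st (d : ℕ) (u g : ℕ → ℝ) (a : ℝ) :
    ∃ M N : ℕ, ∀ k : ℕ, k ≤ d → ∃ s t : ℕ → ℝ, (∀ j, j ≤ d → 0 ≤ s j) ∧ (∀ j, j < d → 0 ≤ t j) ∧
      (a + ∑ j ∈ range (d + 1), s j = ((k + (d + 1) * M : ℕ) : ℝ)) ∧
      (∀ j, j < d → u (j + 1) + s (j + 1) + t j = N) ∧
      (∀ j, j < d → g j + s j + t j = N) := by
  set κ : ℕ → ℝ := fun j => ∑ l ∈ range j, (g l - u (l + 1)) with hκ
  set Ks : ℝ := ∑ j ∈ range (d + 1), κ j with hKs
  have hd : (0 : ℝ) < (d : ℝ) + 1 := by positivity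
  -- the choice of `M`
  obtain ⟨M, hM⟩ : ∃ M : ℕ, ∀ j ∈ range (d + 1), (a + Ks) / (d + 1) - κ j ≤ M := by
    obtain ⟨M, hM⟩ := exists_nat_ge (∑ j ∈ range (d + 1), |(a + Ks) / (d + 1) - κ j|)
    refine ⟨M, fun j hj => le_trans (le_trans (le_abs_self _) ?_) hM⟩
    exact Finset.single_le_sum (f := fun j => |(a + Ks) / (d + 1) - κ j|)
      (fun _ _ => abs_nonneg _) hj
  obtain ⟨N, hN⟩ : ∃ N : ℕ, ∀ j ∈ range (d + 1), g j + ((d - a - Ks) / (d + 1) + κ j + M) ≤ N := by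
    obtain ⟨N, hN⟩ := exists_nat_ge
      (∑ j ∈ range (d + 1), |g j + ((d - a - Ks) / (d + 1) + κ j + M)|)
    refine ⟨N, fun j hj => le_trans (le_trans (le_abs_self _) ?_) hN⟩
    exact Finset.single_le_sum (f := fun j => |g j + ((d - a - Ks) / (d + 1) + κ j + M)|)
      (fun _ _ => abs_nonneg _) hj
  refine ⟨M, N, fun k hk => ?_⟩
  have hk' : (k : ℝ) ≤ d := by exact_mod_cast hk
  set σ : ℝ := (k - a - Ks) / (d + 1) with hσ
  refine ⟨fun j => σ + κ j + M, fun j => N - g j - (σ + κ j + M), ?_, ?_, ?_, ?_, ?_⟩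
  · intro j hj
    have h1 := hM j (Finset.mem_range.2 (by omega))
    have h2 : -((a + Ks) / (d + 1)) ≤ σ := by
      rw [hσ, ← neg_div]
      refine div_le_div_of_nonneg_right ?_ hd.le
      have : (0 : ℝ) ≤ k := Nat.cast_nonneg k
      linarith
    simp only
    linarith
  · intro j hj
    have h1 := hN j (Finset.mem_range.2 (by omega))
    have h2 : σ ≤ (d - a - Ks) / (d + 1) := by
      rw [hσ]
      refine div_le_div_of_nonneg_right ?_ hd.le
      linarith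
    simp only
    linarith
  · rw [Finset.sum_add_distrib, Finset.sum_add_distrib, Finset.sum_const, Finset.sum_const,
      Finset.card_range, ← hKs]
    simp only [nsmul_eq_mul]
    push_cast
    rw [hσ]
    field_simp
    ring
  · intro j hj
    have h1 : κ (j + 1) = κ j + (g j - u (j + 1)) := by
      rw [hκ]
      exact Finset.sum_range_succ _ _
    simp only [h1]
    ring
  · intro j hj
    simp only
    ring

/-! ### The composition -/

section comp

variable {m d : ℕ}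

/-- new parts of the types of the first system -/
def part1 : Pt m → Pt (m + 1)
  | .A => .A
  | .B i => .B i.succ
  | .C i => .C i.succ

/-- new parts of the types of the second system -/
def part2 : Pt (d + 1) → Pt (m + 1)
  | .A => .A
  | .B _ => .B 0
  | .C _ => .C 0

/-- coarse deviations -/
def crs1 : Pt m → ℤ
  | .A => -1
  | .B _ => 0
  | .C _ => 1

/-- coarse deviations -/
def crs2 : Pt (d + 1) → ℤ
  | .A => 0
  | .B j => -(2 * ((j : ℕ) : ℤ))
  | .C j => 2 * ((j : ℕ) : ℤ)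

/-- weights -/
def w1 : Pt m → ℕ
  | .A => 1
  | .B _ => 0
  | .C _ => 0

/-- weights -/
def w2 : Pt (d + 1) → ℕ
  | .A => 0
  | .B j => j
  | .C j => d - j

variable (S₁ : Sys m) (S₂ : Sys (d + 1))

/-- a bound for the deviations -/
def bd : ℤ := ∑ t, |S₁.dev t| + ∑ t, |S₂.dev t|

/-- fine deviations -/
def fine : S₁.T ⊕ S₂.T → ℤ := Sum.elim S₁.dev S₂.dev

/-- coarse deviations -/
def crs : S₁.T ⊕ S₂.T → ℤ :=
  Sum.elim (fun t => crs1 (S₁.part t)) (fun t => crs2 (S₂.part t))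

/-- weights -/
def wt : S₁.T ⊕ S₂.T → ℕ :=
  Sum.elim (fun t => w1 (S₁.part t)) (fun t => w2 (S₂.part t))

/-- zero types -/
def zeroc : Pt (m + 1) → S₁.T ⊕ S₂.T
  | .A => .inr (S₂.zero .A)
  | .B i => Fin.cases (.inr (S₂.zero (.B 0))) (fun h => .inl (S₁.zero (.B h))) i
  | .C i => Fin.cases (.inr (S₂.zero (.C (Fin.last d)))) (fun h => .inl (S₁.zero (.C h))) i

open Classical in
/-- multiplicities -/
noncomputable def mulc (NA NB : ℕ) : S₁.T ⊕ S₂.T → ℕ :=
  Sum.elim (fun t => if S₁.Nz t then S₁.n t else NA) (fun t => if S₂.Nz t then S₂.n t else NB)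

/-- the composition -/
noncomputable def comp (NA NB : ℕ) : Sys (m + 1) where
  T := S₁.T ⊕ S₂.T
  part := Sum.elim (fun t => part1 (S₁.part t)) (fun t => part2 (S₂.part t))
  dev t := (3 * bd S₁ S₂ + 1) * crs S₁ S₂ t + fine S₁ S₂ t
  n := mulc S₁ S₂ NA NB
  zero := zeroc S₁ S₂
  part_zero p := by
    rcases p with _ | i | i
    · simp [zeroc, S₂.part_zero, part2]
    · induction i using Fin.cases with
      | zero => simp [zeroc, S₂.part_zero, part2]
      | succ i => simp [zeroc, S₁.part_zero, part1]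
    · induction i using Fin.cases with
      | zero => simp [zeroc, S₂.part_zero, part2]
      | succ i => simp [zeroc, S₁.part_zero, part1]

/-- embedding of triples -/
def e1 (τ : S₁.T × S₁.T × S₁.T) :
    (S₁.T ⊕ S₂.T) × (S₁.T ⊕ S₂.T) × (S₁.T ⊕ S₂.T) := (.inl τ.1, .inl τ.2.1, .inl τ.2.2)

/-- embedding of triples -/
def e2 (τ : S₂.T × S₂.T × S₂.T) :
    (S₁.T ⊕ S₂.T) × (S₁.T ⊕ S₂.T) × (S₁.T ⊕ S₂.T) := (.inr τ.1, .inr τ.2.1, .inr τ.2.2)

variable {S₁ S₂}

theorem fine_le (t : S₁.T ⊕ S₂.T) : |fine S₁ S₂ t| ≤ bd S₁ S₂ := by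
  have h1 : (0 : ℤ) ≤ ∑ t, |S₁.dev t| := Finset.sum_nonneg fun _ _ => abs_nonneg _
  have h2 : (0 : ℤ) ≤ ∑ t, |S₂.dev t| := Finset.sum_nonneg fun _ _ => abs_nonneg _
  unfold bd
  rcases t with t | t
  · have : |S₁.dev t| ≤ ∑ t, |S₁.dev t| :=
      Finset.single_le_sum (f := fun t => |S₁.dev t|) (fun _ _ => abs_nonneg _) (Finset.mem_univ t)
    simp only [fine, Sum.elim_inl]
    linarith
  · have : |S₂.dev t| ≤ ∑ t, |S₂.dev t| :=
      Finset.single_le_sum (f := fun t => |S₂.dev t|) (fun _ _ => abs_nonneg _) (Finset.mem_univ t)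
    simp only [fine, Sum.elim_inr]
    linarith

theorem coarse {b s f : ℤ} (hf : |f| ≤ 3 * b) (h : (3 * b + 1) * s + f ≤ 0) :
    s ≤ 0 ∧ (s = 0 → f ≤ 0) := by
  have h0 : 0 ≤ b := by
    have := abs_nonneg f
    linarith
  refine ⟨?_, ?_⟩
  · by_contra hs
    have hs : 1 ≤ s := by omega
    have := (abs_le.1 hf).1
    nlinarith
  · rintro rfl
    linarith

theorem fine3 (a b c : S₁.T ⊕ S₂.T) :
    |fine S₁ S₂ a + fine S₁ S₂ b + fine S₁ S₂ c| ≤ 3 * bd S₁ S₂ := by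
  have h1 := fine_le a
  have h2 := fine_le b
  have h3 := fine_le c
  have h4 := abs_add_three (fine S₁ S₂ a) (fine S₁ S₂ b) (fine S₁ S₂ c)
  linarith

theorem good_cases {NA NB : ℕ} {τ : (S₁.T ⊕ S₂.T) × (S₁.T ⊕ S₂.T) × (S₁.T ⊕ S₂.T)}
    (h : (comp S₁ S₂ NA NB).Good τ) :
    (∃ τ₁, e1 S₁ S₂ τ₁ = τ ∧ S₁.Good τ₁) ∨ (∃ τ₂, e2 S₁ S₂ τ₂ = τ ∧ S₂.Good τ₂) ∨
      d + 1 ≤ wt S₁ S₂ τ.1 + wt S₁ S₂ τ.2.1 + wt S₁ S₂ τ.2.2 := by
  obtain ⟨a, b, c⟩ := τ
  obtain ⟨i, ha, hb, hc, hd⟩ := h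
  simp only [comp] at ha hb hc hd
  have hd' : (3 * bd S₁ S₂ + 1) * (crs S₁ S₂ a + crs S₁ S₂ b + crs S₁ S₂ c)
      + (fine S₁ S₂ a + fine S₁ S₂ b + fine S₁ S₂ c) ≤ 0 := by linarith
  obtain ⟨h1, h2⟩ := coarse (fine3 a b c) hd'
  rcases b with b | b
  · -- `b` in the first system
    simp only [Sum.elim_inl] at hb
    cases hpb : S₁.part b with
    | A => rw [hpb] at hb; simp [part1] at hb
    | C j => rw [hpb] at hb; simp [part1] at hb
    | B j =>
      rw [hpb] at hb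
      simp only [part1, Pt.B.injEq] at hb
      subst hb
      rcases c with c | c
      · simp only [Sum.elim_inl] at hc
        cases hpc : S₁.part c with
        | A => rw [hpc] at hc; simp [part1] at hc
        | B k => rw [hpc] at hc; simp [part1] at hc
        | C k =>
          rw [hpc] at hc
          simp only [part1, Pt.C.injEq, Fin.succ_inj] at hc
          subst hc
          rcases a with a | a
          · simp only [Sum.elim_inl] at ha
            have hpa : S₁.part a = Pt.A := by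
              cases hpa : S₁.part a with
              | A => rfl
              | B l => rw [hpa] at ha; simp [part1] at ha
              | C l => rw [hpa] at ha; simp [part1] at ha
            left
            refine ⟨(a, b, c), rfl, k, hpa, hpb, hpc, ?_⟩
            refine h2 ?_
            simp [crs, hpa, hpb, hpc, crs1]
          · exfalso
            simp only [Sum.elim_inr] at ha
            have hpa : S₂.part a = Pt.A := by
              cases hpa : S₂.part a with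
              | A => rfl
              | B l => rw [hpa] at ha; simp [part2] at ha
              | C l => rw [hpa] at ha; simp [part2] at ha
            simp [crs, hpa, hpb, hpc, crs1, crs2] at h1
      · exfalso
        simp only [Sum.elim_inr] at hc
        cases hpc : S₂.part c with
        | A => rw [hpc] at hc; simp [part2] at hc
        | B k => rw [hpc] at hc; simp [part2] at hc
        | C k =>
          rw [hpc] at hc
          simp only [part2, Pt.C.injEq] at hc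
          exact absurd hc.symm (Fin.succ_ne_zero j)
  · simp only [Sum.elim_inr] at hb
    cases hpb : S₂.part b with
    | A => rw [hpb] at hb; simp [part2] at hb
    | C j => rw [hpb] at hb; simp [part2] at hb
    | B j =>
      rw [hpb] at hb
      simp only [part2, Pt.B.injEq] at hb
      subst hb
      rcases c with c | c
      · exfalso
        simp only [Sum.elim_inl] at hc
        cases hpc : S₁.part c with
        | A => rw [hpc] at hc; simp [part1] at hc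
        | B k => rw [hpc] at hc; simp [part1] at hc
        | C k =>
          rw [hpc] at hc
          simp only [part1, Pt.C.injEq] at hc
          exact absurd hc (Fin.succ_ne_zero k)
      · simp only [Sum.elim_inr] at hc
        cases hpc : S₂.part c with
        | A => rw [hpc] at hc; simp [part2] at hc
        | B k => rw [hpc] at hc; simp [part2] at hc
        | C k =>
          have hj := j.2
          have hk := k.2
          rcases a with a | a
          · simp only [Sum.elim_inl] at ha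
            have hpa : S₁.part a = Pt.A := by
              cases hpa : S₁.part a with
              | A => rfl
              | B l => rw [hpa] at ha; simp [part1] at ha
              | C l => rw [hpa] at ha; simp [part1] at ha
            right; right
            simp only [crs, Sum.elim_inl, Sum.elim_inr, hpa, hpb, hpc, crs1, crs2] at h1
            simp only [wt, Sum.elim_inl, Sum.elim_inr, hpa, hpb, hpc, w1, w2]
            omega
          · simp only [Sum.elim_inr] at ha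
            have hpa : S₂.part a = Pt.A := by
              cases hpa : S₂.part a with
              | A => rfl
              | B l => rw [hpa] at ha; simp [part2] at ha
              | C l => rw [hpa] at ha; simp [part2] at ha
            right
            simp only [crs, Sum.elim_inr, hpa, hpb, hpc, crs2] at h1 h2
            rcases Nat.lt_or_ge k j with hlt | hge
            · right
              simp only [wt, Sum.elim_inr, hpa, hpb, hpc, w2]
              omega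
            · left
              have hjk : j = k := Fin.ext (by omega)
              subst hjk
              exact ⟨(a, b, c), rfl, j, hpa, hpb, hpc, h2 (by ring)⟩

theorem good1 {NA NB : ℕ} {τ : S₁.T × S₁.T × S₁.T} (h : S₁.Good τ) :
    (comp S₁ S₂ NA NB).Good (e1 S₁ S₂ τ) := by
  obtain ⟨i, ha, hb, hc, hd⟩ := h
  refine ⟨i.succ, ?_, ?_, ?_, ?_⟩
  · simp [comp, e1, ha, part1]
  · simp [comp, e1, hb, part1]
  · simp [comp, e1, hc, part1]
  · simp only [comp, e1, crs, fine, Sum.elim_inl, ha, hb, hc, crs1]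
    linarith

theorem good2 {NA NB : ℕ} {τ : S₂.T × S₂.T × S₂.T} (h : S₂.Good τ) :
    (comp S₁ S₂ NA NB).Good (e2 S₁ S₂ τ) := by
  obtain ⟨i, ha, hb, hc, hd⟩ := h
  refine ⟨0, ?_, ?_, ?_, ?_⟩
  · simp [comp, e2, ha, part2]
  · simp [comp, e2, hb, part2]
  · simp [comp, e2, hc, part2]
  · simp only [comp, e2, crs, fine, Sum.elim_inr, ha, hb, hc, crs2]
    linarith

theorem wt1 {τ : S₁.T × S₁.T × S₁.T} (h : S₁.Good τ) :
    wt S₁ S₂ (e1 S₁ S₂ τ).1 + wt S₁ S₂ (e1 S₁ S₂ τ).2.1 + wt S₁ S₂ (e1 S₁ S₂ τ).2.2 = 1 := by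
  obtain ⟨i, ha, hb, hc, hd⟩ := h
  simp [e1, wt, ha, hb, hc, w1]

theorem wt2 {τ : S₂.T × S₂.T × S₂.T} (h : S₂.Good τ) :
    wt S₁ S₂ (e2 S₁ S₂ τ).1 + wt S₁ S₂ (e2 S₁ S₂ τ).2.1 + wt S₁ S₂ (e2 S₁ S₂ τ).2.2 = d := by
  obtain ⟨i, ha, hb, hc, hd⟩ := h
  have := i.2
  simp only [e2, wt, Sum.elim_inr, ha, hb, hc, w2]
  omega

/-- first family of tight triples -/
def g3 (S₁ : Sys m) (S₂ : Sys (d + 1)) (j : Fin (d + 1)) :
    (S₁.T ⊕ S₂.T) × (S₁.T ⊕ S₂.T) × (S₁.T ⊕ S₂.T) :=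
  (.inl (S₁.zero .A), .inr (S₂.zero (.B j)), .inr (S₂.zero (.C j)))

/-- second family of tight triples -/
def g4 (S₁ : Sys m) (S₂ : Sys (d + 1)) (j : Fin d) :
    (S₁.T ⊕ S₂.T) × (S₁.T ⊕ S₂.T) × (S₁.T ⊕ S₂.T) :=
  (.inr (S₂.zero .A), .inr (S₂.zero (.B j.succ)), .inr (S₂.zero (.C j.castSucc)))

theorem good3 {NA NB : ℕ} (j : Fin (d + 1)) : (comp S₁ S₂ NA NB).Good (g3 S₁ S₂ j) := by
  refine ⟨0, ?_, ?_, ?_, ?_⟩
  · simp [comp, g3, S₁.part_zero, part1]
  · simp [comp, g3, S₂.part_zero, part2]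
  · simp [comp, g3, S₂.part_zero, part2]
  · have h := (abs_le.1 (fine3 (S₁ := S₁) (S₂ := S₂) (.inl (S₁.zero .A)) (.inr (S₂.zero (.B j)))
      (.inr (S₂.zero (.C j))))).2
    simp only [comp, g3, crs, Sum.elim_inl, Sum.elim_inr, S₁.part_zero, S₂.part_zero, crs1, crs2]
    linarith

theorem good4 {NA NB : ℕ} (j : Fin d) : (comp S₁ S₂ NA NB).Good (g4 S₁ S₂ j) := by
  refine ⟨0, ?_, ?_, ?_, ?_⟩
  · simp [comp, g4, S₂.part_zero, part2]
  · simp [comp, g4, S₂.part_zero, part2]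
  · simp [comp, g4, S₂.part_zero, part2]
  · have h := (abs_le.1 (fine3 (S₁ := S₁) (S₂ := S₂) (.inr (S₂.zero .A)) (.inr (S₂.zero (.B j.succ)))
      (.inr (S₂.zero (.C j.castSucc))))).2
    have h0 : 0 ≤ bd S₁ S₂ := le_trans (abs_nonneg _) (fine_le (.inr (S₂.zero .A)))
    simp only [comp, g4, crs, Sum.elim_inr, S₂.part_zero, crs2]
    push_cast [Fin.val_succ, Fin.val_castSucc]
    linarith

theorem wt3 (j : Fin (d + 1)) : wt S₁ S₂ (g3 S₁ S₂ j).1 + wt S₁ S₂ (g3 S₁ S₂ j).2.1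
    + wt S₁ S₂ (g3 S₁ S₂ j).2.2 = d + 1 := by
  have := j.2
  simp only [g3, wt, Sum.elim_inl, Sum.elim_inr, S₁.part_zero, S₂.part_zero, w1, w2]
  omega

theorem wt4 (j : Fin d) : wt S₁ S₂ (g4 S₁ S₂ j).1 + wt S₁ S₂ (g4 S₁ S₂ j).2.1
    + wt S₁ S₂ (g4 S₁ S₂ j).2.2 = d + 1 := by
  have := j.2
  simp only [g4, wt, Sum.elim_inr, S₂.part_zero, w2, Fin.val_succ, Fin.val_castSucc]
  omega

theorem e1_inj : Function.Injective (e1 S₁ S₂) := by
  rintro ⟨a, b, c⟩ ⟨a', b', c'⟩ h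
  simp only [e1, Prod.mk.injEq, Sum.inl.injEq] at h
  obtain ⟨rfl, rfl, rfl⟩ := h
  rfl

theorem e2_inj : Function.Injective (e2 S₁ S₂) := by
  rintro ⟨a, b, c⟩ ⟨a', b', c'⟩ h
  simp only [e2, Prod.mk.injEq, Sum.inr.injEq] at h
  obtain ⟨rfl, rfl, rfl⟩ := h
  rfl

theorem zero_inj {k : ℕ} (S : Sys k) {p q : Pt k} (h : S.zero p = S.zero q) : p = q := by
  rw [← S.part_zero p, ← S.part_zero q, h]

theorem wt_zeroc (p : Pt (m + 1)) : wt S₁ S₂ (zeroc S₁ S₂ p) = 0 := by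
  rcases p with _ | i | i
  · simp [zeroc, wt, S₂.part_zero, w2]
  · induction i using Fin.cases with
    | zero => simp [zeroc, wt, S₂.part_zero, w2]
    | succ i => simp [zeroc, wt, S₁.part_zero, w1]
  · induction i using Fin.cases with
    | zero => simp [zeroc, wt, S₂.part_zero, w2]
    | succ i => simp [zeroc, wt, S₁.part_zero, w1]

theorem nz_inl {NA NB : ℕ} {t : S₁.T} (h : S₁.Nz t) : (comp S₁ S₂ NA NB).Nz (.inl t) := by
  rintro (_ | i | i) hp
  · simp [comp, zeroc] at hp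
  · induction i using Fin.cases with
    | zero => simp [comp, zeroc] at hp
    | succ i =>
      simp only [comp, zeroc, Fin.cases_succ, Sum.inl.injEq] at hp
      exact h _ hp
  · induction i using Fin.cases with
    | zero => simp [comp, zeroc] at hp
    | succ i =>
      simp only [comp, zeroc, Fin.cases_succ, Sum.inl.injEq] at hp
      exact h _ hp

theorem nz_inr {NA NB : ℕ} {t : S₂.T} (h : S₂.Nz t) : (comp S₁ S₂ NA NB).Nz (.inr t) := by
  rintro (_ | i | i) hp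
  · simp only [comp, zeroc, Sum.inr.injEq] at hp
    exact h _ hp
  · induction i using Fin.cases with
    | zero =>
      simp only [comp, zeroc, Fin.cases_zero, Sum.inr.injEq] at hp
      exact h _ hp
    | succ i => simp [comp, zeroc] at hp
  · induction i using Fin.cases with
    | zero =>
      simp only [comp, zeroc, Fin.cases_zero, Sum.inr.injEq] at hp
      exact h _ hp
    | succ i => simp [comp, zeroc] at hp

theorem nz_cases {NA NB : ℕ} {t : S₁.T ⊕ S₂.T} (h : (comp S₁ S₂ NA NB).Nz t) :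
    (∃ t₁, t = .inl t₁ ∧ S₁.Nz t₁) ∨ t = .inl (S₁.zero .A) ∨ (∃ t₂, t = .inr t₂ ∧ S₂.Nz t₂) ∨
      (∃ j : Fin d, t = .inr (S₂.zero (.B j.succ))) ∨
      (∃ j : Fin d, t = .inr (S₂.zero (.C j.castSucc))) := by
  rcases t with t | t
  · by_cases h1 : S₁.Nz t
    · exact Or.inl ⟨t, rfl, h1⟩
    · unfold Sys.Nz at h1
      push Not at h1
      obtain ⟨p, rfl⟩ := h1
      rcases p with _ | i | i
      · exact Or.inr (Or.inl rfl)
      · exact absurd (by simp [comp, zeroc]) (h (.B i.succ))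
      · exact absurd (by simp [comp, zeroc]) (h (.C i.succ))
  · by_cases h1 : S₂.Nz t
    · exact Or.inr (Or.inr (Or.inl ⟨t, rfl, h1⟩))
    · unfold Sys.Nz at h1
      push Not at h1
      obtain ⟨p, rfl⟩ := h1
      rcases p with _ | i | i
      · exact absurd (by simp [comp, zeroc]) (h .A)
      · induction i using Fin.cases with
        | zero => exact absurd (by simp [comp, zeroc]) (h (.B 0))
        | succ i => exact Or.inr (Or.inr (Or.inr (Or.inl ⟨i, rfl⟩)))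
      · induction i using Fin.lastCases with
        | last => exact absurd (by simp [comp, zeroc]) (h (.C 0))
        | cast i => exact Or.inr (Or.inr (Or.inr (Or.inr ⟨i, rfl⟩)))

theorem not_nz_zero {k : ℕ} (S : Sys k) (p : Pt k) : ¬ S.Nz (S.zero p) := fun h => h p rfl

/-- summation along an injective map -/
theorem sum_inj_le {α β : Type} [Fintype α] [Fintype β] {e : α → β} (he : Function.Injective e)
    (f : β → ℕ) : ∑ a, f (e a) ≤ ∑ b, f b := by
  have h := Finset.sum_map (Finset.univ : Finset α) ⟨e, he⟩ f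
  simp only [Function.Embedding.coeFn_mk] at h
  rw [← h]
  exact Finset.sum_le_sum_of_subset (Finset.subset_univ _)

open Classical in
theorem int_comp_aux {NA NB Q₁ Q₂ Q : ℕ} (h1 : S₁.IntLe Q₁) (h2 : S₂.IntLe Q₂)
    (hQ : ∑ t, mulc S₁ S₂ NA NB t * wt S₁ S₂ t + d * Q₁ + Q₂ < (d + 1) * (Q + 1))
    (x : (S₁.T ⊕ S₂.T) × (S₁.T ⊕ S₂.T) × (S₁.T ⊕ S₂.T) → ℕ)
    (hx : ∀ τ, x τ ≠ 0 → (comp S₁ S₂ NA NB).Good τ)
    (hu : ∀ t : S₁.T ⊕ S₂.T, (comp S₁ S₂ NA NB).Nz t → usage x t ≤ mulc S₁ S₂ NA NB t) :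
    ∑ τ, x τ ≤ Q := by
  set x1 : S₁.T × S₁.T × S₁.T → ℕ := fun τ => if S₁.Good τ then x (e1 S₁ S₂ τ) else 0 with hx1
  set x2 : S₂.T × S₂.T × S₂.T → ℕ := fun τ => if S₂.Good τ then x (e2 S₁ S₂ τ) else 0 with hx2
  -- the subsystems
  have b1 : ∑ τ, x1 τ ≤ Q₁ := by
    refine h1 x1 ?_ ?_
    · intro τ hτ
      by_contra hg
      exact hτ (if_neg hg)
    · intro t ht
      have h3 := hu (.inl t) (nz_inl ht)
      have h4 : mulc S₁ S₂ NA NB (.inl t) = S₁.n t := by simp [mulc, ht]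
      rw [h4] at h3
      refine le_trans ?_ h3
      rw [usage_eq, usage_eq]
      refine le_trans ?_ (sum_inj_le (e1_inj (S₁ := S₁) (S₂ := S₂)) _)
      refine Finset.sum_le_sum fun τ _ => ?_
      have h5 : occ3 (Sum.inl t : S₁.T ⊕ S₂.T) (e1 S₁ S₂ τ) = occ3 t τ := by
        simp [occ3, e1]
      rw [h5]
      refine Nat.mul_le_mul_right _ ?_
      rw [hx1]
      simp only
      split_ifs
      · exact le_rfl
      · exact Nat.zero_le _
  have b2 : ∑ τ, x2 τ ≤ Q₂ := by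
    refine h2 x2 ?_ ?_
    · intro τ hτ
      by_contra hg
      exact hτ (if_neg hg)
    · intro t ht
      have h3 := hu (.inr t) (nz_inr ht)
      have h4 : mulc S₁ S₂ NA NB (.inr t) = S₂.n t := by simp [mulc, ht]
      rw [h4] at h3
      refine le_trans ?_ h3
      rw [usage_eq, usage_eq]
      refine le_trans ?_ (sum_inj_le (e2_inj (S₁ := S₁) (S₂ := S₂)) _)
      refine Finset.sum_le_sum fun τ _ => ?_
      have h5 : occ3 (Sum.inr t : S₁.T ⊕ S₂.T) (e2 S₁ S₂ τ) = occ3 t τ := by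
        simp [occ3, e2]
      rw [h5]
      refine Nat.mul_le_mul_right _ ?_
      rw [hx2]
      simp only
      split_ifs
      · exact le_rfl
      · exact Nat.zero_le _
  -- pointwise inequality
  have key : ∀ τ : (S₁.T ⊕ S₂.T) × (S₁.T ⊕ S₂.T) × (S₁.T ⊕ S₂.T), (d + 1) * x τ ≤
      x τ * (wt S₁ S₂ τ.1 + wt S₁ S₂ τ.2.1 + wt S₁ S₂ τ.2.2)
        + d * push x1 (e1 S₁ S₂) τ + push x2 (e2 S₁ S₂) τ := by
    intro τ
    by_cases h0 : x τ = 0
    · rw [h0]
      simp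
    rcases good_cases (hx τ h0) with ⟨τ₁, rfl, hg⟩ | ⟨τ₂, rfl, hg⟩ | hw
    · rw [wt1 hg]
      have h3 : x (e1 S₁ S₂ τ₁) ≤ push x1 (e1 S₁ S₂) (e1 S₁ S₂ τ₁) := by
        unfold push
        have := Finset.single_le_sum (f := fun i => if e1 S₁ S₂ i = e1 S₁ S₂ τ₁ then x1 i else 0)
          (fun _ _ => Nat.zero_le _) (Finset.mem_univ τ₁)
        simp only [if_true] at this
        refine le_trans (le_of_eq ?_) this
        rw [hx1]
        simp only
        rw [if_pos hg]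
      nlinarith [Nat.zero_le (push x2 (e2 S₁ S₂) (e1 S₁ S₂ τ₁)), Nat.mul_le_mul_left d h3]
    · rw [wt2 hg]
      have h3 : x (e2 S₁ S₂ τ₂) ≤ push x2 (e2 S₁ S₂) (e2 S₁ S₂ τ₂) := by
        unfold push
        have := Finset.single_le_sum (f := fun i => if e2 S₁ S₂ i = e2 S₁ S₂ τ₂ then x2 i else 0)
          (fun _ _ => Nat.zero_le _) (Finset.mem_univ τ₂)
        simp only [if_true] at this
        refine le_trans (le_of_eq ?_) this
        rw [hx2]
        simp only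
        rw [if_pos hg]
      nlinarith [Nat.zero_le (d * push x1 (e1 S₁ S₂) (e2 S₁ S₂ τ₂))]
    · have h3 := Nat.mul_le_mul_left (x τ) hw
      nlinarith [Nat.zero_le (d * push x1 (e1 S₁ S₂) τ), Nat.zero_le (push x2 (e2 S₁ S₂) τ)]
  have key2 := Finset.sum_le_sum fun τ (_ : τ ∈ Finset.univ) => key τ
  rw [← Finset.mul_sum, Finset.sum_add_distrib, Finset.sum_add_distrib, ← Finset.mul_sum,
    sum_push, sum_push, ← sum_usage x (wt S₁ S₂)] at key2
  have b3 : ∑ t, usage x t * wt S₁ S₂ t ≤ ∑ t, mulc S₁ S₂ NA NB t * wt S₁ S₂ t := by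
    refine Finset.sum_le_sum fun t _ => ?_
    by_cases ht : (comp S₁ S₂ NA NB).Nz t
    · exact Nat.mul_le_mul_right _ (hu t ht)
    · unfold Sys.Nz at ht
      push Not at ht
      obtain ⟨p, hp⟩ := ht
      have : wt S₁ S₂ t = 0 := by
        rw [hp]
        exact wt_zeroc p
      rw [this]
      simp
  have b4 : (d + 1) * ∑ τ, x τ < (d + 1) * (Q + 1) := by
    refine lt_of_le_of_lt ?_ hQ
    have := Nat.mul_le_mul_left d b1
    linarith
  exact Nat.le_of_lt_succ (Nat.lt_of_mul_lt_mul_left b4)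

theorem int_comp {NA NB Q₁ Q₂ Q : ℕ} (h1 : S₁.IntLe Q₁) (h2 : S₂.IntLe Q₂)
    (hQ : ∑ t, mulc S₁ S₂ NA NB t * wt S₁ S₂ t + d * Q₁ + Q₂ < (d + 1) * (Q + 1)) :
    (comp S₁ S₂ NA NB).IntLe Q :=
  fun x hx hu => int_comp_aux h1 h2 hQ x hx hu

section frac

variable {y₁ : S₁.T × S₁.T × S₁.T → ℝ} {y₂ : S₂.T × S₂.T × S₂.T → ℝ}

/-- coefficients of the fractional solution -/
def cf (y₁ : S₁.T × S₁.T × S₁.T → ℝ) (y₂ : S₂.T × S₂.T × S₂.T → ℝ) (s : Fin (d + 1) → ℝ)
    (t : Fin d → ℝ) :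
    (S₁.T × S₁.T × S₁.T) ⊕ (S₂.T × S₂.T × S₂.T) ⊕ Fin (d + 1) ⊕ Fin d → ℝ :=
  Sum.elim y₁ (Sum.elim y₂ (Sum.elim s t))

/-- triples of the fractional solution -/
def gf (S₁ : Sys m) (S₂ : Sys (d + 1)) :
    (S₁.T × S₁.T × S₁.T) ⊕ (S₂.T × S₂.T × S₂.T) ⊕ Fin (d + 1) ⊕ Fin d →
      (S₁.T ⊕ S₂.T) × (S₁.T ⊕ S₂.T) × (S₁.T ⊕ S₂.T) :=
  Sum.elim (e1 S₁ S₂) (Sum.elim (e2 S₁ S₂) (Sum.elim (g3 S₁ S₂) (g4 S₁ S₂)))

theorem usage_split (s : Fin (d + 1) → ℝ) (t : Fin d → ℝ) (a : S₁.T ⊕ S₂.T) :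
    usage (push (cf y₁ y₂ s t) (gf S₁ S₂)) a
      = ∑ τ, y₁ τ * (occ3 a (e1 S₁ S₂ τ) : ℝ) + (∑ τ, y₂ τ * (occ3 a (e2 S₁ S₂ τ) : ℝ)
        + (∑ j, s j * (occ3 a (g3 S₁ S₂ j) : ℝ) + ∑ j, t j * (occ3 a (g4 S₁ S₂ j) : ℝ))) := by
  rw [usage_push, Fintype.sum_sum_type, Fintype.sum_sum_type, Fintype.sum_sum_type]
  rfl

theorem usage_inl (s : Fin (d + 1) → ℝ) (t : Fin d → ℝ) (a : S₁.T) :
    usage (push (cf y₁ y₂ s t) (gf S₁ S₂)) (.inl a)
      = usage y₁ a + if S₁.zero .A = a then ∑ j, s j else 0 := by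
  rw [usage_split, usage_eq]
  have h1 : ∀ τ, occ3 (Sum.inl a : S₁.T ⊕ S₂.T) (e1 S₁ S₂ τ) = occ3 a τ := fun τ => by
    simp [occ3, e1]
  have h2 : ∀ τ, occ3 (Sum.inl a : S₁.T ⊕ S₂.T) (e2 S₁ S₂ τ) = 0 := fun τ => by
    simp [occ3, e2]
  have h3 : ∀ j, occ3 (Sum.inl a : S₁.T ⊕ S₂.T) (g3 S₁ S₂ j)
      = if S₁.zero .A = a then 1 else 0 := fun j => by
    simp [occ3, g3]
  have h4 : ∀ j, occ3 (Sum.inl a : S₁.T ⊕ S₂.T) (g4 S₁ S₂ j) = 0 := fun j => by
    simp [occ3, g4]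
  simp only [h1, h2, h3, h4, Nat.cast_zero, mul_zero, Finset.sum_const_zero, add_zero, zero_add]
  congr 1
  split_ifs <;> simp

theorem usage_inr (s : Fin (d + 1) → ℝ) (t : Fin d → ℝ) (a : S₂.T) :
    usage (push (cf y₁ y₂ s t) (gf S₁ S₂)) (.inr a)
      = usage y₂ a + (∑ j, s j * ((if S₂.zero (.B j) = a then 1 else 0)
        + (if S₂.zero (.C j) = a then 1 else 0)) + ∑ j, t j * ((if S₂.zero .A = a then 1 else 0)
        + (if S₂.zero (.B j.succ) = a then 1 else 0)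
        + (if S₂.zero (.C j.castSucc) = a then 1 else 0))) := by
  rw [usage_split, usage_eq]
  have h1 : ∀ τ, occ3 (Sum.inr a : S₁.T ⊕ S₂.T) (e1 S₁ S₂ τ) = 0 := fun τ => by
    simp [occ3, e1]
  have h2 : ∀ τ, occ3 (Sum.inr a : S₁.T ⊕ S₂.T) (e2 S₁ S₂ τ) = occ3 a τ := fun τ => by
    simp [occ3, e2]
  simp only [h1, h2, Nat.cast_zero, mul_zero, Finset.sum_const_zero, zero_add]
  congr 2
  · refine Finset.sum_congr rfl fun j _ => ?_
    simp [occ3, g3]
  · refine Finset.sum_congr rfl fun j _ => ?_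
    simp [occ3, g4]

theorem sum_mulc_eq {s : Fin (d + 1) → ℝ} {t : Fin d → ℝ} {NA NB : ℕ} (h : (comp S₁ S₂ NA NB).IsFrac
      (push (cf y₁ y₂ s t) (gf S₁ S₂))) (hy₁ : S₁.IsFrac y₁) (hy₂ : S₂.IsFrac y₂) :
    ((∑ a, mulc S₁ S₂ NA NB a * wt S₁ S₂ a : ℕ) : ℝ)
      = ∑ τ, y₁ τ + d * ∑ τ, y₂ τ + (d + 1) * (∑ j, s j + ∑ j, t j) := by
  have e : ((∑ a, mulc S₁ S₂ NA NB a * wt S₁ S₂ a : ℕ) : ℝ)
      = ∑ a, usage (push (cf y₁ y₂ s t) (gf S₁ S₂)) a * (wt S₁ S₂ a : ℝ) := by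
    push_cast
    refine Finset.sum_congr rfl fun a _ => ?_
    by_cases ha : (comp S₁ S₂ NA NB).Nz a
    · congr 1
      exact (h.use a ha).symm
    · unfold Sys.Nz at ha
      push Not at ha
      obtain ⟨p, hp⟩ := ha
      have : wt S₁ S₂ a = 0 := by
        rw [hp]
        exact wt_zeroc p
      rw [this]
      simp
  rw [e, sum_usage, sum_push_mul, Fintype.sum_sum_type, Fintype.sum_sum_type,
    Fintype.sum_sum_type]
  have t1 : ∀ τ, cf y₁ y₂ s t (.inl τ) * ((wt S₁ S₂ (gf S₁ S₂ (.inl τ)).1 : ℝ)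
      + (wt S₁ S₂ (gf S₁ S₂ (.inl τ)).2.1 : ℝ) + (wt S₁ S₂ (gf S₁ S₂ (.inl τ)).2.2 : ℝ)) = y₁ τ := by
    intro τ
    by_cases h0 : y₁ τ = 0
    · simp [cf, h0]
    · have := wt1 (S₂ := S₂) (hy₁.good τ h0)
      have h' : ((wt S₁ S₂ (e1 S₁ S₂ τ).1 : ℝ) + (wt S₁ S₂ (e1 S₁ S₂ τ).2.1 : ℝ)
        + (wt S₁ S₂ (e1 S₁ S₂ τ).2.2 : ℝ)) = 1 := by exact_mod_cast this
      change y₁ τ * _ = _
      rw [show gf S₁ S₂ (.inl τ) = e1 S₁ S₂ τ from rfl, h', mul_one]
  have t2 : ∀ τ, cf y₁ y₂ s t (.inr (.inl τ)) * ((wt S₁ S₂ (gf S₁ S₂ (.inr (.inl τ))).1 : ℝ)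
      + (wt S₁ S₂ (gf S₁ S₂ (.inr (.inl τ))).2.1 : ℝ)
      + (wt S₁ S₂ (gf S₁ S₂ (.inr (.inl τ))).2.2 : ℝ)) = y₂ τ * d := by
    intro τ
    by_cases h0 : y₂ τ = 0
    · simp [cf, h0]
    · have := wt2 (S₁ := S₁) (hy₂.good τ h0)
      have h' : ((wt S₁ S₂ (e2 S₁ S₂ τ).1 : ℝ) + (wt S₁ S₂ (e2 S₁ S₂ τ).2.1 : ℝ)
        + (wt S₁ S₂ (e2 S₁ S₂ τ).2.2 : ℝ)) = d := by exact_mod_cast this
      change y₂ τ * _ = _
      rw [show gf S₁ S₂ (.inr (.inl τ)) = e2 S₁ S₂ τ from rfl, h']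
  have t3 : ∀ j, cf y₁ y₂ s t (.inr (.inr (.inl j))) *
      ((wt S₁ S₂ (gf S₁ S₂ (.inr (.inr (.inl j)))).1 : ℝ)
      + (wt S₁ S₂ (gf S₁ S₂ (.inr (.inr (.inl j)))).2.1 : ℝ)
      + (wt S₁ S₂ (gf S₁ S₂ (.inr (.inr (.inl j)))).2.2 : ℝ)) = s j * (d + 1) := by
    intro j
    have := wt3 (S₁ := S₁) (S₂ := S₂) j
    have h' : ((wt S₁ S₂ (g3 S₁ S₂ j).1 : ℝ) + (wt S₁ S₂ (g3 S₁ S₂ j).2.1 : ℝ)
      + (wt S₁ S₂ (g3 S₁ S₂ j).2.2 : ℝ)) = d + 1 := by exact_mod_cast this
    change s j * _ = _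
    rw [show gf S₁ S₂ (.inr (.inr (.inl j))) = g3 S₁ S₂ j from rfl, h']
  have t4 : ∀ j, cf y₁ y₂ s t (.inr (.inr (.inr j))) *
      ((wt S₁ S₂ (gf S₁ S₂ (.inr (.inr (.inr j)))).1 : ℝ)
      + (wt S₁ S₂ (gf S₁ S₂ (.inr (.inr (.inr j)))).2.1 : ℝ)
      + (wt S₁ S₂ (gf S₁ S₂ (.inr (.inr (.inr j)))).2.2 : ℝ)) = t j * (d + 1) := by
    intro j
    have := wt4 (S₁ := S₁) (S₂ := S₂) j
    have h' : ((wt S₁ S₂ (g4 S₁ S₂ j).1 : ℝ) + (wt S₁ S₂ (g4 S₁ S₂ j).2.1 : ℝ)
      + (wt S₁ S₂ (g4 S₁ S₂ j).2.2 : ℝ)) = d + 1 := by exact_mod_cast this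
    change t j * _ = _
    rw [show gf S₁ S₂ (.inr (.inr (.inr j))) = g4 S₁ S₂ j from rfl, h']
  rw [Finset.sum_congr rfl fun τ _ => t1 τ, Finset.sum_congr rfl fun τ _ => t2 τ,
    Finset.sum_congr rfl fun τ _ => t3 τ, Finset.sum_congr rfl fun τ _ => t4 τ,
    ← Finset.sum_mul, ← Finset.sum_mul, ← Finset.sum_mul]
  ring

theorem gf_good {NA NB : ℕ} (s : Fin (d + 1) → ℝ) (t : Fin d → ℝ) (hy₁ : S₁.IsFrac y₁)
    (hy₂ : S₂.IsFrac y₂) (i) (hi : cf y₁ y₂ s t i ≠ 0) :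
    (comp S₁ S₂ NA NB).Good (gf S₁ S₂ i) := by
  rcases i with i | i | i | i
  · exact good1 (hy₁.good i hi)
  · exact good2 (hy₂.good i hi)
  · exact good3 i
  · exact good4 i

theorem frac_comp {NA NB : ℕ} {s : Fin (d + 1) → ℝ} {t : Fin d → ℝ} (hy₁ : S₁.IsFrac y₁)
    (hy₂ : S₂.IsFrac y₂) (hs : ∀ j, 0 ≤ s j) (ht : ∀ j, 0 ≤ t j)
    (hA : usage y₁ (S₁.zero .A) + ∑ j, s j = NA)
    (hB : ∀ j : Fin d, usage y₂ (S₂.zero (.B j.succ)) + s j.succ + t j = NB)
    (hC : ∀ j : Fin d, usage y₂ (S₂.zero (.C j.castSucc)) + s j.castSucc + t j = NB) :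
    (comp S₁ S₂ NA NB).IsFrac (push (cf y₁ y₂ s t) (gf S₁ S₂)) := by
  classical
  refine ⟨?_, ?_, ?_⟩
  · refine fun τ => push_nonneg ?_ τ
    rintro (i | i | i | i)
    · exact hy₁.nonneg i
    · exact hy₂.nonneg i
    · exact hs i
    · exact ht i
  · intro τ hτ
    obtain ⟨i, rfl, hi⟩ := push_ne_zero hτ
    exact gf_good s t hy₁ hy₂ i hi
  · intro a ha
    rcases nz_cases ha with ⟨a, rfl, h1⟩ | rfl | ⟨a, rfl, h1⟩ | ⟨j, rfl⟩ | ⟨j, rfl⟩
    · refine (usage_inl s t a).trans ?_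
      rw [if_neg (fun e => h1 _ e.symm), add_zero, hy₁.use a h1]
      simp [comp, mulc, h1]
    · refine (usage_inl s t _).trans ?_
      rw [if_pos rfl, hA]
      simp [comp, mulc, not_nz_zero]
    · refine (usage_inr s t a).trans ?_
      have e : ∀ p, S₂.zero p ≠ a := fun p e => h1 p e.symm
      simp only [e, if_false, add_zero, mul_zero, Finset.sum_const_zero]
      rw [hy₂.use a h1]
      simp [comp, mulc, h1]
    · refine (usage_inr s t _).trans ?_
      have e1 : ∀ k : Fin (d + 1), (S₂.zero (.B k) = S₂.zero (.B j.succ)) ↔ k = j.succ :=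
        fun k => ⟨fun h => by simpa using zero_inj S₂ h, fun h => by rw [h]⟩
      have e2 : ∀ k : Fin (d + 1), (S₂.zero (.C k) = S₂.zero (.B j.succ)) ↔ False :=
        fun k => ⟨fun h => by simpa using zero_inj S₂ h, fun h => h.elim⟩
      have e3 : (S₂.zero .A = S₂.zero (.B j.succ)) ↔ False :=
        ⟨fun h => by simpa using zero_inj S₂ h, fun h => h.elim⟩
      simp only [e1, e2, e3, if_false, add_zero, zero_add, Fin.succ_inj, mul_ite, mul_one, mul_zero,
        Finset.sum_ite_eq', Finset.mem_univ, if_true]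
      rw [← add_assoc, hB j]
      simp [comp, mulc, not_nz_zero]
    · refine (usage_inr s t _).trans ?_
      have e1 : ∀ k : Fin (d + 1), (S₂.zero (.B k) = S₂.zero (.C j.castSucc)) ↔ False :=
        fun k => ⟨fun h => by simpa using zero_inj S₂ h, fun h => h.elim⟩
      have e2 : ∀ k : Fin (d + 1), (S₂.zero (.C k) = S₂.zero (.C j.castSucc)) ↔ k = j.castSucc :=
        fun k => ⟨fun h => by simpa using zero_inj S₂ h, fun h => by rw [h]⟩
      have e3 : (S₂.zero .A = S₂.zero (.C j.castSucc)) ↔ False :=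
        ⟨fun h => by simpa using zero_inj S₂ h, fun h => h.elim⟩
      simp only [e1, e2, e3, if_false, add_zero, zero_add, Fin.castSucc_inj, mul_ite, mul_one,
        mul_zero, Finset.sum_ite_eq', Finset.mem_univ, if_true]
      rw [← add_assoc, hC j]
      simp [comp, mulc, not_nz_zero]

end frac

theorem sum_mulc_add (NA NB : ℕ) :
    ∑ a, mulc S₁ S₂ NA NB a * wt S₁ S₂ a = ∑ a, mulc S₁ S₂ 0 NB a * wt S₁ S₂ a + NA := by
  classical
  rw [Fintype.sum_sum_type, Fintype.sum_sum_type, add_right_comm]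
  congr 1
  have h : ∀ a : S₁.T, mulc S₁ S₂ NA NB (.inl a) * wt S₁ S₂ (.inl a)
      = mulc S₁ S₂ 0 NB (.inl a) * wt S₁ S₂ (.inl a) + if a = S₁.zero .A then NA else 0 := by
    intro a
    by_cases h1 : S₁.Nz a
    · rw [if_neg (h1 _)]
      simp [mulc, h1]
    · unfold Sys.Nz at h1
      push Not at h1
      obtain ⟨p, rfl⟩ := h1
      by_cases hp : p = .A
      · subst hp
        simp [mulc, not_nz_zero, wt, S₁.part_zero, w1]
      · rw [if_neg (fun e => hp (zero_inj S₁ e))]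
        rcases p with _ | i | i
        · exact absurd rfl hp
        · simp [wt, S₁.part_zero, w1]
        · simp [wt, S₁.part_zero, w1]
  rw [Finset.sum_congr rfl fun a _ => h a, Finset.sum_add_distrib]
  simp

end comp

theorem Has.step {m D : ℕ} {v₁ v₂ : ℝ} (hD : 1 ≤ D) (h1 : Has m v₁) (h2 : Has D v₂) :
    Has (m + 1) (((D - 1) * (v₁ + 1) + v₂) / D) := by
  obtain ⟨d, rfl⟩ : ∃ d, D = d + 1 := ⟨D - 1, by omega⟩
  obtain ⟨S₁, Q₁, y₁, hQ₁, hy₁, hv₁⟩ := h1
  obtain ⟨S₂, Q₂, y₂, hQ₂, hy₂, hv₂⟩ := h2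
  obtain ⟨M, N, hMN⟩ := exists_st d
    (fun j => if h : j < d + 1 then usage y₂ (S₂.zero (.B ⟨j, h⟩)) else 0)
    (fun j => if h : j < d + 1 then usage y₂ (S₂.zero (.C ⟨j, h⟩)) else 0)
    (usage y₁ (S₁.zero .A))
  set X : ℕ := ∑ a, mulc S₁ S₂ 0 N a * wt S₁ S₂ a + (d + 1) * M + d * Q₁ + Q₂ with hX
  have hX' : X % (d + 1) ≤ d := Nat.le_of_lt_succ (Nat.mod_lt _ (Nat.succ_pos d))
  obtain ⟨s, t, hs, ht, hA, hB, hC⟩ := hMN (d - X % (d + 1)) (by omega)
  set NA : ℕ := d - X % (d + 1) + (d + 1) * M with hNA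
  set s' : Fin (d + 1) → ℝ := fun j => s j with hs'
  set t' : Fin d → ℝ := fun j => t j with ht'
  have hfrac : (comp S₁ S₂ NA N).IsFrac (push (cf y₁ y₂ s' t') (gf S₁ S₂)) := by
    refine frac_comp hy₁ hy₂ (fun j => hs j (by omega)) (fun j => ht j j.2) ?_ ?_ ?_
    · rw [← hA, ← Fin.sum_univ_eq_sum_range]
    · intro j
      have h := hB j j.2
      rw [dif_pos (by omega)] at h
      exact h
    · intro j
      have h := hC j j.2
      rw [dif_pos (by omega)] at h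
      exact h
  have hW : ∑ a, mulc S₁ S₂ NA N a * wt S₁ S₂ a + d * Q₁ + Q₂
      = (d + 1) * (X / (d + 1)) + d := by
    rw [sum_mulc_add]
    have h1 := Nat.div_add_mod X (d + 1)
    omega
  refine ⟨comp S₁ S₂ NA N, X / (d + 1), push (cf y₁ y₂ s' t') (gf S₁ S₂), ?_, hfrac, ?_⟩
  · refine int_comp hQ₁ hQ₂ ?_
    rw [hW]
    ring_nf
    omega
  · have h1 := sum_mulc_eq hfrac hy₁ hy₂
    have h2 : ∑ τ, push (cf y₁ y₂ s' t') (gf S₁ S₂) τ
        = ∑ τ, y₁ τ + (∑ τ, y₂ τ + (∑ j, s' j + ∑ j, t' j)) := by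
      rw [sum_push, Fintype.sum_sum_type, Fintype.sum_sum_type, Fintype.sum_sum_type]
      rfl
    have h3 : (((∑ a, mulc S₁ S₂ NA N a * wt S₁ S₂ a : ℕ) : ℝ) + d * Q₁ + Q₂)
        = (d + 1) * ((X / (d + 1) : ℕ) : ℝ) + d := by exact_mod_cast hW
    have h4 : ∑ τ, push (cf y₁ y₂ s' t') (gf S₁ S₂) τ - ((X / (d + 1) : ℕ) : ℝ)
        = (d * ((∑ τ, y₁ τ - Q₁) + 1) + (∑ τ, y₂ τ - Q₂)) / (d + 1) := by
      rw [h1] at h3
      have hd : (0 : ℝ) < (d : ℝ) + 1 := by positivity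
      rw [h2, eq_div_iff hd.ne']
      linarith
    refine le_trans ?_ (le_of_eq h4.symm)
    push_cast
    have hd : (0 : ℝ) < (d : ℝ) + 1 := by positivity
    refine div_le_div_of_nonneg_right ?_ hd.le
    have hd0 : (0 : ℝ) ≤ d := Nat.cast_nonneg d
    have := mul_le_mul_of_nonneg_left hv₁ hd0
    nlinarith

/-- systems without good triples -/
def triv (m : ℕ) [Fintype (Pt m)] : Sys m where
  T := Pt m
  part := id
  dev _ := 1
  n _ := 0
  zero := id
  part_zero _ := rfl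

instance (m : ℕ) : Fintype (Pt m) :=
  Fintype.ofEquiv (Unit ⊕ Fin m ⊕ Fin m)
    { toFun := Sum.elim (fun _ => .A) (Sum.elim .B .C)
      invFun := fun p => match p with
        | .A => .inl ()
        | .B i => .inr (.inl i)
        | .C i => .inr (.inr i)
      left_inv := by rintro (_ | _ | _) <;> rfl
      right_inv := by rintro (_ | _ | _) <;> rfl }

theorem Has.base (m : ℕ) : Has m 0 := by
  refine ⟨triv m, 0, fun _ => 0, ?_, ⟨fun _ => le_rfl, fun _ h => absurd rfl h, ?_⟩, by simp⟩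
  · intro x hx _
    refine le_of_eq (Finset.sum_eq_zero fun τ _ => ?_)
    by_contra h
    obtain ⟨i, _, _, _, hd⟩ := hx τ h
    simp [triv] at hd
  · intro t ht
    exact absurd rfl (ht t)

end Vale.Agent.P302.Star
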