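import Vale.Agent.P302.StarInst
import Vale.Agent.P302.StarStep

/-!
From a star system with one edge to a bin packing instance.
-/

namespace Vale.Agent.P302.Star

open Finset

/-- coarse offsets of the sizes -/
def offs : Pt 1 → ℤ
  | .A => 2
  | .B _ => 1
  | .C _ => -3

/-- weights -/
def wtop : Pt 1 → ℕ
  | .A => 4
  | .B _ => 3
  | .C _ => 2

theorem pt_cases (p : Pt 1) : p = .A ∨ p = .B 0 ∨ p = .C 0 := by
  rcases p with _ | i | i
  · exact Or.inl rfl
  · exact Or.inr (Or.inl (by rw [Subsingleton.elim i 0]))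
  · exact Or.inr (Or.inr (by rw [Subsingleton.elim i 0]))

variable (S : Sys 1)

/-- a bound for the deviations -/
def tbd : ℤ := ∑ t, |S.dev t|

/-- scaling factor -/
def tM : ℤ := 4 * tbd S + 1

/-- sizes before scaling -/
def tsz (t : S.T) : ℤ := tM S * (100 + offs (S.part t)) + S.dev t

/-- sizes -/
def tsize (t : S.T) : ℚ := (tsz S t : ℚ) / (300 * tM S : ℤ)

variable {S}

theorem tbd_nonneg : 0 ≤ tbd S := Finset.sum_nonneg fun _ _ => abs_nonneg _

theorem tM_pos : 0 < tM S := by
  have := tbd_nonneg (S := S)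
  unfold tM
  linarith

theorem dev_le (t : S.T) : |S.dev t| ≤ tbd S :=
  Finset.single_le_sum (f := fun t => |S.dev t|) (fun _ _ => abs_nonneg _) (Finset.mem_univ t)

theorem tsz_bounds (t : S.T) : 96 * tM S ≤ tsz S t ∧ tsz S t ≤ 103 * tM S := by
  have h1 := abs_le.1 (dev_le t)
  have h2 := tbd_nonneg (S := S)
  have h3 := tM_pos (S := S)
  unfold tsz
  have h4 : tbd S ≤ tM S := by
    unfold tM
    linarith
  rcases pt_cases (S.part t) with h | h | h <;> rw [h] <;> simp only [offs] <;>
    constructor <;> linarith [h1.1, h1.2]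

theorem tsize_bounds (t : S.T) : 0 < tsize S t ∧ tsize S t ≤ 1 := by
  have h3 := tM_pos (S := S)
  have h4 := tsz_bounds t
  have h5 : (0 : ℚ) < (300 * tM S : ℤ) := by exact_mod_cast (by linarith : 0 < 300 * tM S)
  refine ⟨div_pos ?_ h5, (div_le_one h5).2 ?_⟩
  · exact_mod_cast (by linarith [h4.1] : 0 < tsz S t)
  · exact_mod_cast (by linarith [h4.2] : tsz S t ≤ 300 * tM S)

/-- feasibility of a bin in terms of integers -/
theorem bin_iff {ι : Type} (J : Finset ι) (τ : ι → S.T) :
    ∑ i ∈ J, tsize S (τ i) ≤ 1 ↔ ∑ i ∈ J, tsz S (τ i) ≤ 300 * tM S := by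
  have h3 := tM_pos (S := S)
  have h5 : (0 : ℚ) < (300 * tM S : ℤ) := by exact_mod_cast (by linarith : 0 < 300 * tM S)
  unfold tsize
  rw [← Finset.sum_div, div_le_one h5]
  exact_mod_cast Iff.rfl

/-- the bins of weight more than `8` -/
theorem heavy_bin {ι : Type} [DecidableEq ι] (J : Finset ι) (τ : ι → S.T)
    (h : ∑ i ∈ J, tsize S (τ i) ≤ 1) :
    ∑ i ∈ J, wtop (S.part (τ i)) ≤ 8 ∨
      (∑ i ∈ J, wtop (S.part (τ i)) = 9 ∧ ∃ i₁ ∈ J, ∃ i₂ ∈ J, ∃ i₃ ∈ J, i₁ ≠ i₂ ∧ i₁ ≠ i₃ ∧ i₂ ≠ i₃ ∧
        S.Good (τ i₁, τ i₂, τ i₃)) := by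
  rw [bin_iff] at h
  have hM := tM_pos (S := S)
  have hb := tbd_nonneg (S := S)
  -- at most three items
  have hcard : J.card ≤ 3 := by
    by_contra hc
    have h1 : (J.card : ℤ) * (96 * tM S) ≤ ∑ i ∈ J, tsz S (τ i) := by
      rw [← nsmul_eq_mul]
      exact Finset.card_nsmul_le_sum _ _ _ fun i _ => (tsz_bounds (τ i)).1
    have h2 : (4 : ℤ) ≤ J.card := by exact_mod_cast (by omega : 4 ≤ J.card)
    nlinarith
  set JA := J.filter (fun i => S.part (τ i) = .A) with hJA
  set JB := J.filter (fun i => S.part (τ i) = .B 0) with hJB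
  set JC := J.filter (fun i => S.part (τ i) = .C 0) with hJC
  -- sums over the parts
  have hsplit : ∀ {R : Type} [AddCommMonoid R] (F : Pt 1 → R), ∑ i ∈ J, F (S.part (τ i))
      = JA.card • F .A + JB.card • F (.B 0) + JC.card • F (.C 0) := by
    intro R _ F
    rw [hJA, hJB, hJC, ← Finset.sum_const, ← Finset.sum_const, ← Finset.sum_const,
      Finset.sum_filter, Finset.sum_filter, Finset.sum_filter, ← Finset.sum_add_distrib,
      ← Finset.sum_add_distrib]
    refine Finset.sum_congr rfl fun i _ => ?_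
    rcases pt_cases (S.part (τ i)) with h | h | h <;> rw [h] <;> simp
  have hc : J.card = JA.card + JB.card + JC.card := by
    have := hsplit (fun _ => (1 : ℕ))
    simpa using this
  have hw : ∑ i ∈ J, wtop (S.part (τ i)) = 4 * JA.card + 3 * JB.card + 2 * JC.card := by
    rw [hsplit wtop]
    simp only [wtop, smul_eq_mul]
    ring
  rw [hw]
  by_cases h3 : J.card = 3
  · have ho : ∑ i ∈ J, offs (S.part (τ i)) = 2 * (JA.card : ℤ) + JB.card - 3 * JC.card := by
      rw [hsplit offs]
      simp only [offs, nsmul_eq_mul]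
      ring
    have hs : ∑ i ∈ J, tsz S (τ i)
        = tM S * (100 * J.card + ∑ i ∈ J, offs (S.part (τ i))) + ∑ i ∈ J, S.dev (τ i) := by
      unfold tsz
      rw [Finset.sum_add_distrib, ← Finset.mul_sum, Finset.sum_add_distrib, Finset.sum_const,
        nsmul_eq_mul]
      ring
    have hd : |∑ i ∈ J, S.dev (τ i)| ≤ 3 * tbd S := by
      refine (Finset.abs_sum_le_sum_abs _ _).trans ?_
      have := Finset.sum_le_card_nsmul J (fun i => |S.dev (τ i)|) (tbd S) fun i _ => dev_le (τ i)
      rw [h3] at this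
      simpa using this
    rw [hs, h3] at h
    simp only [Nat.cast_ofNat] at h
    set o : ℤ := ∑ i ∈ J, offs (S.part (τ i)) with hodef
    have ho1 : o ≤ 0 := by
      by_contra hpos
      have : 1 ≤ o := by omega
      have := (abs_le.1 hd).1
      unfold tM at *
      nlinarith
    have hc' : JA.card + JB.card + JC.card = 3 := by omega
    by_cases h9 : JA.card = 1 ∧ JB.card = 1 ∧ JC.card = 1
    · right
      obtain ⟨ha, hb', hcc⟩ := h9
      refine ⟨by omega, ?_⟩
      obtain ⟨i₁, h1⟩ := Finset.card_eq_one.1 ha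
      obtain ⟨i₂, h2⟩ := Finset.card_eq_one.1 hb'
      obtain ⟨i₃, h3'⟩ := Finset.card_eq_one.1 hcc
      have m1 : i₁ ∈ JA := by rw [h1]; simp
      have m2 : i₂ ∈ JB := by rw [h2]; simp
      have m3 : i₃ ∈ JC := by rw [h3']; simp
      have m1' := Finset.mem_filter.1 m1
      have m2' := Finset.mem_filter.1 m2
      have m3' := Finset.mem_filter.1 m3
      have n12 : i₁ ≠ i₂ := by
        rintro rfl
        have := m1'.2.symm.trans m2'.2
        simp at this
      have n13 : i₁ ≠ i₃ := by
        rintro rfl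
        have := m1'.2.symm.trans m3'.2
        simp at this
      have n23 : i₂ ≠ i₃ := by
        rintro rfl
        have := m2'.2.symm.trans m3'.2
        simp at this
      refine ⟨i₁, m1'.1, i₂, m2'.1, i₃, m3'.1, n12, n13, n23, 0, m1'.2, m2'.2, m3'.2, ?_⟩
      have hJ : J = {i₁, i₂, i₃} := by
        symm
        refine Finset.eq_of_subset_of_card_le ?_ ?_
        · intro i hi
          simp only [Finset.mem_insert, Finset.mem_singleton] at hi
          rcases hi with rfl | rfl | rfl
          · exact m1'.1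
          · exact m2'.1
          · exact m3'.1
        · rw [h3, Finset.card_eq_three.2 ⟨i₁, i₂, i₃, n12, n13, n23, rfl⟩]
      have h0 : o = 0 := by
        rw [ho, ha, hb', hcc]
        norm_num
      rw [h0] at h
      have hdev : ∑ i ∈ J, S.dev (τ i) ≤ 0 := by linarith
      rw [hJ, Finset.sum_insert (by simp [n12, n13]), Finset.sum_insert (by simp [n23]),
        Finset.sum_singleton] at hdev
      simp only
      linarith
    · left
      rw [ho] at ho1
      omega
  · left
    omega

theorem occ3_le_card {ι : Type} [DecidableEq ι] (J : Finset ι) (τ : ι → S.T) {i₁ i₂ i₃ : ι}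
    (h1 : i₁ ∈ J) (h2 : i₂ ∈ J) (h3 : i₃ ∈ J) (n12 : i₁ ≠ i₂) (n13 : i₁ ≠ i₃) (n23 : i₂ ≠ i₃)
    (t : S.T) : occ3 t (τ i₁, τ i₂, τ i₃) ≤ (J.filter (fun i => τ i = t)).card := by
  have hs : ({i₁, i₂, i₃} : Finset ι) ⊆ J := by
    intro i hi
    simp only [Finset.mem_insert, Finset.mem_singleton] at hi
    rcases hi with rfl | rfl | rfl <;> assumption
  rw [Finset.card_filter]
  refine le_trans (le_of_eq ?_) (Finset.sum_le_sum_of_subset hs)
  rw [Finset.sum_insert (by simp [n12, n13]), Finset.sum_insert (by simp [n23]),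
    Finset.sum_singleton]
  simp only [occ3]
  omega

open Classical in
theorem packs_weight {N : S.T → ℕ} {Q k : ℕ} (hQ : S.IntLe Q) (hN : ∀ t, S.Nz t → N t = S.n t)
    (h : Packs (tin N (tsize S)) k) : ∑ t, N t * wtop (S.part t) ≤ 8 * k + Q := by
  obtain ⟨f, hf⟩ := packs_typed h
  set J : Fin k → Finset (Σ t, Fin (N t)) := fun b => univ.filter (fun x => f x = b) with hJ
  set W : Fin k → ℕ := fun b => ∑ x ∈ J b, wtop (S.part x.1) with hW
  have hg : ∀ b, ∃ τ : S.T × S.T × S.T, 8 < W b → (S.Good τ ∧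
      ∀ t, occ3 t τ ≤ ((J b).filter (fun x => x.1 = t)).card) := by
    intro b
    by_cases hb : 8 < W b
    · rcases heavy_bin (J b) (fun x => x.1) (hf b) with h1 | ⟨_, i₁, h1, i₂, h2, i₃, h3, n12, n13, n23, hgood⟩
      · exact absurd hb (not_lt.2 h1)
      · exact ⟨(i₁.1, i₂.1, i₃.1), fun _ => ⟨hgood, fun t =>
          occ3_le_card (J b) (fun x => x.1) h1 h2 h3 n12 n13 n23 t⟩⟩
    · exact ⟨(S.zero .A, S.zero .A, S.zero .A), fun h => absurd h hb⟩
  choose g hg using hg
  have h9 : ∀ b, W b ≤ 8 + if 8 < W b then 1 else 0 := by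
    intro b
    rcases heavy_bin (J b) (fun x => x.1) (hf b) with h1 | ⟨h1, _⟩
    · exact le_trans h1 (Nat.le_add_right _ _)
    · have h2 : W b = 9 := h1
      rw [if_pos (by omega)]
      omega
  -- the number of heavy bins
  have hheavy : ∑ b, (if 8 < W b then 1 else 0) ≤ Q := by
    rw [← sum_push (fun b => if 8 < W b then 1 else 0) g]
    refine hQ _ ?_ ?_
    · intro τ hτ
      obtain ⟨b, rfl, hb⟩ := push_ne_zero hτ
      have : 8 < W b := by
        by_contra hc
        exact hb (if_neg hc)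
      exact (hg b this).1
    · intro t ht
      rw [usage_push, ← hN t ht]
      have e : (N t) = ∑ b, ((J b).filter (fun x => x.1 = t)).card := by
        have e1 : ∑ b, ((J b).filter (fun x => x.1 = t)).card
            = ∑ x : (Σ t, Fin (N t)), if x.1 = t then 1 else 0 := by
          simp only [hJ, Finset.card_filter, Finset.sum_filter]
          rw [Finset.sum_comm]
          refine Finset.sum_congr rfl fun x _ => ?_
          simp
        rw [e1, Fintype.sum_sigma]
        have e2 : ∀ r : S.T, ∑ _x : Fin (N r), (if r = t then 1 else 0)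
            = if r = t then N r else 0 := by
          intro r
          by_cases hr : r = t <;> simp [hr]
        simp only [e2, Finset.sum_ite_eq', Finset.mem_univ, if_true]
      rw [e]
      refine Finset.sum_le_sum fun b _ => ?_
      split_ifs with hb
      · simpa using (hg b hb).2 t
      · simp
  have hsum : ∑ t, N t * wtop (S.part t) = ∑ b, W b := by
    have e1 : ∑ b, W b = ∑ x : (Σ t, Fin (N t)), wtop (S.part x.1) := by
      simp only [hW, hJ, Finset.sum_filter]
      rw [Finset.sum_comm]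
      refine Finset.sum_congr rfl fun x _ => ?_
      simp
    rw [e1, Fintype.sum_sigma]
    refine Finset.sum_congr rfl fun t _ => ?_
    simp
  rw [hsum]
  refine (Finset.sum_le_sum fun b _ => h9 b).trans ?_
  rw [Finset.sum_add_distrib, Finset.sum_const, Finset.card_univ, Fintype.card_fin, smul_eq_mul]
  linarith

open Classical in
/-- multiplicities -/
noncomputable def tN (S : Sys 1) (NA NB NC : ℕ) (t : S.T) : ℕ :=
  if S.Nz t then S.n t else if t = S.zero .A then NA else if t = S.zero (.B 0) then NB else NC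

/-- the patterns -/
def tP (S : Sys 1) : (S.T × S.T × S.T) ⊕ Fin 3 → S.T → ℕ :=
  Sum.elim (fun τ t => occ3 t τ)
    ![fun t => if t = S.zero .A then 2 else 0,
      fun t => occ3 t (S.zero (.B 0), S.zero (.B 0), S.zero (.C 0)),
      fun t => occ3 t (S.zero .A, S.zero (.C 0), S.zero (.C 0))]

theorem good_size {τ : S.T × S.T × S.T} (h : S.Good τ) :
    tsize S τ.1 + tsize S τ.2.1 + tsize S τ.2.2 ≤ 1 := by
  obtain ⟨i, h1, h2, h3, h4⟩ := h
  have hM := tM_pos (S := S)
  have h5 : (0 : ℚ) < (300 * tM S : ℤ) := by exact_mod_cast (by linarith : 0 < 300 * tM S)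
  unfold tsize
  rw [← add_div, ← add_div, div_le_one h5]
  have : tsz S τ.1 + tsz S τ.2.1 + tsz S τ.2.2 ≤ 300 * tM S := by
    unfold tsz
    rw [h1, h2, h3]
    simp only [offs]
    linarith
  exact_mod_cast this

theorem strict_size {a b c : S.T} (h : offs (S.part a) + offs (S.part b) + offs (S.part c) ≤ -1) :
    tsize S a + tsize S b + tsize S c ≤ 1 := by
  have hM := tM_pos (S := S)
  have h5 : (0 : ℚ) < (300 * tM S : ℤ) := by exact_mod_cast (by linarith : 0 < 300 * tM S)
  unfold tsize
  rw [← add_div, ← add_div, div_le_one h5]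
  have : tsz S a + tsz S b + tsz S c ≤ 300 * tM S := by
    have ha := (abs_le.1 (dev_le a)).2
    have hb := (abs_le.1 (dev_le b)).2
    have hc := (abs_le.1 (dev_le c)).2
    have h0 := tbd_nonneg (S := S)
    have e : tsz S a + tsz S b + tsz S c = 300 * tM S
        + tM S * (offs (S.part a) + offs (S.part b) + offs (S.part c))
        + (S.dev a + S.dev b + S.dev c) := by
      unfold tsz
      ring
    rw [e]
    have h6 : tM S * (offs (S.part a) + offs (S.part b) + offs (S.part c)) ≤ tM S * (-1) :=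
      mul_le_mul_of_nonneg_left h hM.le
    have h7 : 3 * tbd S ≤ tM S := by
      unfold tM
      linarith
    linarith
  exact_mod_cast this

theorem tP_sum {R : Type} [CommSemiring R] (F : S.T → R) (i) :
    ∑ t, (tP S i t : R) * F t = Sum.elim (fun τ : S.T × S.T × S.T => F τ.1 + F τ.2.1 + F τ.2.2)
      ![2 * F (S.zero .A), F (S.zero (.B 0)) + F (S.zero (.B 0)) + F (S.zero (.C 0)),
        F (S.zero .A) + F (S.zero (.C 0)) + F (S.zero (.C 0))] i := by
  rcases i with τ | i
  · exact sum_occ3 F τ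
  · fin_cases i
    · simp [tP]
    · exact sum_occ3 F _
    · exact sum_occ3 F _

/-- **Top level.** -/
theorem Has.top {v : ℝ} (h : Has 1 v) :
    ∃ (n : ℕ) (a : Fin n → ℚ), IsInstance a ∧ v / 8 ≤ (OPT a : ℝ) - LP a := by
  classical
  obtain ⟨S, Q, y, hQ, hy, hv⟩ := h
  have hu : ∀ t, 0 ≤ usage y t := by
    intro t
    rw [usage_eq]
    exact Finset.sum_nonneg fun τ _ => mul_nonneg (hy.nonneg τ) (Nat.cast_nonneg _)
  set uA := usage y (S.zero .A) with huA
  set uB := usage y (S.zero (.B 0)) with huB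
  set uC := usage y (S.zero (.C 0)) with huC
  have hA0 : 0 ≤ uA := hu _
  have hB0 : 0 ≤ uB := hu _
  have hC0 : 0 ≤ uC := hu _
  set NB : ℕ := ⌈uB⌉₊ with hNB
  set NC : ℕ := ⌈uC⌉₊ + 1 with hNC
  set NA : ℕ := ⌈uA⌉₊ + 1 with hNA
  have b1 : uB ≤ NB := Nat.le_ceil _
  have b2 : (NB : ℝ) < uB + 1 := Nat.ceil_lt_add_one hB0
  have c1 : uC + 1 ≤ NC := by
    rw [hNC]
    push_cast
    linarith [Nat.le_ceil uC]
  have c2 : (NC : ℝ) < uC + 2 := by
    rw [hNC]
    push_cast
    linarith [Nat.ceil_lt_add_one hC0]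
  have a1 : uA + 1 ≤ NA := by
    rw [hNA]
    push_cast
    linarith [Nat.le_ceil uA]
  set q : ℝ := (NB - uB) / 2 with hq
  set u : ℝ := (NC - uC - q) / 2 with hu'
  set x : ℝ := (NA - uA - u) / 2 with hx
  have q0 : 0 ≤ q := by rw [hq]; linarith
  have q1 : q ≤ 1 / 2 := by rw [hq]; linarith
  have u0 : 0 ≤ u := by rw [hu']; linarith
  have u1 : u ≤ 1 := by rw [hu']; linarith
  have x0 : 0 ≤ x := by rw [hx]; linarith
  set N : S.T → ℕ := tN S NA NB NC with hN
  set c : (S.T × S.T × S.T) ⊕ Fin 3 → ℝ := Sum.elim y ![x, q, u] with hc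
  -- the fractional solution uses every item exactly
  have huse : ∀ t, (N t : ℝ) = ∑ i, c i * (tP S i t : ℝ) := by
    intro t
    have e : ∑ i, c i * (tP S i t : ℝ) = usage y t + (x * (if t = S.zero .A then 2 else 0)
        + q * (occ3 t (S.zero (.B 0), S.zero (.B 0), S.zero (.C 0)) : ℝ)
        + u * (occ3 t (S.zero .A, S.zero (.C 0), S.zero (.C 0)) : ℝ)) := by
      rw [Fintype.sum_sum_type, usage_eq, Fin.sum_univ_three]
      simp [hc, tP]
    rw [e]
    by_cases ht : S.Nz t
    · have e1 : ∀ p, ¬ S.zero p = t := fun p h => ht p h.symm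
      have e2 : ∀ p, ¬ t = S.zero p := ht
      simp only [occ3, e1, e2, if_false]
      rw [hy.use t ht]
      simp [hN, tN, ht]
    · have ht' := ht
      unfold Sys.Nz at ht'
      push Not at ht'
      obtain ⟨p, rfl⟩ := ht'
      have i1 : ∀ p p', S.zero p = S.zero p' ↔ p = p' :=
        fun p p' => ⟨zero_inj S, fun h => by rw [h]⟩
      rcases pt_cases p with rfl | rfl | rfl
      · simp only [hN, tN, ht, if_false, occ3, i1]
        simp
        rw [← huA, hx]
        ring
      · simp only [hN, tN, ht, if_false, occ3, i1]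
        simp
        rw [← huB, hq]
        ring
      · simp only [hN, tN, ht, if_false, occ3, i1]
        simp
        rw [← huC, hu']
        ring
  refine ⟨_, tin N (tsize S), tin_instance fun t => tsize_bounds t, ?_⟩
  have hLP : LP (tin N (tsize S)) ≤ ∑ i, c i := by
    refine lp_typed (fun t => (tsize_bounds t).1.le) c (tP S) ?_ ?_ fun t => (huse t).le
    · rintro (τ | i)
      · exact hy.nonneg τ
      · fin_cases i
        · exact x0
        · exact q0
        · exact u0
    · rintro (τ | i) hi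
      · rw [tP_sum]
        exact good_size (hy.good τ hi)
      · rw [tP_sum]
        fin_cases i
        · have h1 := tsz_bounds (S := S) (S.zero .A)
          have hM := tM_pos (S := S)
          have h5 : (0 : ℚ) < (300 * tM S : ℤ) := by
            exact_mod_cast (by linarith : 0 < 300 * tM S)
          have h2 : tsize S (S.zero .A) ≤ 1 / 2 := by
            unfold tsize
            rw [div_le_iff₀ h5]
            have : (tsz S (S.zero .A) : ℚ) ≤ ((103 * tM S : ℤ) : ℚ) := by exact_mod_cast h1.2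
            have hM' : (0 : ℚ) < (tM S : ℚ) := by exact_mod_cast hM
            push_cast at this ⊢
            linarith
          simp
          linarith
        · refine strict_size (S := S) ?_
          simp [S.part_zero, offs]
        · refine strict_size (S := S) ?_
          simp [S.part_zero, offs]
  have hW := packs_weight hQ (N := N) (fun t ht => by simp [hN, tN, ht])
    (packs_OPT (tin_instance (N := N) fun t => tsize_bounds t))
  have hW2 : ((∑ t, N t * wtop (S.part t) : ℕ) : ℝ) = 8 * ∑ i, c i + ∑ τ, y τ := by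
    push_cast
    simp only [huse, Finset.sum_mul]
    rw [Finset.sum_comm]
    have e : ∀ i, ∑ t, c i * (tP S i t : ℝ) * (wtop (S.part t) : ℝ)
        = c i * ∑ t, (tP S i t : ℝ) * (wtop (S.part t) : ℝ) := by
      intro i
      rw [Finset.mul_sum]
      exact Finset.sum_congr rfl fun t _ => by ring
    rw [Finset.sum_congr rfl fun i _ => e i]
    simp only [tP_sum (fun t => (wtop (S.part t) : ℝ))]
    rw [Fintype.sum_sum_type, Fintype.sum_sum_type, Fin.sum_univ_three, Fin.sum_univ_three]
    have e1 : ∀ τ : S.T × S.T × S.T, c (.inl τ) * ((wtop (S.part τ.1) : ℝ)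
        + (wtop (S.part τ.2.1) : ℝ) + (wtop (S.part τ.2.2) : ℝ)) = 9 * y τ := by
      intro τ
      by_cases h0 : y τ = 0
      · simp [hc, h0]
      · obtain ⟨i, h1, h2, h3, _⟩ := hy.good τ h0
        rw [h1, h2, h3]
        simp only [hc, Sum.elim_inl, wtop]
        push_cast
        ring
    simp only [Sum.elim_inl, Sum.elim_inr]
    rw [Finset.sum_congr rfl fun τ _ => e1 τ]
    simp [hc, S.part_zero, wtop, ← Finset.mul_sum]
    ring
  have hW3 : (8 * ∑ i, c i + ∑ τ, y τ : ℝ) ≤ 8 * (OPT (tin N (tsize S)) : ℝ) + Q := by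
    rw [← hW2]
    exact_mod_cast hW
  linarith

end Vale.Agent.P302.Star
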